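import Claimed.Open.R067.Statement

/-!
# Sanity for `IsNef`: the instance hypotheses on the curves

`IsNef` of `Statement.lean` quantifies over curves `c : C ⟶ Spec ℂ` (proper, smooth of relative dimension one) with the
instance hypotheses `IsIntegral C` and `IsLocallyNoetherian C`, which are needed to speak of `Scheme.ord` (deviation 6 of
`CLAIM.md`), and every closed point counts once in `HasDegree` (deviation 3).

* `isLocallyNoetherian_of_isProper`: a scheme which is proper (or only locally of finite type) over `ℂ` is locally
  noetherian;
* `isNef_iff_forall_integral_curve`: so the hypothesis `IsLocallyNoetherian C` of `IsNef` excludes no curve: `IsNef π E` is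
  equivalent to the same condition for **all** integral proper smooth curves;
* `nonempty_residueField_iso_of_isClosed`: the residue field of a closed point of such a curve is `ℂ`, so the closed points
  have degree one.

Not shown here: that a connected smooth `ℂ`-scheme is integral.
-/

open AlgebraicGeometry CategoryTheory

namespace Claimed.Open.R067

/-- A scheme locally of finite type over `ℂ` is locally noetherian. -/
theorem isLocallyNoetherian_of_locallyOfFiniteType {C : Scheme.{0}} (c : C ⟶ SpecC)
    [LocallyOfFiniteType c] : IsLocallyNoetherian C :=
  LocallyOfFiniteType.isLocallyNoetherian c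

/-- A proper `ℂ`-scheme is locally noetherian. -/
theorem isLocallyNoetherian_of_isProper {C : Scheme.{0}} (c : C ⟶ SpecC) [IsProper c] :
    IsLocallyNoetherian C :=
  isLocallyNoetherian_of_locallyOfFiniteType c

/-- **The hypothesis `IsLocallyNoetherian C` of `IsNef` excludes no curve.** -/
theorem isNef_iff_forall_integral_curve {X : Scheme.{0}} (π : X ⟶ SpecC) (E : X.Modules) :
    IsNef π E ↔
      ∀ (C : Scheme.{0}) [IsIntegral C] (c : C ⟶ SpecC) [IsProper c]
        [SmoothOfRelativeDimension 1 c] (ν : C ⟶ X) (_ : ν ≫ π = c) (L : C.Modules)
        (q : (Scheme.Modules.pullback ν).obj E ⟶ L) [Epi q],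
        IsInvertible L →
          ∃ d : ℤ, (haveI := isLocallyNoetherian_of_isProper c; HasDegree L d) ∧ 0 ≤ d := by
  constructor
  · intro h C _ c _ _ ν hν L q _ hL
    have := isLocallyNoetherian_of_isProper c
    exact h C c ν hν L q hL
  · intro h C _ _ c _ _ ν hν L q _ hL
    exact h C c ν hν L q hL

/-- The residue field of a closed point of a scheme locally of finite type over `ℂ` is `ℂ`: in `HasDegree` every closed
point counts once. -/
theorem nonempty_residueField_iso_of_isClosed {C : Scheme.{0}} (c : C ⟶ SpecC)
    [LocallyOfFiniteType c] (x : C) (hx : IsClosed {x}) :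
    Nonempty (C.residueField x ≅ CommRingCat.of ℂ) :=
  ⟨residueFieldIsoBase c x hx⟩

end Claimed.Open.R067
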