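import Claimed.Open.R067.SanityProjSmooth

/-!
# Sanity for `projSpace`: `ℙ^N_ℂ` is proper, integral and noetherian

In particular `ℙ^1_ℂ` is one of the curves over which `IsNef` quantifies.
-/

open AlgebraicGeometry CategoryTheory MvPolynomial HomogeneousLocalization

namespace Claimed.Open.R067

attribute [local instance] MvPolynomial.gradedAlgebra

section

variable (N : ℕ)

lemma algebraMap_zero_surjective :
    Function.Surjective (algebraMap ℂ (homogeneousSubmodule (Fin (N + 1)) ℂ 0)) := by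
  rintro ⟨p, hp⟩
  have hp' := hp
  rw [homogeneousSubmodule_zero, Submodule.mem_one] at hp'
  obtain ⟨c, hc⟩ := hp'
  exact ⟨c, Subtype.ext hc⟩

lemma finiteType_over_zero :
    Algebra.FiniteType (homogeneousSubmodule (Fin (N + 1)) ℂ 0) (MvPolynomial (Fin (N + 1)) ℂ) :=
  have : IsScalarTower ℂ (homogeneousSubmodule (Fin (N + 1)) ℂ 0) (MvPolynomial (Fin (N + 1)) ℂ) :=
    IsScalarTower.of_algebraMap_eq (R := ℂ) (S := homogeneousSubmodule (Fin (N + 1)) ℂ 0)
      (A := MvPolynomial (Fin (N + 1)) ℂ) fun _ => rfl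
  Algebra.FiniteType.of_restrictScalars_finiteType ℂ _ _

/-- **`ℙ^N_ℂ` is proper over `ℂ`.** -/
theorem projSpaceHom_isProper : IsProper (projSpaceHom N) := by
  have := finiteType_over_zero N
  have h1 : IsProper (Proj.toSpecZero (homogeneousSubmodule (Fin (N + 1)) ℂ)) := inferInstance
  have h2 : IsClosedImmersion (Spec.map (CommRingCat.ofHom
      (algebraMap ℂ (homogeneousSubmodule (Fin (N + 1)) ℂ 0)))) :=
    IsClosedImmersion.spec_of_surjective _ (algebraMap_zero_surjective N)
  have h3 : IsProper (Proj.toSpecZero (homogeneousSubmodule (Fin (N + 1)) ℂ) ≫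
      Spec.map (CommRingCat.ofHom (algebraMap ℂ (homogeneousSubmodule (Fin (N + 1)) ℂ 0)))) :=
    inferInstance
  exact h3

/-- **`ℙ^N_ℂ` is locally noetherian.** -/
theorem projSpace_isLocallyNoetherian : IsLocallyNoetherian (projSpace N) := by
  have := projSpaceHom_isProper N
  exact LocallyOfFiniteType.isLocallyNoetherian (projSpaceHom N)

/-- **`ℙ^N_ℂ` is reduced.** -/
theorem projSpace_isReduced : IsReduced (projSpace N) := by
  have h : ∀ i, IsReduced ((projSpaceCover N).openCover.X i) := by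
    intro (i : Fin (N + 1))
    have : IsDomain (Away (homogeneousSubmodule (Fin (N + 1)) ℂ)
        (X i : MvPolynomial (Fin (N + 1)) ℂ)) := (awayEquiv ℂ i).symm.toMulEquiv.isDomain _
    exact inferInstanceAs (IsReduced (Spec (.of (Away (homogeneousSubmodule (Fin (N + 1)) ℂ)
        (X i : MvPolynomial (Fin (N + 1)) ℂ)))))
  exact IsReduced.of_openCover _ (projSpaceCover N).openCover

/-- **`ℙ^N_ℂ` is integral.** -/
theorem projSpace_isIntegral : IsIntegral (projSpace N) := by
  have := projSpace_isReduced N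
  have := projSpace_irreducibleSpace N
  exact isIntegral_of_irreducibleSpace_of_isReduced _

/-- **`ℙ^1_ℂ` is one of the curves over which `IsNef` quantifies**: integral, locally noetherian,
proper and smooth of relative dimension one over `ℂ`. -/
theorem projLine_isCurve : IsIntegral (projSpace 1) ∧ IsLocallyNoetherian (projSpace 1) ∧
    IsProper (projSpaceHom 1) ∧ SmoothOfRelativeDimension 1 (projSpaceHom 1) :=
  ⟨projSpace_isIntegral 1, projSpace_isLocallyNoetherian 1, projSpaceHom_isProper 1,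
    projSpaceHom_smooth 1⟩

/-- `ℙ^{N+1}` has more than one point. -/
theorem projSpace_nontrivial : Nontrivial (projSpace (N + 1)) := by
  have hdom : IsDomain (Away (homogeneousSubmodule (Fin (N + 1 + 1)) ℂ)
      (X 0 : MvPolynomial (Fin (N + 1 + 1)) ℂ)) := (awayEquiv ℂ 0).symm.toMulEquiv.isDomain _
  have hnf : ¬ IsField (Away (homogeneousSubmodule (Fin (N + 1 + 1)) ℂ)
      (X 0 : MvPolynomial (Fin (N + 1 + 1)) ℂ)) := by
    intro hf
    have hf' : IsField (MvPolynomial {j : Fin (N + 1 + 1) // j ≠ 0} ℂ) :=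
      (awayEquiv ℂ (0 : Fin (N + 1 + 1))).toMulEquiv.isField hf
    obtain ⟨p, hp⟩ := hf'.mul_inv_cancel
      (X_ne_zero (R := ℂ) (⟨1, by simp⟩ : {j : Fin (N + 1 + 1) // j ≠ 0}))
    have := congrArg (MvPolynomial.eval (fun _ => (0 : ℂ))) hp
    simp at this
  have h1 : ¬ Subsingleton (PrimeSpectrum (Away (homogeneousSubmodule (Fin (N + 1 + 1)) ℂ)
      (X 0 : MvPolynomial (Fin (N + 1 + 1)) ℂ))) := fun h =>
    hnf (PrimeSpectrum.subsingleton_iff_isField_of_isReduced.mp h)
  rw [not_subsingleton_iff_nontrivial] at h1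
  obtain ⟨y, z, hyz⟩ := h1
  have hopen : IsOpenImmersion (chart (N + 1) 0) :=
    inferInstanceAs (IsOpenImmersion (Proj.awayι (homogeneousSubmodule (Fin (N + 1 + 1)) ℂ) (X 0)
      (X_mem_deg_one ℂ 0) one_pos))
  have hinj : Function.Injective (chart (N + 1) 0) :=
    (Scheme.Hom.isOpenEmbedding (chart (N + 1) 0)).injective
  exact ⟨⟨chart (N + 1) 0 y, chart (N + 1) 0 z, fun h => hyz (hinj h)⟩⟩

end

end Claimed.Open.R067
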