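import Claimed.Open.R067.Statement

/-!
# Sanity for R067, group side: teeth of `IsRationalHomogeneous`

* quotients are unique up to isomorphism over `ℂ`;
* a rational homogeneous variety is proper and nonempty;
* so the affine line and the empty scheme are **not** rational homogeneous.
-/

namespace Claimed.Open.R067

open AlgebraicGeometry CategoryTheory Opposite TopologicalSpace Limits
open MonoidalCategory CartesianMonoidalCategory
open scoped MonObj

noncomputable section

variable {G : Over SpecC} [GrpObj G] {P : Subgroup (Points G)}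

/-- **Two quotients of `G` by `P` are isomorphic over `ℂ`, compatibly with the projections.** -/
theorem IsQuotient.exists_iso {Y Y' : Over SpecC} {q : G ⟶ Y} {q' : G ⟶ Y'}
    (h : IsQuotient G P q) (h' : IsQuotient G P q') : ∃ e : Y ≅ Y', q ≫ e.hom = q' := by
  obtain ⟨-, -, hi, hu⟩ := h
  obtain ⟨-, -, hi', hu'⟩ := h'
  obtain ⟨a, ha, -⟩ := hu Y' q' hi'
  obtain ⟨b, hb, -⟩ := hu' Y q hi
  refine ⟨⟨a, b, ?_, ?_⟩, ha⟩
  · exact (hu Y q hi).unique (by rw [← Category.assoc, ha, hb]) (Category.comp_id _)
  · exact (hu' Y' q' hi').unique (by rw [← Category.assoc, hb, ha]) (Category.comp_id _)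

/-- **A rational homogeneous variety is proper.** -/
theorem IsRationalHomogeneous.isProper {X : Scheme.{0}} {π : X ⟶ SpecC}
    (h : IsRationalHomogeneous π) : IsProper π := by
  obtain ⟨G, _, -, -, -, -, P, ⟨-, Y, q', hq', hY⟩, q, hq⟩ := h
  obtain ⟨e, -⟩ := hq.exists_iso hq'
  have h1 : π = e.hom.left ≫ Y.hom := (Over.w e.hom).symm
  have : IsIso e.hom.left := (Over.forget SpecC).map_isIso e.hom
  rw [h1]
  infer_instance

/-- A rational homogeneous variety is nonempty. -/
theorem IsRationalHomogeneous.nonempty {X : Scheme.{0}} {π : X ⟶ SpecC}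
    (h : IsRationalHomogeneous π) : Nonempty X := by
  obtain ⟨G, _, -, -, -, -, P, -, q, -⟩ := h
  exact ⟨q.left (Points.toPoint G 1)⟩

/-- The empty scheme is not rational homogeneous. -/
theorem not_isRationalHomogeneous_empty (π : (∅ : Scheme.{0}) ⟶ SpecC) :
    ¬ IsRationalHomogeneous π := fun h => by
  obtain ⟨x⟩ := h.nonempty
  exact isEmptyElim x

/-- **The affine line is not rational homogeneous.** -/
theorem not_isRationalHomogeneous_affineLine :
    ¬ IsRationalHomogeneous (X := Spec (CommRingCat.of (Polynomial ℂ)))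
      (Spec.map (CommRingCat.ofHom (algebraMap ℂ (Polynomial ℂ)))) := by
  intro h
  have h1 := h.isProper
  have h2 : IsFinite (Spec.map (CommRingCat.ofHom (algebraMap ℂ (Polynomial ℂ)))) :=
    IsFinite.iff_isProper_and_isAffineHom.mpr ⟨h1, inferInstance⟩
  rw [IsFinite.SpecMap_iff] at h2
  have h3 : (algebraMap ℂ (Polynomial ℂ)).Finite := h2
  exact Polynomial.not_finite (RingHom.finite_algebraMap.mp h3)

end

end Claimed.Open.R067
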