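import Mathlib

/-!
# Sanity for R067, group side, part 1: the Hopf algebra `ℂ[SL_n]`
-/

namespace Claimed.Open.R067

open Matrix MvPolynomial TensorProduct

noncomputable section

variable (n : Type) [Fintype n] [DecidableEq n]

/-- The ideal `(det x - 1)` of `ℂ[x_{ab}]`. -/
def slIdeal : Ideal (MvPolynomial (n × n) ℂ) := Ideal.span {det (mvPolynomialX n n ℂ) - 1}

/-- The coordinate ring `ℂ[x_{ab}]/(det x - 1)` of `SL_n` over `ℂ`. -/
def SLRing : Type := MvPolynomial (n × n) ℂ ⧸ slIdeal n

instance instCommRingSLRing : CommRing (SLRing n) :=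
  inferInstanceAs (CommRing (MvPolynomial (n × n) ℂ ⧸ slIdeal n))

instance instAlgebraSLRing : Algebra ℂ (SLRing n) :=
  inferInstanceAs (Algebra ℂ (MvPolynomial (n × n) ℂ ⧸ slIdeal n))

namespace SLRing

/-- The quotient map `ℂ[x_{ab}] → ℂ[SL_n]`. -/
def mk : MvPolynomial (n × n) ℂ →ₐ[ℂ] SLRing n := Ideal.Quotient.mkₐ ℂ (slIdeal n)

lemma mk_surjective : Function.Surjective (mk n) := Ideal.Quotient.mkₐ_surjective ℂ (slIdeal n)

lemma mk_eq_zero_iff (a : MvPolynomial (n × n) ℂ) : mk n a = 0 ↔ a ∈ slIdeal n :=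
  Ideal.Quotient.eq_zero_iff_mem

/-- The universal matrix of determinant one. -/
def univ : Matrix n n (SLRing n) := (mvPolynomialX n n ℂ).map (mk n)

lemma univ_apply (i j : n) : univ n i j = mk n (X (i, j)) := rfl

lemma det_univ : det (univ n) = 1 := by
  have h : det (univ n) = mk n (det (mvPolynomialX n n ℂ)) := by
    rw [univ, AlgHom.map_det]; rfl
  rw [h, ← sub_eq_zero, ← map_one (mk n), ← map_sub, mk_eq_zero_iff]
  exact Ideal.subset_span rfl

/-- The universal matrix as an element of `SL_n(ℂ[SL_n])`. -/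
def univSL : SpecialLinearGroup n (SLRing n) := ⟨univ n, det_univ n⟩

variable {n} {R S : Type} [CommRing R] [Algebra ℂ R] [CommRing S] [Algebra ℂ S]

lemma lift_aux (M : SpecialLinearGroup n R) (a : MvPolynomial (n × n) ℂ)
    (ha : a ∈ slIdeal n) :
    MvPolynomial.aeval (R := ℂ) (fun p : n × n => (M : Matrix n n R) p.1 p.2) a = 0 := by
  have hle : slIdeal n ≤
      RingHom.ker (MvPolynomial.aeval (R := ℂ) fun p : n × n => (M : Matrix n n R) p.1 p.2) := by
    rw [slIdeal, Ideal.span_le, Set.singleton_subset_iff, SetLike.mem_coe, RingHom.mem_ker, map_sub,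
      map_one, AlgHom.map_det]
    have : (MvPolynomial.aeval (R := ℂ) fun p : n × n => (M : Matrix n n R) p.1 p.2).mapMatrix
        (mvPolynomialX n n ℂ) = M := by
      ext i j; simp [mvPolynomialX]
    rw [this, M.det_coe, sub_self]
  exact hle ha

/-- The algebra map `ℂ[SL_n] → R` classifying a matrix `M ∈ SL_n(R)`. -/
def lift (M : SpecialLinearGroup n R) : SLRing n →ₐ[ℂ] R :=
  Ideal.Quotient.liftₐ (slIdeal n)
    (MvPolynomial.aeval fun p : n × n => (M : Matrix n n R) p.1 p.2) (lift_aux M)

lemma lift_mk (M : SpecialLinearGroup n R) (a : MvPolynomial (n × n) ℂ) :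
    lift M (mk n a) =
      MvPolynomial.aeval (R := ℂ) (fun p : n × n => (M : Matrix n n R) p.1 p.2) a :=
  rfl

/-- The matrix in `SL_n(R)` classified by an algebra map `ℂ[SL_n] → R`. -/
def toSL (φ : SLRing n →ₐ[ℂ] R) : SpecialLinearGroup n R :=
  SpecialLinearGroup.map φ (univSL n)

@[simp] lemma lift_univ (M : SpecialLinearGroup n R) (i j : n) :
    lift M (univ n i j) = (M : Matrix n n R) i j := by
  rw [univ_apply, lift_mk]
  simp

@[simp] lemma toSL_apply (φ : SLRing n →ₐ[ℂ] R) (i j : n) :
    (toSL φ : Matrix n n R) i j = φ (univ n i j) := rfl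

@[simp] lemma toSL_lift (M : SpecialLinearGroup n R) : toSL (lift M) = M := by
  ext i j; simp

lemma algHom_ext {φ ψ : SLRing n →ₐ[ℂ] R} (h : ∀ i j, φ (univ n i j) = ψ (univ n i j)) :
    φ = ψ := by
  have : φ.comp (mk n) = ψ.comp (mk n) := by
    apply MvPolynomial.algHom_ext
    rintro ⟨i, j⟩
    exact h i j
  ext a
  obtain ⟨b, rfl⟩ := mk_surjective n a
  exact congrArg (fun f : MvPolynomial (n × n) ℂ →ₐ[ℂ] R => f b) this

lemma toSL_injective : Function.Injective (toSL : (SLRing n →ₐ[ℂ] R) → _) := by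
  intro φ ψ h
  apply algHom_ext
  intro i j
  have := congrArg (fun M : SpecialLinearGroup n R => (M : Matrix n n R) i j) h
  simpa using this

@[simp] lemma lift_toSL (φ : SLRing n →ₐ[ℂ] R) : lift (toSL φ) = φ :=
  toSL_injective (by simp)

/-- `Hom_ℂ(ℂ[SL_n], R) = SL_n(R)`. -/
def equiv : (SLRing n →ₐ[ℂ] R) ≃ SpecialLinearGroup n R where
  toFun := toSL
  invFun := lift
  left_inv := lift_toSL
  right_inv := toSL_lift

lemma toSL_comp (ψ : R →ₐ[ℂ] S) (φ : SLRing n →ₐ[ℂ] R) :
    toSL (ψ.comp φ) = SpecialLinearGroup.map ψ (toSL φ) := by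
  ext i j; rfl

lemma comp_lift (ψ : R →ₐ[ℂ] S) (M : SpecialLinearGroup n R) :
    ψ.comp (lift M) = lift (SpecialLinearGroup.map ψ M) :=
  toSL_injective (by rw [toSL_comp]; simp)

@[simp] lemma toSL_id : toSL (AlgHom.id ℂ (SLRing n)) = univSL n := by
  ext i j; simp [univSL]

/-! ### The Hopf algebra structure -/

variable (n) in
/-- Comultiplication: `x_{ab} ↦ ∑_c x_{ac} ⊗ x_{cb}`. -/
def comulAlgHom : SLRing n →ₐ[ℂ] SLRing n ⊗[ℂ] SLRing n :=
  lift (toSL (Algebra.TensorProduct.includeLeft : SLRing n →ₐ[ℂ] SLRing n ⊗[ℂ] SLRing n) *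
    toSL (Algebra.TensorProduct.includeRight : SLRing n →ₐ[ℂ] SLRing n ⊗[ℂ] SLRing n))

variable (n) in
/-- Counit: the identity matrix. -/
def counitAlgHom : SLRing n →ₐ[ℂ] ℂ := lift 1

variable (n) in
/-- Antipode: the inverse of the universal matrix. -/
def antipodeAlgHom : SLRing n →ₐ[ℂ] SLRing n := lift (univSL n)⁻¹

lemma toSL_comp_comul (ψ : SLRing n ⊗[ℂ] SLRing n →ₐ[ℂ] R) :
    toSL (ψ.comp (comulAlgHom n)) =
      toSL (ψ.comp Algebra.TensorProduct.includeLeft) *
        toSL (ψ.comp Algebra.TensorProduct.includeRight) := by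
  rw [comulAlgHom, comp_lift, toSL_lift, map_mul, toSL_comp, toSL_comp]

lemma toSL_comp_counit (ψ : ℂ →ₐ[ℂ] R) : toSL (ψ.comp (counitAlgHom n)) = 1 := by
  rw [counitAlgHom, comp_lift, toSL_lift, map_one]

lemma toSL_comp_antipode (ψ : SLRing n →ₐ[ℂ] R) :
    toSL (ψ.comp (antipodeAlgHom n)) = (toSL ψ)⁻¹ := by
  rw [antipodeAlgHom, comp_lift, toSL_lift, map_inv, toSL]

instance instBialgebra : Bialgebra ℂ (SLRing n) :=
  Bialgebra.ofAlgHom (comulAlgHom n) (counitAlgHom n)
    (by
      apply toSL_injective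
      rw [← AlgHom.comp_assoc, toSL_comp_comul, toSL_comp_comul, AlgHom.comp_assoc,
        AlgHom.comp_assoc, Algebra.TensorProduct.map_comp_includeLeft,
        Algebra.TensorProduct.map_comp_includeRight, Algebra.TensorProduct.map_comp_includeLeft,
        Algebra.TensorProduct.map_comp_includeRight, ← AlgHom.comp_assoc, toSL_comp_comul,
        ← AlgHom.comp_assoc, toSL_comp_comul, mul_assoc]
      rfl)
    (by
      apply toSL_injective
      rw [toSL_comp_comul, Algebra.TensorProduct.map_comp_includeLeft,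
        Algebra.TensorProduct.map_comp_includeRight, toSL_comp_counit, one_mul]
      rfl)
    (by
      apply toSL_injective
      rw [toSL_comp_comul, Algebra.TensorProduct.map_comp_includeLeft,
        Algebra.TensorProduct.map_comp_includeRight, toSL_comp_counit, mul_one]
      rfl)

lemma bialgebra_comulAlgHom : Bialgebra.comulAlgHom ℂ (SLRing n) = comulAlgHom n := rfl

lemma bialgebra_counitAlgHom : Bialgebra.counitAlgHom ℂ (SLRing n) = counitAlgHom n := rfl

instance instHopfAlgebra : HopfAlgebra ℂ (SLRing n) :=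
  HopfAlgebra.ofAlgHom (antipodeAlgHom n)
    (by
      apply toSL_injective
      rw [bialgebra_comulAlgHom, bialgebra_counitAlgHom, toSL_comp_comul, toSL_comp_counit]
      have h1 : (Algebra.TensorProduct.lift (antipodeAlgHom n) (AlgHom.id ℂ (SLRing n))
          fun _ ↦ Commute.all _).comp Algebra.TensorProduct.includeLeft = antipodeAlgHom n := by
        ext x
        exact (Algebra.TensorProduct.lift_tmul _ _ (fun _ _ ↦ Commute.all _ _) _ _).trans (by simp)
      have h2 : (Algebra.TensorProduct.lift (antipodeAlgHom n) (AlgHom.id ℂ (SLRing n))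
          fun _ ↦ Commute.all _).comp Algebra.TensorProduct.includeRight = AlgHom.id ℂ _ := by
        ext x
        exact (Algebra.TensorProduct.lift_tmul _ _ (fun _ _ ↦ Commute.all _ _) _ _).trans (by simp)
      rw [h1, h2, ← AlgHom.id_comp (antipodeAlgHom n), toSL_comp_antipode, inv_mul_cancel])
    (by
      apply toSL_injective
      rw [bialgebra_comulAlgHom, bialgebra_counitAlgHom, toSL_comp_comul, toSL_comp_counit]
      have h1 : (Algebra.TensorProduct.lift (AlgHom.id ℂ (SLRing n)) (antipodeAlgHom n)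
          fun _ _ ↦ Commute.all _ _).comp Algebra.TensorProduct.includeLeft = AlgHom.id ℂ _ := by
        ext x; simp
      have h2 : (Algebra.TensorProduct.lift (AlgHom.id ℂ (SLRing n)) (antipodeAlgHom n)
          fun _ _ ↦ Commute.all _ _).comp Algebra.TensorProduct.includeRight =
          antipodeAlgHom n := by
        ext x; simp
      rw [h1, h2, ← AlgHom.id_comp (antipodeAlgHom n), toSL_comp_antipode, mul_inv_cancel])

/-- Convolution of algebra maps `ℂ[SL_n] → R` is multiplication of matrices. -/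
lemma toSL_convMul (φ ψ : WithConv (SLRing n →ₐ[ℂ] R)) :
    toSL (φ * ψ).ofConv = toSL φ.ofConv * toSL ψ.ofConv := by
  rw [AlgHom.convMul_def, WithConv.ofConv_toConv, ← AlgHom.comp_assoc, bialgebra_comulAlgHom,
    toSL_comp_comul]
  congr 2
  · ext x; simp
  · ext x; simp

/-! ### `ℂ[SL_n]` is a finitely generated domain -/

instance instFiniteType : Algebra.FiniteType ℂ (SLRing n) :=
  Algebra.FiniteType.of_surjective (mk n) (mk_surjective n)

section Domain

variable (n)

/-- `ℂ[x_{ab}][1/det]`, the coordinate ring of `GL_n`. -/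
abbrev GLRing : Type := Localization.Away (det (mvPolynomialX n n ℂ))

instance instIsDomainGLRing : IsDomain (GLRing n) :=
  IsLocalization.isDomain_localization
    (powers_le_nonZeroDivisors_of_noZeroDivisors (det_mvPolynomialX_ne_zero n ℂ))

/-- The generic matrix over `ℂ[GL_n]`. -/
def glUniv : Matrix n n (GLRing n) :=
  (mvPolynomialX n n ℂ).map (algebraMap (MvPolynomial (n × n) ℂ) (GLRing n))

lemma det_glUniv : det (glUniv n) =
    algebraMap (MvPolynomial (n × n) ℂ) (GLRing n) (det (mvPolynomialX n n ℂ)) := by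
  rw [glUniv, RingHom.map_det]; rfl

variable {n}

/-- The generic matrix with the column `i₀` divided by the determinant. -/
def glToSL (i₀ : n) : SpecialLinearGroup n (GLRing n) :=
  ⟨glUniv n * diagonal (fun j => if j = i₀ then
      IsLocalization.Away.invSelf (S := GLRing n) (det (mvPolynomialX n n ℂ)) else 1), by
    rw [det_mul, det_diagonal, Finset.prod_ite_eq' Finset.univ i₀, if_pos (Finset.mem_univ _),
      det_glUniv]
    exact IsLocalization.Away.mul_invSelf _⟩

/-- The retraction `ℂ[GL_n] → ℂ[SL_n]`. -/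
def glRetract : GLRing n →ₐ[ℂ] SLRing n :=
  IsLocalization.liftAlgHom (M := Submonoid.powers (det (mvPolynomialX n n ℂ))) (f := mk n) (by
    rintro ⟨_, k, rfl⟩
    have h : mk n (det (mvPolynomialX n n ℂ)) = 1 := by
      have h1 := det_univ n
      rwa [univ, ← AlgHom.mapMatrix_apply, ← AlgHom.map_det] at h1
    simp [h])

lemma mk_det : mk n (det (mvPolynomialX n n ℂ)) = 1 := by
  have h1 := det_univ n
  rwa [univ, ← AlgHom.mapMatrix_apply, ← AlgHom.map_det] at h1

lemma glRetract_algebraMap (a : MvPolynomial (n × n) ℂ) :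
    glRetract (n := n) (algebraMap _ (GLRing n) a) = mk n a := by
  simp [glRetract, IsLocalization.liftAlgHom_apply]

lemma glRetract_invSelf : glRetract (n := n)
    (IsLocalization.Away.invSelf (S := GLRing n) (det (mvPolynomialX n n ℂ))) = 1 := by
  have h := congrArg (glRetract (n := n))
    (IsLocalization.Away.mul_invSelf (S := GLRing n) (det (mvPolynomialX n n ℂ)))
  rwa [map_mul, glRetract_algebraMap, mk_det, one_mul, map_one] at h

lemma glRetract_comp_lift (i₀ : n) :
    (glRetract (n := n)).comp (lift (glToSL i₀)) = AlgHom.id ℂ _ := by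
  apply algHom_ext
  intro i j
  rw [AlgHom.comp_apply, lift_univ]
  simp only [glToSL, mul_diagonal, glUniv, map_apply, map_mul, glRetract_algebraMap,
    AlgHom.coe_id, id_eq]
  split_ifs
  · rw [glRetract_invSelf, mul_one]; rfl
  · rw [map_one, mul_one]; rfl

lemma lift_glToSL_injective (i₀ : n) : Function.Injective (lift (glToSL i₀)) := by
  intro a b h
  have := congrArg (glRetract (n := n)) h
  rw [← AlgHom.comp_apply, ← AlgHom.comp_apply, glRetract_comp_lift] at this
  exact this

instance instIsDomain [Nonempty n] : IsDomain (SLRing n) :=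
  (lift_glToSL_injective (Classical.arbitrary n)).isDomain _

end Domain

end SLRing

end

end Claimed.Open.R067
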