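import Mathlib

/-!
# Sanity for R067, group side: normal solvable subgroups of `SL_n(F)` are central
-/

namespace Claimed.Open.R067

open Matrix Matrix.SpecialLinearGroup
open scoped commutatorElement LinearAlgebra.Projectivization

variable {ι F : Type*} [Fintype ι] [DecidableEq ι] [Field F]

lemma diag2n_eq {i j : ι} (hij : i ≠ j) (a : F) (ha : a ≠ 0) :
    (diag2n hij a ha : Matrix ι ι F) =
      1 - single i i 1 - single j j 1 + single i i a + single j j a⁻¹ := by
  rw [diag2n_coe]
  ext k l
  by_cases hkl : k = l
  · subst hkl
    by_cases hki : k = i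
    · subst hki
      simp [hij.symm]
    · by_cases hkj : k = j
      · subst hkj
        simp [hij, hij.symm]
      · simp [hki, hkj, Ne.symm hki, Ne.symm hkj]
  · simp [single_apply, hkl]
    grind

lemma diag2n_decompose {i j : ι} (hij : i ≠ j) (a : F) (ha : a ≠ 0) :
    diag2n hij a ha = transvection hij a * transvection hij.symm (-a⁻¹) * transvection hij a *
      transvection hij (-1) * transvection hij.symm 1 * transvection hij (-1) := by
  apply Subtype.ext
  simp only [coe_mul, transvection_coe]
  rw [diag2n_eq]
  have e1 : ∀ (p q : ι) (c d : F), single p j c * single i q d = 0 :=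
    fun p q c d => single_mul_single_of_ne _ _ _ _ hij.symm _
  have e2 : ∀ (p q : ι) (c d : F), single p i c * single j q d = 0 :=
    fun p q c d => single_mul_single_of_ne _ _ _ _ hij _
  simp only [mul_add, add_mul, mul_one, one_mul, single_mul_single_same, e1, e2,
    add_zero]
  have hji : ¬ j = i := hij.symm
  ext k l
  simp only [Matrix.add_apply, Matrix.sub_apply, one_apply, single_apply]
  by_cases hki : i = k <;> by_cases hkj : j = k <;> by_cases hli : i = l <;> by_cases hlj : j = l <;>
    simp_all

theorem transvection_induction [Nontrivial ι] (P : SpecialLinearGroup ι F → Prop)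
    (htransvec : ∀ (i j : ι) (h : i ≠ j) (c : F), P (transvection h c))
    (hmul : ∀ A B, P A → P B → P (A * B)) (A : SpecialLinearGroup ι F) : P A := by
  refine diagonal_transvection_induction' P A (fun i j hij c hc => ?_) htransvec hmul
  rw [diag2n_decompose hij c hc]
  refine hmul _ _ (hmul _ _ (hmul _ _ (hmul _ _ (hmul _ _ ?_ ?_) ?_) ?_) ?_) ?_
  all_goals exact htransvec _ _ _ _

/-- The Iwasawa structure for `SL_n(F)` acting on projective space. -/
noncomputable def iwasawaSL [Nontrivial ι] :
    MulAction.IwasawaStructure (SpecialLinearGroup ι F) (ℙ F (ι → F)) where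
  T p := lineStab p.submodule
  is_comm p := by
    rw [← Projectivization.mk_rep p, Projectivization.submodule_mk]
    exact lineStab_isMulCommutative_of_span p.rep p.rep_nonzero
  is_conj g p := by rw [PSL.smul_submodule, lineStab_smul]
  is_generator := by
    refine le_antisymm le_top fun A _ => ?_
    refine transvection_induction (fun A => A ∈ ⨆ p : ℙ F (ι → F), lineStab p.submodule)
      (fun i j hij c => ?_) (fun _ _ => mul_mem) A
    have h := SL2Gen.transvection_mem_lineStab hij c
    rw [← Projectivization.submodule_mk (K := F) _ (Pi.single_ne_zero_iff.2 one_ne_zero)] at h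
    exact Subgroup.mem_iSup_of_mem _ h

lemma commutator_diag2n_transvection {i j : ι} (hij : i ≠ j) (a : F) (ha : a ≠ 0) (b : F) :
    ⁅diag2n hij a ha, transvection hij b⁆ = transvection hij (b * (a ^ 2 - 1)) := by
  have h : diag2n hij a ha * transvection hij b = transvection hij (a ^ 2 * b) * diag2n hij a ha := by
    apply Subtype.ext
    simp only [coe_mul, transvection_coe, diag2n_coe, mul_add, add_mul, mul_one, one_mul]
    congr 1
    ext k l
    simp only [diagonal_mul, mul_diagonal, single_apply]
    by_cases hki : i = k <;> by_cases hlj : j = l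
    · subst hki hlj
      simp [hij.symm]
      field_simp
    · simp [hki, hlj]
    · simp [hki, hlj]
    · simp [hki, hlj]
  rw [commutatorElement_def, h, mul_assoc (transvection hij (a ^ 2 * b)), mul_inv_cancel, mul_one,
    transvection_inv, ← transvection_add]
  congr 1
  ring

lemma commutator_SL_eq_top [Nontrivial ι] {a : F} (ha : a ≠ 0) (hasq : a ^ 2 ≠ 1) :
    commutator (SpecialLinearGroup ι F) = ⊤ := by
  refine le_antisymm le_top fun A _ => ?_
  refine transvection_induction (fun A => A ∈ commutator (SpecialLinearGroup ι F))
    (fun i j hij c => ?_) (fun _ _ => mul_mem) A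
  have h := commutator_diag2n_transvection hij a ha (c / (a ^ 2 - 1))
  rw [div_mul_cancel₀ c (sub_ne_zero_of_ne hasq)] at h
  rw [← h]
  exact Subgroup.commutator_mem_commutator (Subgroup.mem_top _) (Subgroup.mem_top _)

/-- A normal solvable subgroup of `SL_n(F)` is central (if `F` has an element `a ≠ 0, ±1`). -/
theorem le_center_of_normal_of_isSolvable {a : F} (ha : a ≠ 0) (hasq : a ^ 2 ≠ 1)
    (N : Subgroup (SpecialLinearGroup ι F)) (hN : N.Normal) (hs : Group.IsSolvable N) :
    N ≤ Subgroup.center (SpecialLinearGroup ι F) := by
  rcases subsingleton_or_nontrivial ι with hι | hι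
  · intro x _
    rw [Subsingleton.elim x 1]
    exact one_mem _
  by_contra hle
  have hfix : MulAction.fixedPoints N (ℙ F (ι → F)) ≠ Set.univ := by
    intro h
    apply hle
    intro m hm
    rw [← Projectivization.SL_mulAction_ker, MonoidHom.mem_ker]
    ext p
    exact Set.eq_univ_iff_forall.mp h p ⟨m, hm⟩
  have h1 : commutator (SpecialLinearGroup ι F) ≤ N := iwasawaSL.commutator_le N hfix
  rw [commutator_SL_eq_top ha hasq, top_le_iff] at h1
  subst h1
  have h2 : Group.IsSolvable (SpecialLinearGroup ι F) :=
    Group.isSolvable_of_surjective (f := (⊤ : Subgroup (SpecialLinearGroup ι F)).subtype)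
      (fun x => ⟨⟨x, trivial⟩, rfl⟩)
  have h3 : Nontrivial (SpecialLinearGroup ι F) := by
    obtain ⟨i, j, hij⟩ := exists_pair_ne ι
    refine ⟨⟨transvection hij 1, 1, fun h => ?_⟩⟩
    have h4 : transvection hij (1 : F) ∈ Subgroup.center (SpecialLinearGroup ι F) := by
      rw [h]; exact one_mem _
    rw [transvection_mem_center_iff] at h4
    exact one_ne_zero h4
  exact (Group.IsSolvable.commutator_lt_top_of_nontrivial (SpecialLinearGroup ι F)).ne
    (commutator_SL_eq_top ha hasq)

end Claimed.Open.R067
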