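import Claimed.Open.R067.SanityGroup
import Claimed.Open.R067.SanitySLRing
import Claimed.Open.R067.SanitySLSimple

/-!
# Sanity for R067, group side: the group scheme `SL_n` over `ℂ`
-/

namespace Claimed.Open.R067

open AlgebraicGeometry CategoryTheory Opposite TopologicalSpace Matrix
open MonoidalCategory CartesianMonoidalCategory
open scoped MonObj

noncomputable section

variable (n : Type) [Fintype n] [DecidableEq n]

/-- The group scheme `SL_n = Spec ℂ[x_{ab}]/(det - 1)` over `ℂ`. -/
def SLn : Over SpecC := (Spec (CommRingCat.of (SLRing n))).asOver SpecC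

instance instGrpObjSLn : GrpObj (SLn n) :=
  inferInstanceAs (GrpObj ((Spec (CommRingCat.of (SLRing n))).asOver (Spec (CommRingCat.of ℂ))))

instance instIsAffineSLn : IsAffine (SLn n).left :=
  inferInstanceAs (IsAffine (Spec (CommRingCat.of (SLRing n))))

instance instLocallyOfFiniteTypeSLn : LocallyOfFiniteType (SLn n).hom :=
  inferInstanceAs (LocallyOfFiniteType (Spec (CommRingCat.of (SLRing n)) ↘ Spec (CommRingCat.of ℂ)))

instance instIsIntegralSLn [Nonempty n] : IsIntegral (SLn n).left :=
  inferInstanceAs (IsIntegral (Spec (CommRingCat.of (SLRing n))))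

/-! ### The group of complex points -/

/-- `Spec ℂ` with the structure map `Spec (algebraMap ℂ ℂ)`. -/
abbrev SpecCOver : Over SpecC :=
  @Scheme.asOver (Spec (CommRingCat.of ℂ)) (Spec (CommRingCat.of ℂ))
    (specOverSpec (R := CommRingCat.of ℂ) (A := CommRingCat.of ℂ))

/-- The unit object of `Over (Spec ℂ)` is `Spec ℂ` with the structure map `Spec (algebraMap ℂ ℂ)`. -/
def unitIsoSpecC : 𝟙_ (Over SpecC) ≅ SpecCOver :=
  Over.isoMk (Iso.refl SpecC) (by
    change 𝟙 SpecC ≫ Spec.map (CommRingCat.ofHom (algebraMap ℂ ℂ)) = 𝟙 SpecC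
    rw [Algebra.algebraMap_self, Category.id_comp]
    exact Spec.map_id _)

variable {n}

/-- `Hom_ℂ(ℂ[SL_n], ℂ)` with convolution is `SL_n(ℂ)`. -/
def convEquivSL : WithConv (SLRing n →ₐ[ℂ] ℂ) ≃* SpecialLinearGroup n ℂ where
  toFun φ := SLRing.toSL φ.ofConv
  invFun M := WithConv.toConv (SLRing.lift M)
  left_inv φ := by simp
  right_inv M := by simp
  map_mul' := SLRing.toSL_convMul

/-- Precomposition with `unitIsoSpecC`. -/
def precompUnitIso : (SpecCOver ⟶ SLn n) ≃*
    Points (SLn n) where
  toFun f := unitIsoSpecC.hom ≫ f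
  invFun g := unitIsoSpecC.inv ≫ g
  left_inv f := by simp
  right_inv g := by simp
  map_mul' f g := by simp [MonObj.comp_mul]

/-- `SL_n(ℂ)` is the group of complex points of the group scheme `SL_n`. -/
def ptEquiv : Points (SLn n) ≃* SpecialLinearGroup n ℂ :=
  (precompUnitIso.symm.trans (Spec.mapMulEquiv (R := ℂ) (S := SLRing n) (T := ℂ)).symm).trans
    convEquivSL

lemma ptEquiv_symm_left (M : SpecialLinearGroup n ℂ) :
    (ptEquiv.symm M).left = Spec.map (CommRingCat.ofHom (SLRing.lift M).toRingHom) := by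
  change 𝟙 SpecC ≫ Spec.map (CommRingCat.ofHom (SLRing.lift M).toRingHom) = _
  exact Category.id_comp _

/-- The evaluation `ℂ[SL_n] → ℂ` at a complex point. -/
def evalAt (g : Points (SLn n)) : SLRing n →ₐ[ℂ] ℂ := SLRing.lift (ptEquiv g)

lemma left_eq_specMap_evalAt (g : Points (SLn n)) :
    g.left = Spec.map (CommRingCat.ofHom (evalAt g).toRingHom) := by
  conv_lhs => rw [← ptEquiv.symm_apply_apply g]
  exact ptEquiv_symm_left _

/-- The point of `Spec ℂ[SL_n]` under a complex point `g` is the kernel of evaluation at `g`. -/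
lemma toPoint_asIdeal (g : Points (SLn n)) :
    (show PrimeSpectrum (SLRing n) from Points.toPoint (SLn n) g).asIdeal =
      RingHom.ker (evalAt g).toRingHom := by
  have h : Points.toPoint (SLn n) g =
      PrimeSpectrum.comap (evalAt g).toRingHom (IsLocalRing.closedPoint ℂ) := by
    rw [Points.toPoint, left_eq_specMap_evalAt]
    rfl
  rw [h]
  ext a
  simp [RingHom.mem_ker, IsLocalRing.closedPoint]

/-! ### `SL_n` is semisimple -/

lemma finite_center_SL : Finite (Subgroup.center (SpecialLinearGroup n ℂ)) :=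
  haveI : NeZero (max (Fintype.card n) 1) := ⟨by omega⟩
  Finite.of_equiv _ (SpecialLinearGroup.center_equiv_rootsOfUnity (n := n) (R := ℂ)).symm.toEquiv

variable (n) in
/-- `SL_n` is semisimple in the sense of `Statement.lean`. -/
theorem isSemisimple_SLn : IsSemisimple (SLn n) := by
  rintro H ⟨-, hconn, hsolv⟩ hnormal
  let N : Subgroup (SpecialLinearGroup n ℂ) := H.map (ptEquiv (n := n)).toMonoidHom
  have hN : N.Normal := hnormal.map _ (ptEquiv (n := n)).surjective
  have hNs : Group.IsSolvable N :=
    Group.isSolvable_of_surjective (f := ((ptEquiv (n := n)).subgroupMap H).toMonoidHom)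
      ((ptEquiv (n := n)).subgroupMap H).surjective
  have hle : N ≤ Subgroup.center _ :=
    le_center_of_normal_of_isSolvable (a := (2 : ℂ)) (by norm_num) (by norm_num) N hN hNs
  have := finite_center_SL (n := n)
  have hfinN : (N : Set (SpecialLinearGroup n ℂ)).Finite :=
    (Set.toFinite (Subgroup.center (SpecialLinearGroup n ℂ) : Set _)).subset hle
  have hfinH : (H : Set (Points (SLn n))).Finite := by
    refine Set.Finite.of_finite_image (f := ptEquiv (n := n)) (hfinN.subset ?_)
      (ptEquiv (n := n)).injective.injOn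
    rintro _ ⟨h, hh, rfl⟩
    exact ⟨h, hh, rfl⟩
  have hsub : (H : Set (Points (SLn n))).Subsingleton := by
    by_contra hns
    exact (hconn.isPreconnected.infinite_of_nontrivial (Set.not_subsingleton_iff.mp hns)) hfinH
  rw [Subgroup.eq_bot_iff_forall]
  intro x hx
  exact hsub hx H.one_mem

end

end Claimed.Open.R067
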