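import Claimed.Open.R067.SanityGroup
import Claimed.Open.R067.SanityRatHomNot
import Claimed.Open.R067.SanitySL
import Claimed.Open.R067.SanityProjCurve

/-!
# Sanity for R067: teeth of `IsSemisimple`, of `IsParabolic` and of `IsProjective`

The multiplicative group `𝔾_m = Spec ℂ[T, T⁻¹]` is a connected affine algebraic group over `ℂ` which
* is **not** semisimple in the sense of `IsSemisimple` (it is its own radical);
* has a closed subgroup, the trivial one, which is **not** parabolic in the sense of `IsParabolic`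
  (the quotient is `𝔾_m` itself, which is not complete);
* is **not** projective in the sense of `IsProjective` (a projective scheme is proper).
-/

namespace Claimed.Open.R067

open AlgebraicGeometry CategoryTheory Opposite TopologicalSpace
open MonoidalCategory CartesianMonoidalCategory
open scoped MonObj LaurentPolynomial

noncomputable section

/-! ### General facts -/

section General

variable {G : Over SpecC}

/-- The `ℂ`-points of an irreducible variety form an irreducible space. -/
lemma Points.isPreirreducible_univ [LocallyOfFiniteType G.hom] [PreirreducibleSpace G.left] :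
    IsPreirreducible (Set.univ : Set (Points G)) := by
  have : JacobsonSpace G.left := LocallyOfFiniteType.jacobsonSpace G.hom
  rintro u v hu hv ⟨g, -, hg⟩ ⟨g', -, hg'⟩
  obtain ⟨U, hU, rfl⟩ := isOpen_induced_iff.mp hu
  obtain ⟨V, hV, rfl⟩ := isOpen_induced_iff.mp hv
  obtain ⟨x, hx⟩ := nonempty_preirreducible_inter hU hV ⟨_, hg⟩ ⟨_, hg'⟩
  obtain ⟨y, hy, hyc⟩ := nonempty_inter_closedPoints (Z := U ∩ V) ⟨x, hx⟩
    (hU.inter hV).isLocallyClosed
  obtain ⟨h, rfl⟩ := Points.exists_toPoint_eq (G := G) y hyc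
  exact ⟨h, trivial, hy⟩

/-- **A nontrivial commutative irreducible algebraic group is not semisimple**: it is a closed connected
solvable normal subgroup of itself. -/
theorem not_isSemisimple_of_comm [GrpObj G] [LocallyOfFiniteType G.hom]
    [PreirreducibleSpace G.left] (hc : ∀ a b : Points G, a * b = b * a)
    [Nontrivial (Points G)] : ¬ IsSemisimple G := by
  intro h
  have h1 : IsClosedConnectedSolvable G ⊤ := by
    refine ⟨by simp, ?_, Group.isSolvable_of_comm fun a b => Subtype.ext (hc a b)⟩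
    rw [Subgroup.coe_top]
    exact ⟨⟨1, trivial⟩, Points.isPreirreducible_univ.isPreconnected⟩
  exact top_ne_bot (h ⊤ h1 inferInstance)

/-- The identity of `G` is the quotient of `G` by the trivial subgroup. -/
theorem isQuotient_bot_id [GrpObj G] : IsQuotient G ⊥ (𝟙 G) := by
  refine ⟨fun x => ⟨x, rfl⟩, fun g g' => ?_, fun p hp => ?_, fun Z φ _ => ⟨φ, by simp, ?_⟩⟩
  · rw [Category.comp_id, Category.comp_id, Subgroup.mem_bot, inv_mul_eq_one]
  · rw [Subgroup.mem_bot] at hp
    subst hp
    rw [Category.comp_id]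
    change (GrpObj.mulRight η[G]).hom = _
    rw [GrpObj.mulRight_one]
    rfl
  · intro ψ hψ
    simpa using hψ

/-- If the trivial subgroup of `G` is parabolic, then `G` is complete. -/
theorem isProper_of_isParabolic_bot [GrpObj G] (h : IsParabolic G ⊥) : IsProper G.hom := by
  obtain ⟨-, Y, q, hq, hY⟩ := h
  obtain ⟨e, -⟩ := isQuotient_bot_id.exists_iso hq
  have h1 : G.hom = e.hom.left ≫ Y.hom := (Over.w e.hom).symm
  have : IsIso e.hom.left := (Over.forget SpecC).map_isIso e.hom
  rw [h1]
  infer_instance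

end General

/-! ### The multiplicative group -/

/-- The multiplicative group `𝔾_m = Spec ℂ[T, T⁻¹]` over `ℂ`. -/
def Gm : Over SpecC := (Spec (CommRingCat.of ℂ[T;T⁻¹])).asOver SpecC

instance instGrpObjGm : GrpObj Gm :=
  inferInstanceAs (GrpObj ((Spec (CommRingCat.of ℂ[T;T⁻¹])).asOver (Spec (CommRingCat.of ℂ))))

instance instIsAffineGm : IsAffine Gm.left :=
  inferInstanceAs (IsAffine (Spec (CommRingCat.of ℂ[T;T⁻¹])))

instance instFiniteTypeLaurent : Algebra.FiniteType ℂ ℂ[T;T⁻¹] :=
  inferInstanceAs (Algebra.FiniteType ℂ (AddMonoidAlgebra ℂ ℤ))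

instance instLocallyOfFiniteTypeGm : LocallyOfFiniteType Gm.hom :=
  inferInstanceAs (LocallyOfFiniteType (Spec (CommRingCat.of ℂ[T;T⁻¹]) ↘ Spec (CommRingCat.of ℂ)))

instance instIsIntegralGm : IsIntegral Gm.left :=
  inferInstanceAs (IsIntegral (Spec (CommRingCat.of ℂ[T;T⁻¹])))

/-- Precomposition with `unitIsoSpecC`. -/
def gmPrecompUnitIso : (SpecCOver ⟶ Gm) ≃* Points Gm where
  toFun f := unitIsoSpecC.hom ≫ f
  invFun g := unitIsoSpecC.inv ≫ g
  left_inv f := by simp
  right_inv g := by simp
  map_mul' f g := by simp [MonObj.comp_mul]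

/-- `𝔾_m(ℂ) = Hom_ℂ(ℂ[T, T⁻¹], ℂ)` with convolution. -/
def gmPtEquiv : WithConv (ℂ[T;T⁻¹] →ₐ[ℂ] ℂ) ≃* Points Gm :=
  (Spec.mapMulEquiv (R := ℂ) (S := ℂ[T;T⁻¹]) (T := ℂ)).trans gmPrecompUnitIso

lemma gm_mul_comm (a b : Points Gm) : a * b = b * a := by
  obtain ⟨a, rfl⟩ := gmPtEquiv.surjective a
  obtain ⟨b, rfl⟩ := gmPtEquiv.surjective b
  rw [← map_mul, ← map_mul, mul_comm]

/-- Evaluation of Laurent polynomials at a nonzero complex number. -/
def gmEval (x : ℂˣ) : ℂ[T;T⁻¹] →ₐ[ℂ] ℂ :=
  { LaurentPolynomial.eval₂ (RingHom.id ℂ) x with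
    commutes' := fun r => by
      change LaurentPolynomial.eval₂ (RingHom.id ℂ) x (LaurentPolynomial.C r) = r
      rw [LaurentPolynomial.eval₂_C]
      rfl }

lemma gmEval_T (x : ℂˣ) : gmEval x (LaurentPolynomial.T 1) = x := by
  change LaurentPolynomial.eval₂ (RingHom.id ℂ) x (LaurentPolynomial.T 1) = x
  rw [LaurentPolynomial.eval₂_T, zpow_one]

instance instNontrivialPointsGm : Nontrivial (Points Gm) := by
  refine ⟨gmPtEquiv (WithConv.toConv (gmEval 1)),
    gmPtEquiv (WithConv.toConv (gmEval (Units.mk0 2 two_ne_zero))), fun h => ?_⟩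
  have h1 := WithConv.toConv_injective (gmPtEquiv.injective h)
  have h2 := congrArg (fun φ : ℂ[T;T⁻¹] →ₐ[ℂ] ℂ => φ (LaurentPolynomial.T 1)) h1
  simp only [gmEval_T] at h2
  norm_num at h2

/-- **`𝔾_m` is not semisimple**: `IsSemisimple` has teeth. -/
theorem not_isSemisimple_Gm : ¬ IsSemisimple Gm :=
  not_isSemisimple_of_comm gm_mul_comm

/-- `𝔾_m` is not complete. -/
theorem not_isProper_Gm : ¬ IsProper Gm.hom := by
  intro h1
  have h1' : IsProper (Spec.map (CommRingCat.ofHom (algebraMap ℂ ℂ[T;T⁻¹]))) := h1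
  have h2 : IsFinite (Spec.map (CommRingCat.ofHom (algebraMap ℂ ℂ[T;T⁻¹]))) :=
    IsFinite.iff_isProper_and_isAffineHom.mpr ⟨h1', inferInstance⟩
  rw [IsFinite.SpecMap_iff] at h2
  have h3 : (algebraMap ℂ ℂ[T;T⁻¹]).Finite := h2
  have h4 : Module.Finite ℂ ℂ[T;T⁻¹] := RingHom.finite_algebraMap.mp h3
  have h5 : Module.Finite ℂ (Polynomial ℂ) :=
    Module.Finite.of_injective (Polynomial.toLaurentAlg (R := ℂ)).toLinearMap
      Polynomial.toLaurent_injective
  exact Polynomial.not_finite h5

/-- **The trivial subgroup of `𝔾_m` is closed but not parabolic**: `IsParabolic` has teeth. -/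
theorem not_isParabolic_bot_Gm : ¬ IsParabolic Gm ⊥ := fun h =>
  not_isProper_Gm (isProper_of_isParabolic_bot h)

lemma isClosed_bot_Gm : IsClosed ((⊥ : Subgroup (Points Gm)) : Set (Points Gm)) := by
  rw [Subgroup.coe_bot]
  exact isClosed_singleton

/-- A projective `ℂ`-scheme in the sense of `IsProjective` is proper. -/
theorem IsProjective.isProper {X : Scheme.{0}} {π : X ⟶ SpecC} (h : IsProjective π) :
    IsProper π := by
  obtain ⟨N, i, hi, rfl⟩ := h
  have := projSpaceHom_isProper N
  infer_instance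

/-- **`𝔾_m` is not projective**: `IsProjective` has teeth. -/
theorem not_isProjective_Gm : ¬ IsProjective Gm.hom := fun h => not_isProper_Gm h.isProper

/-- `𝔾_m` satisfies all the other requirements on `G` in `IsRationalHomogeneous`: it is an affine connected
group scheme of finite type over `ℂ`. -/
theorem Gm_isConnectedAlgebraicGroup :
    IsAffine Gm.left ∧ LocallyOfFiniteType Gm.hom ∧ ConnectedSpace Gm.left :=
  ⟨inferInstance, inferInstance, inferInstance⟩

end

end Claimed.Open.R067
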