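import Claimed.Open.R067.SanityGroup
import Claimed.Open.R067.SanityRatHomNot

/-!
# Sanity for R067, group side: more teeth of `IsRationalHomogeneous`

* a rational homogeneous variety (in the sense of `IsRationalHomogeneous`) is connected; so the scheme
  `Spec (ℂ × ℂ)` (two reduced points), which is proper over `ℂ` and nonempty, is **not** rational homogeneous:
  the definition asks for more than "proper and nonempty";
* a rational homogeneous variety is *homogeneous*: every `ℂ`-point of `G` acts on `X = G/P` by an automorphism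
  over `ℂ` (left translation descends along the quotient map by the universal property in `IsQuotient`), every
  `ℂ`-point of `X` lifts to `G`, and hence the automorphisms of `X` over `ℂ` permute the `ℂ`-points of `X` transitively.
-/

namespace Claimed.Open.R067

open AlgebraicGeometry CategoryTheory Opposite TopologicalSpace Limits
open MonoidalCategory CartesianMonoidalCategory
open scoped MonObj

noncomputable section

/-! ### Connectedness, and a proper non-example -/

/-- **A rational homogeneous variety is connected**: it is the image of the connected group `G`. -/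
theorem IsRationalHomogeneous.connectedSpace {X : Scheme.{0}} {π : X ⟶ SpecC}
    (h : IsRationalHomogeneous π) : ConnectedSpace X := by
  obtain ⟨G, _, -, -, hc, -, P, -, q, hq⟩ := h
  exact hq.1.connectedSpace q.left.continuous

/-- Two reduced points: `Spec (ℂ × ℂ)`. -/
def twoPoints : Scheme.{0} := Spec (CommRingCat.of (ℂ × ℂ))

/-- The structure morphism `Spec (ℂ × ℂ) → Spec ℂ`. -/
def twoPointsHom : twoPoints ⟶ SpecC := Spec.map (CommRingCat.ofHom (algebraMap ℂ (ℂ × ℂ)))

/-- Two points are proper over `ℂ`. -/
theorem isProper_twoPointsHom : IsProper twoPointsHom := by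
  have h : IsFinite (Spec.map (CommRingCat.ofHom (algebraMap ℂ (ℂ × ℂ)))) := by
    rw [IsFinite.SpecMap_iff]
    exact RingHom.finite_algebraMap.mpr inferInstance
  exact inferInstanceAs (IsProper (Spec.map (CommRingCat.ofHom (algebraMap ℂ (ℂ × ℂ)))))

theorem nonempty_twoPoints : Nonempty twoPoints :=
  inferInstanceAs (Nonempty (PrimeSpectrum (ℂ × ℂ)))

/-- Two points are not connected. -/
theorem not_connectedSpace_twoPoints : ¬ ConnectedSpace twoPoints := by
  intro h
  have h' : PreconnectedSpace (PrimeSpectrum (ℂ × ℂ)) := h.toPreconnectedSpace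
  have hcl : IsClopen (PrimeSpectrum.basicOpen ((1, 0) : ℂ × ℂ) : Set (PrimeSpectrum (ℂ × ℂ))) :=
    PrimeSpectrum.isClopen_basicOpen_of_mul_add (1, 0) (0, 1) (by simp) (by simp)
  rcases isClopen_iff.mp hcl with h0 | h1
  · have : PrimeSpectrum.basicOpen ((1, 0) : ℂ × ℂ) = ⊥ := by
      ext1; simpa using h0
    rw [PrimeSpectrum.basicOpen_eq_bot_iff] at this
    obtain ⟨n, hn⟩ := this
    simpa using congrArg Prod.fst hn
  · have : PrimeSpectrum.basicOpen ((1, 0) : ℂ × ℂ) = ⊤ := by
      ext1; simpa using h1
    have h2 : PrimeSpectrum.basicOpen ((0, 1) : ℂ × ℂ) = ⊥ := by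
      have h3 := PrimeSpectrum.basicOpen_mul ((1, 0) : ℂ × ℂ) (0, 1)
      rw [this, top_inf_eq] at h3
      rw [← h3]
      simp
    rw [PrimeSpectrum.basicOpen_eq_bot_iff] at h2
    obtain ⟨n, hn⟩ := h2
    simpa using congrArg Prod.snd hn

/-- **Two points: proper over `ℂ` and nonempty, but not rational homogeneous.** -/
theorem not_isRationalHomogeneous_twoPoints : ¬ IsRationalHomogeneous twoPointsHom := fun h =>
  not_connectedSpace_twoPoints h.connectedSpace

/-! ### Left translations -/

section Translations

variable {G : Over SpecC} [GrpObj G]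

/-- Left translation `x ↦ g x` of the group scheme `G` by a `ℂ`-point `g`. -/
def mulLeftHom (g : Points G) : G ⟶ G := (toUnit G ≫ g) * 𝟙 G

lemma mulRight_hom_eq (p : Points G) : (GrpObj.mulRight p).hom = 𝟙 G * (toUnit G ≫ p) := by
  rw [GrpObj.mulRight_hom, Hom.mul_def]

lemma Points.comp_mulLeftHom (x g : Points G) : x ≫ mulLeftHom g = g * x := by
  rw [mulLeftHom, MonObj.comp_mul, Category.comp_id, ← Category.assoc,
    toUnit_unique (x ≫ toUnit G) (𝟙 _), Category.id_comp]

/-- Left and right translations commute. -/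
lemma mulLeftHom_comp_mulRight (g p : Points G) :
    mulLeftHom g ≫ (GrpObj.mulRight p).hom = (GrpObj.mulRight p).hom ≫ mulLeftHom g := by
  rw [mulRight_hom_eq]
  conv_lhs => rw [MonObj.comp_mul, Category.comp_id, ← Category.assoc,
    toUnit_unique (mulLeftHom g ≫ toUnit G) (toUnit G), mulLeftHom]
  conv_rhs => rw [mulLeftHom, MonObj.comp_mul, Category.comp_id, ← Category.assoc,
    toUnit_unique ((𝟙 G * (toUnit G ≫ p)) ≫ toUnit G) (toUnit G)]
  rw [mul_assoc]

lemma mulLeftHom_comp (g h : Points G) : mulLeftHom g ≫ mulLeftHom h = mulLeftHom (h * g) := by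
  have h1 : mulLeftHom g ≫ mulLeftHom h = (toUnit G ≫ h) * mulLeftHom g := by
    conv_lhs => rw [show mulLeftHom h = (toUnit G ≫ h) * 𝟙 G from rfl, MonObj.comp_mul,
      Category.comp_id, ← Category.assoc, toUnit_unique (mulLeftHom g ≫ toUnit G) (toUnit G)]
  rw [h1, mulLeftHom, mulLeftHom, MonObj.comp_mul, mul_assoc]

lemma mulLeftHom_one : mulLeftHom (1 : Points G) = 𝟙 G := by
  rw [mulLeftHom, MonObj.comp_one, one_mul]

/-! ### The action of `G(ℂ)` on the quotient -/

variable {P : Subgroup (Points G)} {Y : Over SpecC} {q : G ⟶ Y}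

/-- Left translation by `g` descends to the quotient: there is a unique `ψ : G/P → G/P` with
`ψ (x P) = g x P`. -/
theorem IsQuotient.existsUnique_translation (hq : IsQuotient G P q) (g : Points G) :
    ∃! ψ : Y ⟶ Y, q ≫ ψ = mulLeftHom g ≫ q := by
  refine hq.2.2.2 Y (mulLeftHom g ≫ q) fun p hp => ?_
  rw [← Category.assoc, ← mulLeftHom_comp_mulRight, Category.assoc, hq.2.2.1 p hp]

/-- The morphism `G/P → G/P` induced by left translation by `g`. -/
def IsQuotient.translation (hq : IsQuotient G P q) (g : Points G) : Y ⟶ Y :=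
  (hq.existsUnique_translation g).choose

lemma IsQuotient.comp_translation (hq : IsQuotient G P q) (g : Points G) :
    q ≫ hq.translation g = mulLeftHom g ≫ q :=
  (hq.existsUnique_translation g).choose_spec.1

lemma IsQuotient.hom_ext (hq : IsQuotient G P q) {Z : Over SpecC} {a b : Y ⟶ Z}
    (h : q ≫ a = q ≫ b) : a = b := by
  refine (hq.2.2.2 Z (q ≫ a) fun p hp => ?_).unique rfl h.symm
  rw [← Category.assoc, hq.2.2.1 p hp]

lemma IsQuotient.translation_comp (hq : IsQuotient G P q) (g h : Points G) :
    hq.translation g ≫ hq.translation h = hq.translation (h * g) := by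
  apply hq.hom_ext
  rw [← Category.assoc, hq.comp_translation, Category.assoc, hq.comp_translation,
    ← Category.assoc, mulLeftHom_comp, hq.comp_translation]

lemma IsQuotient.translation_one (hq : IsQuotient G P q) : hq.translation 1 = 𝟙 Y := by
  apply hq.hom_ext
  rw [hq.comp_translation, mulLeftHom_one, Category.id_comp, Category.comp_id]

/-- **Every `g ∈ G(ℂ)` acts on `G/P` by an automorphism over `ℂ`.** -/
def IsQuotient.translationIso (hq : IsQuotient G P q) (g : Points G) : Y ≅ Y where
  hom := hq.translation g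
  inv := hq.translation g⁻¹
  hom_inv_id := by rw [hq.translation_comp, inv_mul_cancel, hq.translation_one]
  inv_hom_id := by rw [hq.translation_comp, mul_inv_cancel, hq.translation_one]

/-- On `ℂ`-points the action is `g · (x P) = (g x) P`. -/
lemma IsQuotient.comp_translationIso (hq : IsQuotient G P q) (g x : Points G) :
    (x ≫ q) ≫ (hq.translationIso g).hom = (g * x) ≫ q := by
  change (x ≫ q) ≫ hq.translation g = _
  rw [Category.assoc, hq.comp_translation, ← Category.assoc, Points.comp_mulLeftHom]

/-- **Every `ℂ`-point of `G/P` lifts to a `ℂ`-point of `G`.** -/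
theorem IsQuotient.exists_lift [LocallyOfFiniteType G.hom] [LocallyOfFiniteType Y.hom]
    (hq : IsQuotient G P q) (y : Points Y) : ∃ g : Points G, g ≫ q = y := by
  have : JacobsonSpace G.left := LocallyOfFiniteType.jacobsonSpace G.hom
  obtain ⟨x, hx⟩ := hq.1 (Points.toPoint Y y)
  have hcl : IsClosed (q.left ⁻¹' {Points.toPoint Y y}) :=
    (Points.isClosed_toPoint y).preimage q.left.continuous
  obtain ⟨x', hx', hx'c⟩ := nonempty_inter_closedPoints (Z := q.left ⁻¹' {Points.toPoint Y y})
    ⟨x, hx⟩ hcl.isLocallyClosed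
  obtain ⟨g, rfl⟩ := Points.exists_toPoint_eq (G := G) x' hx'c
  refine ⟨g, Points.toPoint_injective ?_⟩
  rw [Points.toPoint_comp]
  exact hx'

/-- **`G(ℂ)` acts transitively on the `ℂ`-points of `G/P`.** -/
theorem IsQuotient.transitive [LocallyOfFiniteType G.hom] [LocallyOfFiniteType Y.hom]
    (hq : IsQuotient G P q) (y y' : Points Y) :
    ∃ g : Points G, y ≫ (hq.translationIso g).hom = y' := by
  obtain ⟨x, rfl⟩ := hq.exists_lift y
  obtain ⟨x', rfl⟩ := hq.exists_lift y'
  refine ⟨x' * x⁻¹, ?_⟩
  rw [hq.comp_translationIso, inv_mul_cancel_right]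

end Translations

/-- **A rational homogeneous variety is homogeneous**: its automorphisms over `ℂ` permute its `ℂ`-points
transitively. -/
theorem IsRationalHomogeneous.homogeneous {X : Scheme.{0}} {π : X ⟶ SpecC}
    (h : IsRationalHomogeneous π) (x y : Points (Over.mk π)) :
    ∃ e : Over.mk π ≅ Over.mk π, x ≫ e.hom = y := by
  have hp : IsProper π := h.isProper
  obtain ⟨G, _, -, hft, -, -, P, -, q, hq⟩ := h
  have : LocallyOfFiniteType (Over.mk π).hom := inferInstanceAs (LocallyOfFiniteType π)
  obtain ⟨g, hg⟩ := hq.transitive x y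
  exact ⟨hq.translationIso g, hg⟩

end

end Claimed.Open.R067
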