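import Claimed.Open.R067.SanityRatHom
import Claimed.Open.R067.SanityGm
import Claimed.Open.R067.SanityHomogeneous

/-!
# Sanity for `Statement`: the analogue in dimension zero is a theorem

`Statement` with `6` replaced by `0` is proved here, with Mathlib's scheme theory and the definitions of
`Statement.lean` (the hypotheses on `ω⁻¹` and `T_X` are not needed in dimension `0`):

* `isIso_of_smoothOfRelativeDimension_zero`: a quasi-compact connected scheme which is smooth of relative
  dimension `0` over `ℂ` is `Spec ℂ`;
* `IsQuotient.comp_iso`, `IsRationalHomogeneous.of_iso`: `IsQuotient` and `IsRationalHomogeneous` only depend on the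
  isomorphism class over `ℂ`;
* `isRationalHomogeneous_of_isIso`: the point is rational homogeneous;
* `statement_dim_zero`: every smooth connected projective variety of dimension `0` is rational homogeneous;
* `isRationalHomogeneous_iff_isIso_of_dim_zero`: the point is the only rational homogeneous variety of dimension `0`.

Proof of the first.  A closed point `x` is a `ℂ`-point `σ : Spec ℂ ⟶ X` (Nullstellensatz).  As a section of an
étale morphism, `σ` is étale and a monomorphism, hence an open immersion.  So `{x}` is open and closed.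
-/

namespace Claimed.Open.R067

open AlgebraicGeometry CategoryTheory Opposite TopologicalSpace Limits
open MonoidalCategory CartesianMonoidalCategory
open scoped MonObj

/-- A quasi-compact connected scheme which is smooth of relative dimension `0` over `ℂ` is `Spec ℂ`. -/
theorem isIso_of_smoothOfRelativeDimension_zero {X : Scheme.{0}} (π : X ⟶ SpecC)
    [SmoothOfRelativeDimension 0 π] [ConnectedSpace X] [CompactSpace X] : IsIso π := by
  have hπ : Etale π := (Etale.iff_smoothOfRelativeDimension_zero π).mpr inferInstance
  obtain ⟨x, -, hx⟩ := IsClosed.exists_closed_singleton (isClosed_univ (X := X)) Set.univ_nonempty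
  let σ : SpecC ⟶ X := pointOfClosedPoint π x hx
  have hσ : σ ≫ π = 𝟙 _ := pointOfClosedPoint_comp π x hx
  have h1 : Etale (σ ≫ π) := by rw [hσ]; infer_instance
  have h2 : Etale σ := Etale.of_comp σ π
  have h3 : Mono σ := (SplitMono.mk π hσ).mono
  have h4 : IsOpenImmersion σ := IsOpenImmersion.of_flat_of_mono σ
  have hrange : Set.range σ = {x} := by
    ext y
    constructor
    · rintro ⟨a, rfl⟩
      exact pointOfClosedPoint_apply π x hx a
    · intro hy
      rw [Set.mem_singleton_iff] at hy
      exact ⟨IsLocalRing.closedPoint ℂ, (pointOfClosedPoint_apply π x hx _).trans hy.symm⟩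
  have hclopen : IsClopen (Set.range σ) := ⟨hrange ▸ hx, σ.isOpenEmbedding.isOpen_range⟩
  have huniv : Set.range σ = Set.univ := hclopen.eq_univ ⟨x, hrange ▸ rfl⟩
  have h5 : IsIso σ := isIso_of_isOpenImmersion_of_opensRange_eq_top σ (Opens.ext huniv)
  have h6 : IsIso (σ ≫ π) := by rw [hσ]; infer_instance
  exact IsIso.of_isIso_comp_left σ π

section Transport

variable {G : Over SpecC} [GrpObj G] {P : Subgroup (Points G)}

/-- `IsQuotient` is invariant under isomorphisms of the target over `ℂ`. -/
theorem IsQuotient.comp_iso {Y Y' : Over SpecC} {q : G ⟶ Y} (h : IsQuotient G P q) (e : Y ≅ Y') :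
    IsQuotient G P (q ≫ e.hom) := by
  obtain ⟨h1, h2, h3, h4⟩ := h
  refine ⟨?_, fun g g' => ?_, fun p hp => ?_, fun Z φ hφ => ?_⟩
  · have : IsIso e.hom.left := (Over.forget SpecC).map_isIso e.hom
    have hs : Function.Surjective e.hom.left := e.hom.left.homeomorph.surjective
    rw [Over.comp_left]
    intro y
    obtain ⟨z, rfl⟩ := hs y
    obtain ⟨w, rfl⟩ := h1 z
    exact ⟨w, Scheme.Hom.comp_apply _ _ _⟩
  · rw [← h2 g g', ← Category.assoc, ← Category.assoc, cancel_mono]
  · rw [← Category.assoc, h3 p hp]
  · obtain ⟨ψ, hψ, huniq⟩ := h4 Z φ hφ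
    refine ⟨e.inv ≫ ψ, by simp [hψ], fun ψ' hψ' => ?_⟩
    have := huniq (e.hom ≫ ψ') (by
      show q ≫ e.hom ≫ ψ' = φ
      rw [← Category.assoc]
      exact hψ')
    rw [← this, Iso.inv_hom_id_assoc]

end Transport

/-- `IsRationalHomogeneous` only depends on the isomorphism class over `ℂ`. -/
theorem IsRationalHomogeneous.of_iso {X X' : Scheme.{0}} {π : X ⟶ SpecC} {π' : X' ⟶ SpecC}
    (h : IsRationalHomogeneous π) (e : Over.mk π ≅ Over.mk π') : IsRationalHomogeneous π' := by
  obtain ⟨G, hG, a1, a2, a3, a4, P, hP, q, hq⟩ := h
  exact ⟨G, hG, a1, a2, a3, a4, P, hP, q ≫ e.hom, hq.comp_iso e⟩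

/-- The point `Spec ℂ` is rational homogeneous (it is `ℙ⁰ = SL₁/SL₁`). -/
theorem isRationalHomogeneous_of_isIso {X : Scheme.{0}} (π : X ⟶ SpecC) [IsIso π] :
    IsRationalHomogeneous π := by
  have := projSpaceHom_smooth 0
  have := projSpace_connectedSpace 0
  have := projSpace_compactSpace 0
  have : IsIso (projSpaceHom 0) := isIso_of_smoothOfRelativeDimension_zero _
  refine (projSpace_isRationalHomogeneous 0).of_iso
    (Over.isoMk (asIso (projSpaceHom 0) ≪≫ (asIso π).symm) (by simp))

/-- **The analogue of `Statement` in dimension zero**: every smooth connected complex projective variety of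
dimension `0` is rational homogeneous. -/
theorem statement_dim_zero (X : Scheme.{0}) (π : X ⟶ SpecC) (h1 : IsProjective π)
    (h2 : SmoothOfRelativeDimension 0 π) (h3 : ConnectedSpace X) : IsRationalHomogeneous π := by
  have := h1.isProper
  have : CompactSpace X := QuasiCompact.compactSpace_of_compactSpace π
  have := isIso_of_smoothOfRelativeDimension_zero π
  exact isRationalHomogeneous_of_isIso π

/-- The point is the only rational homogeneous variety of dimension `0`. -/
theorem isRationalHomogeneous_iff_isIso_of_dim_zero {X : Scheme.{0}} (π : X ⟶ SpecC)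
    [SmoothOfRelativeDimension 0 π] : IsRationalHomogeneous π ↔ IsIso π := by
  refine ⟨fun h => ?_, fun _ => isRationalHomogeneous_of_isIso π⟩
  have := h.isProper
  have := h.connectedSpace
  have : CompactSpace X := QuasiCompact.compactSpace_of_compactSpace π
  exact isIso_of_smoothOfRelativeDimension_zero π

end Claimed.Open.R067
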