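import Claimed.Open.R067.SanityPn

/-!
# Sanity for the hypothesis "of dimension six"

`Statement` speaks of dimension six through Mathlib's `SmoothOfRelativeDimension 6 π`.  Nothing in Mathlib says that this
number is determined by `π`; if it were not, the hypothesis would have no teeth.  Here:

* `SmoothOfRelativeDimension.unique` : for a morphism `f : X ⟶ Y` with `X` nonempty, the relative dimension is **unique**
  (on a common nonzero localisation the module of Kähler differentials is free of rank `n` and of rank `m`);
* `smoothOfRelativeDimension_projSpaceHom_iff` : `ℙ^N` is smooth of relative dimension `n` **iff** `n = N`;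
* `hypotheses_projSpace_iff` : `ℙ^N` satisfies the five hypotheses of `Statement` **iff** `N = 6`
  (so `ℙ⁵` and `ℙ⁷`, Fano with nef tangent sheaf, are **not** covered by `Statement`);
* `not_smoothOfRelativeDimension_six_point` : the point `Spec ℂ` is not of dimension six;
* `Statement_hypotheses_dimension` : every `X` that meets the hypotheses of `Statement` has no other relative dimension;
* `exists_free_cotangent`, `exists_free_cotangentPresheaf` : the `6` of `SmoothOfRelativeDimension 6 π` is the `6` of
  `anticanonicalSheaf π 6 = 𝓗om(⋀⁶ Ω, 𝒪)`: every point of a smooth `ℂ`-scheme of relative dimension `n` has an affine open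
  neighbourhood `V` over which the presheaf `cotangentPresheaf π` of `Statement.lean` (`V ↦ Ω_{𝒪_X(V)/ℂ}`, structure map `constHom π V`)
  is a **free `𝒪_X(V)`-module of rank `n`**.
-/

open AlgebraicGeometry CategoryTheory RingHom Opposite

universe u

namespace Claimed.Open.R067

/-! ## Uniqueness of the relative dimension -/

/-- A ring map to a nonzero ring is standard smooth of at most one relative dimension:
`Ω[S⁄R]` is free of that rank. -/
theorem relativeDimension_unique_ringHom {R S : Type u} [CommRing R] [CommRing S] [Nontrivial S]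
    (f : R →+* S) (n m : ℕ) (hn : f.IsStandardSmoothOfRelativeDimension n)
    (hm : f.IsStandardSmoothOfRelativeDimension m) : n = m := by
  algebraize [f]
  have h1 := Algebra.IsStandardSmoothOfRelativeDimension.rank_kaehlerDifferential (R := R) (S := S) n
  have h2 := Algebra.IsStandardSmoothOfRelativeDimension.rank_kaehlerDifferential (R := R) (S := S) m
  rw [h1] at h2
  exact_mod_cast h2

/-- The same when the second property only holds locally on the target ring. -/
theorem relativeDimension_unique_locally {R S : Type u} [CommRing R] [CommRing S] [Nontrivial S]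
    (f : R →+* S) (n m : ℕ) (hn : f.IsStandardSmoothOfRelativeDimension n)
    (hm : Locally (IsStandardSmoothOfRelativeDimension m) f) : n = m := by
  obtain ⟨s, hs, h⟩ := hm
  -- some `t ∈ s` is not nilpotent
  obtain ⟨t, ht, hnil⟩ : ∃ t ∈ s, ¬ IsNilpotent t := by
    by_contra hcon
    push Not at hcon
    have h1 : Ideal.span s ≤ nilradical S := Ideal.span_le.2 (fun t ht => hcon t ht)
    rw [hs, top_le_iff] at h1
    have h2 : (1 : S) ∈ nilradical S := by rw [h1]; trivial
    exact (not_isNilpotent_one (R := S)) h2
  have : Nontrivial (Localization.Away t) := by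
    rw [← not_subsingleton_iff_nontrivial,
      IsLocalization.subsingleton_iff (M := Submonoid.powers t) (S := Localization.Away t)]
    rintro ⟨k, hk⟩
    exact hnil ⟨k, hk⟩
  have hn' : ((algebraMap S (Localization.Away t)).comp f).IsStandardSmoothOfRelativeDimension n :=
    (isStandardSmoothOfRelativeDimension_stableUnderCompositionWithLocalizationAway n).right
      _ t _ hn
  exact relativeDimension_unique_ringHom _ n m hn' (h t ht)

/-- **The relative dimension of a smooth morphism from a nonempty scheme is unique.** -/
theorem SmoothOfRelativeDimension.unique {X Y : Scheme.{u}} (f : X ⟶ Y) [Nonempty X] {n m : ℕ}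
    (hn : SmoothOfRelativeDimension n f) (hm : SmoothOfRelativeDimension m f) : n = m := by
  obtain ⟨x⟩ := ‹Nonempty X›
  obtain ⟨U, hU, V, hV, hx, e, hf⟩ := hn.exists_isStandardSmoothOfRelativeDimension x
  have h2 := HasRingHomProperty.appLE (@SmoothOfRelativeDimension m) f hm ⟨U, hU⟩ ⟨V, hV⟩ e
  have : Nonempty V := ⟨⟨x, hx⟩⟩
  have : Nontrivial Γ(X, V) := inferInstance
  exact relativeDimension_unique_locally _ n m hf h2

/-! ## Projective spaces -/

/-- `ℙ^N` is smooth of relative dimension `n` over `ℂ` **iff** `n = N`. -/
theorem smoothOfRelativeDimension_projSpaceHom_iff (N n : ℕ) :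
    SmoothOfRelativeDimension n (projSpaceHom N) ↔ n = N := by
  have : Nonempty (projSpace N) := (projSpace_connectedSpace N).toNonempty
  constructor
  · intro h
    exact SmoothOfRelativeDimension.unique (projSpaceHom N) h (projSpaceHom_smooth N)
  · rintro rfl
    exact projSpaceHom_smooth n

/-- `ℙ^N`, `N ≠ 6`, does **not** satisfy the hypothesis "of dimension six". -/
theorem not_smoothOfRelativeDimension_six_projSpace {N : ℕ} (hN : N ≠ 6) :
    ¬ SmoothOfRelativeDimension 6 (projSpaceHom N) := fun h =>
  hN ((smoothOfRelativeDimension_projSpaceHom_iff N 6).1 h).symm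

/-- **`ℙ^N` satisfies the five hypotheses of `Statement` iff `N = 6`.** -/
theorem hypotheses_projSpace_iff (N : ℕ) :
    (IsProjective (projSpaceHom N) ∧ SmoothOfRelativeDimension 6 (projSpaceHom N) ∧
      ConnectedSpace (projSpace N) ∧ IsAmple (anticanonicalSheaf (projSpaceHom N) 6) ∧
      IsNef (projSpaceHom N) (tangentSheaf (projSpaceHom N))) ↔ N = 6 := by
  constructor
  · rintro ⟨-, h, -⟩
    exact ((smoothOfRelativeDimension_projSpaceHom_iff N 6).1 h).symm
  · rintro rfl
    exact ⟨projSpaceHom_isProjective 6, projSpaceHom_smooth 6, projSpace_connectedSpace 6,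
      isAmple_anticanonicalSheaf 6, isNef_tangentSheaf 6⟩

/-! ## The point -/

/-- The point `Spec ℂ` is smooth of relative dimension `n` **iff** `n = 0`. -/
theorem smoothOfRelativeDimension_point_iff (n : ℕ) :
    SmoothOfRelativeDimension n (𝟙 SpecC) ↔ n = 0 := by
  have : Nonempty SpecC := inferInstanceAs (Nonempty (PrimeSpectrum ℂ))
  constructor
  · intro h
    exact SmoothOfRelativeDimension.unique (𝟙 SpecC) h inferInstance
  · rintro rfl
    infer_instance

/-- The point is **not** of dimension six. -/
theorem not_smoothOfRelativeDimension_six_point : ¬ SmoothOfRelativeDimension 6 (𝟙 SpecC) := fun h =>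
  absurd ((smoothOfRelativeDimension_point_iff 6).1 h) (by norm_num)

/-! ## The varieties of `Statement` -/

/-- Every `X` that meets the hypotheses "smooth of dimension six" and "connected" of `Statement` has no other
relative dimension. -/
theorem Statement_hypotheses_dimension {X : Scheme.{0}} (π : X ⟶ SpecC)
    (h6 : SmoothOfRelativeDimension 6 π) (hc : ConnectedSpace X) (n : ℕ) :
    SmoothOfRelativeDimension n π ↔ n = 6 := by
  have : Nonempty X := hc.toNonempty
  constructor
  · intro h
    exact SmoothOfRelativeDimension.unique π h h6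
  · rintro rfl
    exact h6

/-! ## The rank of the cotangent presheaf of `Statement.lean` -/

/-- Every nonempty open subset of the point `Spec ℂ` is everything. -/
theorem specC_opens_eq_top (U : SpecC.Opens) (y : SpecC) (hy : y ∈ U) : U = ⊤ := by
  have : Subsingleton SpecC := inferInstanceAs (Subsingleton (PrimeSpectrum ℂ))
  ext z
  simp only [TopologicalSpace.Opens.coe_top, Set.mem_univ, iff_true]
  rw [Subsingleton.elim z y]
  exact hy

/-- The structure map `ℂ → 𝒪_X(V)` of `Statement.lean` is the comorphism of `π`. -/
theorem constHom_eq_appLE {X : Scheme.{0}} (π : X ⟶ SpecC) (V : X.Opens) (e : V ≤ π ⁻¹ᵁ ⊤) :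
    constHom π V = (Scheme.ΓSpecIso (CommRingCat.of ℂ)).inv ≫ π.appLE ⊤ V e := rfl

/-- Around every point of a smooth `ℂ`-scheme of relative dimension `n` there is an affine open `V` such that the structure
map `constHom π V : ℂ → 𝒪_X(V)` is standard smooth of relative dimension `n`. -/
theorem exists_constHom_isStandardSmooth {X : Scheme.{0}} (π : X ⟶ SpecC) (n : ℕ)
    (h : SmoothOfRelativeDimension n π) (x : X) :
    ∃ V : X.Opens, IsAffineOpen V ∧ x ∈ V ∧
      (constHom π V).hom.IsStandardSmoothOfRelativeDimension n := by
  obtain ⟨U, hU, V, hV, hx, e, hf⟩ := h.exists_isStandardSmoothOfRelativeDimension x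
  obtain rfl : U = ⊤ := specC_opens_eq_top U (π x) (e hx)
  refine ⟨V, hV, hx, ?_⟩
  rw [constHom_eq_appLE π V e]
  exact (isStandardSmoothOfRelativeDimension_respectsIso (n := n)).cancel_left_isIso _ _ |>.2 hf

/-- **`Ω_{𝒪_X(V)/ℂ}` is free of rank `n` on small affine opens `V`.** -/
theorem exists_free_cotangent {X : Scheme.{0}} (π : X ⟶ SpecC) (n : ℕ)
    (h : SmoothOfRelativeDimension n π) (x : X) :
    ∃ V : X.Opens, IsAffineOpen V ∧ x ∈ V ∧
      letI := (constHom π V).hom.toAlgebra
      Module.Free Γ(X, V) Ω[Γ(X, V)⁄ℂ] ∧ Module.rank Γ(X, V) Ω[Γ(X, V)⁄ℂ] = n := by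
  obtain ⟨V, hV, hx, hf⟩ := exists_constHom_isStandardSmooth π n h x
  refine ⟨V, hV, hx, ?_⟩
  let _ := (constHom π V).hom.toAlgebra
  have hs : Algebra.IsStandardSmoothOfRelativeDimension n ℂ Γ(X, V) := hf
  have : Nonempty V := ⟨⟨x, hx⟩⟩
  have : Nontrivial Γ(X, V) := inferInstance
  have : Algebra.IsStandardSmooth ℂ Γ(X, V) := hs.isStandardSmooth
  exact ⟨inferInstance, Algebra.IsStandardSmoothOfRelativeDimension.rank_kaehlerDifferential n⟩

/-- The sections over `V` of `cotangentPresheaf π` are the Kähler differentials of `constHom π V : ℂ → 𝒪_X(V)`. -/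
theorem cotangentPresheaf_obj {X : Scheme.{0}} (π : X ⟶ SpecC) (V : X.Opens) :
    ((cotangentPresheaf π).obj (op V) : Type) =
      @KaehlerDifferential ℂ Γ(X, V) _ _ (constHom π V).hom.toAlgebra := rfl

/-- **The same for the presheaf `cotangentPresheaf π` of `Statement.lean`**: it is free of rank `n` on small affine opens. -/
theorem exists_free_cotangentPresheaf {X : Scheme.{0}} (π : X ⟶ SpecC) (n : ℕ)
    (h : SmoothOfRelativeDimension n π) (x : X) :
    ∃ V : X.Opens, IsAffineOpen V ∧ x ∈ V ∧
      Module.Free (X.ringCatSheaf.obj.obj (op V)) ((cotangentPresheaf π).obj (op V)) ∧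
      Module.rank (X.ringCatSheaf.obj.obj (op V)) ((cotangentPresheaf π).obj (op V)) = n := by
  obtain ⟨V, hV, hx, h1, h2⟩ := exists_free_cotangent π n h x
  exact ⟨V, hV, hx, h1, h2⟩

end Claimed.Open.R067
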