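import Claimed.Open.R067.SanityTopPower

/-!
# Sanity for the index `n` of `anticanonicalSheaf π n`, second part: exterior powers **below** the rank

* `not_isInvertible_altHom_of_dual` : if `M` has sections `θ₁, …, θ_N` over `U` and linear forms `f₁, …, f_N : M → 𝒪` with
  `f_a(θ_b) = δ_{ab}`, then `𝓗om(⋀ᵏ M, 𝒪)` is **not** invertible for `0 < k < N` (`U` nonempty): the two sections
  `f₁ ∧ ⋯ ∧ f_k` and `f₂ ∧ ⋯ ∧ f_{k+1}` cannot both be multiples of one frame;
* `isInvertible_anticanonicalSheaf_iff`, `isAmple_anticanonicalSheaf_iff` : on `ℙ^N`, for `k > 0`, the sheaf `anticanonicalSheaf _ k = 𝓗om(⋀ᵏ Ω, 𝒪)` is invertible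
  (resp. ample) **iff `k = N`**;
* `isAmple_anticanonicalSheaf_six_iff` : the hypothesis `IsAmple (anticanonicalSheaf π 6)` of `Statement` holds for `ℙ^N` **iff `N = 6`**.
-/

open AlgebraicGeometry CategoryTheory Opposite TopologicalSpace

universe u

namespace Claimed.Open.R067

variable {X : Scheme.{u}}

/-- `𝓗om(⋀ᵏ M, 𝒪)` is not invertible for `0 < k < N` if `M` has `N` sections with a dual family of linear forms. -/
theorem not_isInvertible_altHom_of_dual {k N : ℕ} (hk : 0 < k) (hkN : k < N) {M : X.Modules}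
    {U : X.Opens} (θ : Fin N → Γ(M, U)) (f : Fin N → (M ⟶ structureSheaf X))
    (hf : ∀ a b, appLin (f b) U (θ a) = if a = b then 1 else 0) (x : X) (hx : x ∈ U) :
    ¬ IsInvertible (altHom k M (structureSheaf X)) := by
  intro h
  obtain ⟨V, e, hxV, he⟩ := h x
  set W : X.Opens := V ⊓ U with hW
  have hWU : W ≤ U := inf_le_right
  have : Nonempty W := ⟨⟨x, hxV, hx⟩⟩
  have : Nontrivial Γ(X, W) := inferInstance
  -- the dual families over `W`
  have hfW : ∀ a b, appLin (f b) W (res M hWU (θ a)) = if a = b then 1 else 0 := by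
    intro a b
    rw [← resO_appLin (f b) hWU (θ a), hf]
    split_ifs
    · exact map_one _
    · exact map_zero _
  -- two index maps
  let ι₁ : Fin k → Fin N := fun a => ⟨a.1, a.2.trans hkN⟩
  let ι₂ : Fin k → Fin N := fun a => ⟨a.1 + 1, by have := a.2; omega⟩
  have hι₂ : Function.Injective ι₂ := by
    intro a b hab
    have : a.1 + 1 = b.1 + 1 := congrArg Fin.val hab
    exact Fin.ext (by omega)
  let s₁ : Γ(altHom k M (structureSheaf X), W) := wedge (fun a => f (ι₁ a)) W
  let s₂ : Γ(altHom k M (structureSheaf X), W) := wedge (fun a => f (ι₂ a)) W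
  let θA : Fin k → Γ(M, W) := fun l => res M hWU (θ (ι₁ l))
  let θB : Fin k → Γ(M, W) := fun l => res M hWU (θ (ι₂ l))
  have hι₁ : Function.Injective ι₁ := by
    intro a b hab
    have h' : (ι₁ a).1 = (ι₁ b).1 := congrArg Fin.val hab
    exact Fin.ext h'
  have e11 : evO s₁ W le_rfl θA = 1 := by
    rw [evO_wedge]
    have : (Matrix.of fun l a => appLin (f (ι₁ a)) W (θA l)) = (1 : Matrix (Fin k) (Fin k) Γ(X, W)) := by
      ext l a
      rw [Matrix.of_apply, hfW, Matrix.one_apply]
      by_cases hla : l = a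
      · subst hla; simp
      · rw [if_neg hla, if_neg (fun h' => hla (hι₁ h'))]
    rw [this, Matrix.det_one]
  have e22 : evO s₂ W le_rfl θB = 1 := by
    rw [evO_wedge]
    have : (Matrix.of fun l a => appLin (f (ι₂ a)) W (θB l)) = (1 : Matrix (Fin k) (Fin k) Γ(X, W)) := by
      ext l a
      rw [Matrix.of_apply, hfW, Matrix.one_apply]
      by_cases hla : l = a
      · subst hla; simp
      · rw [if_neg hla, if_neg (fun h' => hla (hι₂ h'))]
    rw [this, Matrix.det_one]
  have e21 : evO s₂ W le_rfl θA = 0 := by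
    rw [evO_wedge]
    apply Matrix.det_eq_zero_of_row_eq_zero (⟨0, hk⟩ : Fin k)
    intro a
    rw [Matrix.of_apply, hfW, if_neg]
    intro h'
    have : (0 : ℕ) = a.1 + 1 := congrArg Fin.val h'
    omega
  -- both are multiples of the frame
  obtain ⟨a₁, ha₁, -⟩ := he W inf_le_left s₁
  obtain ⟨a₂, ha₂, -⟩ := he W inf_le_left s₂
  set eW := res (altHom k M (structureSheaf X)) (inf_le_left : W ≤ V) e with heW
  have k1 : a₁ * evO eW W le_rfl θA = 1 := by
    rw [← e11, ← ha₁, evO_smul, resO_self]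
    rfl
  have k2 : a₂ * evO eW W le_rfl θA = 0 := by
    rw [← e21, ← ha₂, evO_smul, resO_self]
    rfl
  have k3 : a₂ = 0 := by
    calc a₂ = a₂ * (a₁ * evO eW W le_rfl θA) := by rw [k1, mul_one]
      _ = a₁ * (a₂ * evO eW W le_rfl θA) := by ring
      _ = 0 := by rw [k2, mul_zero]
  have k4 : s₂ = 0 := by rw [← ha₂, k3, zero_smul]
  rw [k4] at e22
  have e0 : evO (0 : Γ(altHom k M (structureSheaf X), W)) W le_rfl θB = 0 := rfl
  rw [e0] at e22
  exact (zero_ne_one (α := Γ(X, W))) e22

/-- On `ℙ^N`, for `k > 0`: `𝓗om(⋀ᵏ Ω, 𝒪)` is invertible **iff** `k = N`. -/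
theorem isInvertible_anticanonicalSheaf_iff {N k : ℕ} (hk : 0 < k) :
    IsInvertible (anticanonicalSheaf (projSpaceHom N) k) ↔ k = N := by
  constructor
  · intro h
    by_contra hne
    rcases lt_or_gt_of_ne hne with hlt | hgt
    · have : Nonempty (projSpace N) := (projSpace_connectedSpace N).toNonempty
      obtain ⟨x⟩ := this
      obtain ⟨i, hi⟩ := exists_mem_stdOpen N x
      exact not_isInvertible_altHom_of_dual hk hlt (dCoord N i)
        (fun b => eulerHom N i (i.succAbove b)) (fun a b => appLin_eulerHom_dCoord_self N i a b) x hi h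
    · exact not_isInvertible_anticanonicalSheaf_of_lt hgt h
  · rintro rfl
    exact isInvertible_anticanonicalSheaf k

/-- On `ℙ^N`, for `k > 0`: `𝓗om(⋀ᵏ Ω, 𝒪)` is ample **iff** `k = N`. -/
theorem isAmple_anticanonicalSheaf_iff {N k : ℕ} (hk : 0 < k) :
    IsAmple (anticanonicalSheaf (projSpaceHom N) k) ↔ k = N := by
  constructor
  · intro h
    exact (isInvertible_anticanonicalSheaf_iff hk).1 h.1
  · rintro rfl
    exact isAmple_anticanonicalSheaf k

/-- **The Fano hypothesis `IsAmple (anticanonicalSheaf π 6)` of `Statement` holds for `ℙ^N` iff `N = 6`.** -/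
theorem isAmple_anticanonicalSheaf_six_iff (N : ℕ) :
    IsAmple (anticanonicalSheaf (projSpaceHom N) 6) ↔ N = 6 := by
  rw [isAmple_anticanonicalSheaf_iff (by norm_num : 0 < 6)]
  exact eq_comm

end Claimed.Open.R067
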