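import Claimed.Open.R067.SanityDegree

/-!
# Sanity for `IsNef`: globally generated sheaves are nef

A sheaf of modules which is generated by its global sections is nef in the sense of `IsNef`
(Lazarsfeld, *Positivity II*, 6.1.2 and 6.2.12: quotients and pullbacks of globally generated bundles are globally
generated, and a globally generated line bundle on a curve has an effective divisor).
-/

open AlgebraicGeometry CategoryTheory Opposite TopologicalSpace

universe u

namespace Claimed.Open.R067

section General

variable {X : Scheme.{u}}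

/-- Morphisms of sheaves of modules commute with restriction. -/
lemma app_res {M N : X.Modules} (φ : M ⟶ N) {V W : X.Opens} (h : W ≤ V) (m : Γ(M, V)) :
    φ.app W (res M h m) = res N h (φ.app V m) :=
  congr($(φ.mapPresheaf.naturality (homOfLE h).op) m)

/-- `E` is generated by its global sections (Hartshorne II.5, p. 121): locally, every section is a linear
combination of restrictions of global sections. -/
def IsGloballyGenerated (E : X.Modules) : Prop :=
  ∀ (U : X.Opens) (t : Γ(E, U)) (x : X), x ∈ U → ∃ (W : X.Opens) (hW : W ≤ U), x ∈ W ∧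
    res E hW t ∈ Submodule.span Γ(X, W) (Set.range fun s : Γ(E, ⊤) => res E le_top s)

/-- A morphism out of a globally generated sheaf which kills all global sections is zero. -/
lemma eq_zero_of_isGloballyGenerated {E N : X.Modules} (hE : IsGloballyGenerated E) (φ : E ⟶ N)
    (h : ∀ s : Γ(E, ⊤), φ.app ⊤ s = 0) : φ = 0 := by
  ext U t
  change φ.app U t = 0
  choose W hW hxW hspan using fun x : U => hE U t x.1 x.2
  refine res_ext N W U hW (fun x hx => Opens.mem_iSup.mpr ⟨⟨x, hx⟩, hxW ⟨x, hx⟩⟩) _ _ fun x => ?_
  rw [← app_res, map_zero]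
  have key : ∀ m ∈ Submodule.span Γ(X, W x) (Set.range fun s : Γ(E, ⊤) => res E le_top s),
      φ.app (W x) m = 0 := by
    intro m hm
    induction hm using Submodule.span_induction with
    | mem m hm =>
      obtain ⟨s, rfl⟩ := hm
      change φ.app (W x) (res E le_top s) = 0
      rw [app_res, h, map_zero]
    | zero => exact map_zero _
    | add a b _ _ ha hb => rw [map_add, ha, hb, add_zero]
    | smul r a _ ha => rw [Scheme.Modules.Hom.app_smul, ha, smul_zero]
  exact key _ (hspan x)

/-- An invertible sheaf on a nonempty scheme is not zero. -/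
lemma IsInvertible.not_isZero [Nonempty X] {L : X.Modules} (hL : IsInvertible L) :
    ¬ Limits.IsZero L := by
  intro h0
  obtain ⟨x⟩ := ‹Nonempty X›
  obtain ⟨V, e, hx, he⟩ := hL x
  have hsub : ∀ m : Γ(L, V), m = 0 := by
    intro m
    have h1 : (𝟙 L : L ⟶ L) = 0 := h0.eq_of_src _ _
    have h2 := congrArg (fun φ : L ⟶ L => φ.app V m) h1
    simpa using h2
  have : Nonempty V := ⟨⟨x, hx⟩⟩
  have h3 := (he V le_rfl 0).unique (y₁ := 1) (y₂ := 0) (hsub _) (hsub _)
  exact one_ne_zero h3

/-- `𝒪_X` is generated by the global section `1`. -/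
lemma isGloballyGenerated_structureSheaf (X : Scheme.{u}) :
    IsGloballyGenerated (structureSheaf X) := by
  intro U t x hx
  refine ⟨U, le_rfl, hx, ?_⟩
  obtain ⟨a, ha, -⟩ := isFrame_one (X := X) ⊤ U le_top (res (structureSheaf X) le_rfl t)
  rw [← ha]
  exact Submodule.smul_mem _ _ (Submodule.subset_span ⟨toO ⊤ 1, rfl⟩)

end General

section Nef

variable {X : Scheme.{0}} (π : X ⟶ SpecC)

/-- **A globally generated sheaf is nef.** -/
theorem isNef_of_isGloballyGenerated {E : X.Modules} (hE : IsGloballyGenerated E) :
    IsNef π E := by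
  intro C _ _ c _ _ ν _ L q _ hL
  let adj := Scheme.Modules.pullbackPushforwardAdjunction ν
  by_cases h : ∀ s : Γ(E, ⊤), (adj.homEquiv _ _ q).app ⊤ s = 0
  · exfalso
    have hq' : adj.homEquiv _ _ q = 0 := eq_zero_of_isGloballyGenerated hE _ h
    have hq : q = 0 := by
      apply (adj.homEquiv _ _).injective
      rw [hq', Adjunction.homEquiv_unit, Functor.map_zero, Limits.comp_zero]
    exact hL.not_isZero (Limits.IsZero.of_epi_eq_zero q hq)
  · push Not at h
    obtain ⟨s, hs⟩ := h
    exact hasDegree_nonneg_of_section hL ((adj.homEquiv _ _ q).app ⊤ s) hs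

/-- **`𝒪_X` is nef.** -/
theorem isNef_structureSheaf : IsNef π (structureSheaf X) :=
  isNef_of_isGloballyGenerated π (isGloballyGenerated_structureSheaf X)

end Nef

end Claimed.Open.R067
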