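import Claimed.Open.R067.SanityProjLineOmega
import Claimed.Open.R067.SanityNef

/-!
# Sanity for `IsNef`: the formal properties of nef sheaves

Lazarsfeld, *Positivity II*, Proposition 6.1.2: quotients and pullbacks of nef vector bundles are nef.  Both hold
for `IsNef` of `Statement.lean`, for arbitrary sheaves of modules:

* `IsNef.of_epi`: a quotient of a nef sheaf is nef; `IsNef.of_iso`, `isNef_iff_of_iso`: nefness only depends on
  the isomorphism class;
* `IsNef.pullback`: the pullback of a nef sheaf along a morphism of `ℂ`-schemes is nef; in particular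
  (`IsNef.pullback_tangentSheaf`) the hypothesis `IsNef π (tangentSheaf π)` of `Statement` passes to `f^* T_X` for every
  `f : Y ⟶ X`, which is how the paper uses it (on rational curves `f : ℙ¹ ⟶ X`);
* with teeth: `Ω_{ℙ¹}` is a quotient of no nef sheaf (`not_isNef_of_epi_cotangentSheaf_projLine`), in particular it is
  not generated by its global sections (`not_isGloballyGenerated_cotangentSheaf_projLine`).
-/

open AlgebraicGeometry CategoryTheory Opposite TopologicalSpace

namespace Claimed.Open.R067

variable {X : Scheme.{0}} {π : X ⟶ SpecC}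

/-- **A quotient of a nef sheaf is nef** (Lazarsfeld 6.1.2 (i)). -/
theorem IsNef.of_epi {E F : X.Modules} (hE : IsNef π E) (p : E ⟶ F) [Epi p] : IsNef π F := by
  intro C _ _ c _ _ ν hν L q _ hL
  exact hE C c ν hν L ((Scheme.Modules.pullback ν).map p ≫ q) hL

/-- Nefness is invariant under isomorphisms. -/
theorem IsNef.of_iso {E F : X.Modules} (hE : IsNef π E) (e : E ≅ F) : IsNef π F :=
  hE.of_epi e.hom

theorem isNef_iff_of_iso {E F : X.Modules} (e : E ≅ F) : IsNef π E ↔ IsNef π F :=
  ⟨fun h => h.of_iso e, fun h => h.of_iso e.symm⟩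

/-- **The pullback of a nef sheaf is nef** (Lazarsfeld 6.1.2 (ii)). -/
theorem IsNef.pullback {E : X.Modules} (hE : IsNef π E) {Y : Scheme.{0}} (f : Y ⟶ X) :
    IsNef (f ≫ π) ((Scheme.Modules.pullback f).obj E) := by
  intro C _ _ c _ _ ν hν L q _ hL
  exact hE C c (ν ≫ f) (by rw [Category.assoc, hν]) L
    ((Scheme.Modules.pullbackComp ν f).inv.app E ≫ q) hL

/-- The hypothesis on the tangent sheaf in `Statement` passes to `f^* T_X` for every `f : Y ⟶ X`. -/
theorem IsNef.pullback_tangentSheaf (h : IsNef π (tangentSheaf π)) {Y : Scheme.{0}} (f : Y ⟶ X) :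
    IsNef (f ≫ π) ((Scheme.Modules.pullback f).obj (tangentSheaf π)) :=
  h.pullback f

/-- `Ω_{ℙ¹}` is a quotient of no nef sheaf. -/
theorem not_isNef_of_epi_cotangentSheaf_projLine {E : (projSpace 1).Modules}
    (p : E ⟶ cotangentSheaf (projSpaceHom 1)) [Epi p] : ¬ IsNef (projSpaceHom 1) E :=
  fun h => not_isNef_cotangentSheaf_projLine (h.of_epi p)

/-- `Ω_{ℙ¹}` is not generated by its global sections. -/
theorem not_isGloballyGenerated_cotangentSheaf_projLine :
    ¬ IsGloballyGenerated (cotangentSheaf (projSpaceHom 1)) :=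
  fun h => not_isNef_cotangentSheaf_projLine (isNef_of_isGloballyGenerated _ h)

end Claimed.Open.R067
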