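import Claimed.Open.R067.SanityNef

/-!
# Sanity for `IsAmple`
-/

open AlgebraicGeometry CategoryTheory Opposite TopologicalSpace MonoidalCategory

universe u

namespace Claimed.Open.R067

section Tensor

variable {X : Scheme.{u}}

/-- The sheaf associated with (the underlying presheaf of) a sheaf `M` is `M`. -/
noncomputable def sheafifyIso (M : X.Modules) :
    (PresheafOfModules.sheafification (𝟙 X.ringCatSheaf.obj)).obj M.val ≅ M :=
  (asIso (PresheafOfModules.sheafificationAdjunction (𝟙 X.ringCatSheaf.obj)).counit).app M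

/-- `M ⊗ 𝒪_X ≅ M`. -/
noncomputable def tensorUnitIso (M : X.Modules) : tensor M (structureSheaf X) ≅ M :=
  (PresheafOfModules.sheafification (𝟙 X.ringCatSheaf.obj)).mapIso
    (MonoidalCategory.rightUnitor
      (C := PresheafOfModules (X.presheaf ⋙ forget₂ CommRingCat RingCat)) M.val) ≪≫ sheafifyIso M

/-- `𝒪_X^{⊗ n} ≅ 𝒪_X`. -/
noncomputable def tensorPowUnitIso : ∀ n : ℕ, tensorPow (structureSheaf X) n ≅ structureSheaf X
  | 0 => Iso.refl _
  | 1 => Iso.refl _
  | (n + 2) => tensorUnitIso _ ≪≫ tensorPowUnitIso (n + 1)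

end Tensor

section Frames

variable {X : Scheme.{u}}

lemma iso_hom_inv_app {L L' : X.Modules} (φ : L ≅ L') (W : X.Opens) (t : Γ(L', W)) :
    φ.hom.app W (φ.inv.app W t) = t :=
  congr($(congrArg (fun ψ : L' ⟶ L' => ψ.app W) φ.inv_hom_id) t)

lemma iso_inv_hom_app {L L' : X.Modules} (φ : L ≅ L') (W : X.Opens) (t : Γ(L, W)) :
    φ.inv.app W (φ.hom.app W t) = t :=
  congr($(congrArg (fun ψ : L ⟶ L => ψ.app W) φ.hom_inv_id) t)

/-- Isomorphisms preserve frames. -/
lemma IsFrame.map_iso {L L' : X.Modules} (φ : L ≅ L') {V : X.Opens} {e : Γ(L, V)}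
    (he : IsFrame L V e) : IsFrame L' V (φ.hom.app V e) := by
  intro W h t
  obtain ⟨a, ha, hu⟩ := he W h (φ.inv.app W t)
  refine ⟨a, ?_, ?_⟩
  · change a • Claimed.Open.R067.res L' h (φ.hom.app V e) = t
    rw [← app_res, ← Scheme.Modules.Hom.app_smul, ha, iso_hom_inv_app]
  · intro b hb
    apply hu
    rw [← hb, ← app_res, ← Scheme.Modules.Hom.app_smul, iso_inv_hom_app]

lemma isFrame_map_iso_iff {L L' : X.Modules} (φ : L ≅ L') {V : X.Opens} {e : Γ(L, V)} :
    IsFrame L' V (φ.hom.app V e) ↔ IsFrame L V e := by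
  refine ⟨fun h => ?_, fun h => h.map_iso φ⟩
  have := h.map_iso φ.symm
  rwa [Iso.symm_hom, iso_inv_hom_app] at this

/-- Isomorphisms preserve invertibility. -/
lemma IsInvertible.of_iso {L L' : X.Modules} (φ : L ≅ L') (hL : IsInvertible L) :
    IsInvertible L' := fun x =>
  let ⟨V, e, hx, he⟩ := hL x
  ⟨V, φ.hom.app V e, hx, he.map_iso φ⟩

lemma mem_nonvanishingLocus {L : X.Modules} {s : Γ(L, ⊤)} {x : X} :
    x ∈ nonvanishingLocus L s ↔ ∃ V : X.Opens, x ∈ V ∧ IsFrame L V (res L le_top s) := by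
  simp only [nonvanishingLocus, Opens.mem_sSup, Set.mem_ofPred_eq]
  exact ⟨fun ⟨V, h1, h2⟩ => ⟨V, h2, h1⟩, fun ⟨V, h1, h2⟩ => ⟨V, h2, h1⟩⟩

/-- Isomorphisms preserve the nonvanishing locus. -/
lemma nonvanishingLocus_map_iso {L L' : X.Modules} (φ : L ≅ L') (s : Γ(L, ⊤)) :
    nonvanishingLocus L' (φ.hom.app ⊤ s) = nonvanishingLocus L s := by
  ext x
  simp only [SetLike.mem_coe, mem_nonvanishingLocus, ← app_res, isFrame_map_iso_iff]

/-- A regular function is a frame of `𝒪_X` over `V` iff it is a unit. -/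
lemma isFrame_toO_iff {V : X.Opens} {a : Γ(X, V)} :
    IsFrame (structureSheaf X) V (toO V a) ↔ IsUnit a := by
  constructor
  · intro h
    obtain ⟨u, hu, hua⟩ := h.exists_unit (isFrame_one V)
    rw [smul_toO] at hua
    exact IsUnit.of_mul_eq_one u (by rw [mul_comm]; exact (toO V).injective hua)
  · intro h W hW t
    have hu : IsUnit (resO hW a) := h.map _
    obtain ⟨u, hu'⟩ := hu
    refine ⟨(toO W).symm t * ↑u⁻¹, ?_, ?_⟩
    · change _ • res (structureSheaf X) hW (toO V a) = t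
      rw [res_toO, smul_toO, ← hu', mul_assoc, Units.inv_mul, mul_one, AddEquiv.apply_symm_apply]
    · intro b hb
      change b • res (structureSheaf X) hW (toO V a) = t at hb
      rw [res_toO, smul_toO, ← hu'] at hb
      rw [← hb, AddEquiv.symm_apply_apply, mul_assoc, Units.mul_inv, mul_one]

lemma nonvanishingLocus_eq_top {L : X.Modules} {s : Γ(L, ⊤)} (hs : IsFrame L ⊤ s) :
    nonvanishingLocus L s = ⊤ := by
  rw [eq_top_iff]
  intro x _
  exact mem_nonvanishingLocus.mpr ⟨⊤, trivial, hs.res le_top⟩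

end Frames

section Ample

variable {X : Scheme.{u}}

/-- **On an affine scheme `𝒪_X` is ample.** -/
theorem isAmple_structureSheaf_of_isAffine [IsAffine X] : IsAmple (structureSheaf X) := by
  refine ⟨isInvertible_structureSheaf X, inferInstance, fun x => ⟨1, le_rfl, toO ⊤ 1, ?_⟩⟩
  have h : nonvanishingLocus (tensorPow (structureSheaf X) 1) (toO ⊤ 1) = ⊤ :=
    nonvanishingLocus_eq_top (isFrame_one ⊤)
  rw [h]
  exact ⟨trivial, isAffineOpen_top X⟩

/-- **`IsAmple` has teeth**: on an integral scheme which is universally closed (e.g. proper) over a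
field and has more than one point, `𝒪_X` is not ample. -/
theorem not_isAmple_structureSheaf {K : Type u} [Field K] (f : X ⟶ Spec (.of K)) [IsIntegral X]
    [UniversallyClosed f] [Nontrivial X] : ¬ IsAmple (structureSheaf X) := by
  rintro ⟨-, -, h⟩
  obtain ⟨x⟩ : Nonempty X := inferInstance
  obtain ⟨n, -, s, hx, haff⟩ := h x
  have hfield : IsField Γ(X, ⊤) := isField_of_universallyClosed K f
  obtain ⟨a, ha⟩ := (toO (X := X) ⊤).surjective ((tensorPowUnitIso n).hom.app ⊤ s)
  rw [← nonvanishingLocus_map_iso (tensorPowUnitIso n), ← ha] at hx haff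
  obtain ⟨V, hxV, hV⟩ := mem_nonvanishingLocus.mp hx
  rw [res_toO, isFrame_toO_iff] at hV
  have : Nonempty V := ⟨⟨x, hxV⟩⟩
  have ha0 : a ≠ 0 := by
    rintro rfl
    rw [map_zero] at hV
    exact not_isUnit_zero hV
  have hau : IsUnit a := by
    obtain ⟨b, hb⟩ := hfield.mul_inv_cancel ha0
    exact IsUnit.of_mul_eq_one b hb
  rw [nonvanishingLocus_eq_top (isFrame_toO_iff.mpr hau)] at haff
  have h1 : Subsingleton (Spec Γ(X, ⊤)) :=
    letI := hfield.toField
    inferInstanceAs (Subsingleton (PrimeSpectrum Γ(X, ⊤)))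
  have h2 : Subsingleton (⊤ : X.Opens) :=
    haff.isoSpec.hom.homeomorph.injective.subsingleton
  obtain ⟨y, z, hyz⟩ := exists_pair_ne X
  exact hyz (congrArg Subtype.val (h2.elim ⟨y, trivial⟩ ⟨z, trivial⟩))

end Ample

end Claimed.Open.R067
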