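import Claimed.Open.R067.SanityProjCurve
import Claimed.Open.R067.SanityAmple

/-!
# Sanity for `IsAmple`: the structure sheaf of `ℙ^N`, `N ≥ 1`, is not ample
-/

open AlgebraicGeometry CategoryTheory

namespace Claimed.Open.R067

/-- **`𝒪` is not ample on `ℙ^{N+1}_ℂ`.** -/
theorem not_isAmple_structureSheaf_projSpace (N : ℕ) :
    ¬ IsAmple (structureSheaf (projSpace (N + 1))) := by
  have := projSpace_isIntegral (N + 1)
  have := projSpaceHom_isProper (N + 1)
  have := projSpace_nontrivial N
  exact not_isAmple_structureSheaf (projSpaceHom (N + 1))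

/-- `𝒪` is ample on `Spec ℂ`. -/
theorem isAmple_structureSheaf_SpecC : IsAmple (structureSheaf SpecC) :=
  isAmple_structureSheaf_of_isAffine

end Claimed.Open.R067
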