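import Claimed.Open.R067.SanityOrd

/-!
# Sanity for `HasDegree`: uniqueness of the degree

On a quasi-compact integral locally noetherian scheme on which principal divisors have finite support and
degree `0`, the degree of an invertible sheaf (in the sense of `HasDegree`) is unique.
-/

open AlgebraicGeometry CategoryTheory Opposite TopologicalSpace

universe u

namespace Claimed.Open.R067

section Principal

variable {X : Scheme.{u}} [IsIntegral X] [IsLocallyNoetherian X]

/-- The principal divisor of the rational function `f` has finite support and degree `0`. -/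
def PrincipalDegZero (f : X.functionField) : Prop :=
  (Function.support (Scheme.ord f)).Finite ∧ ∑ᶠ x, Scheme.ord f x = 0

lemma PrincipalDegZero.one : PrincipalDegZero (1 : X.functionField) := by
  have : Scheme.ord (1 : X.functionField) = 0 := funext ord_one
  constructor
  · rw [this]; simp
  · simp [ord_one]

lemma PrincipalDegZero.mul {f g : X.functionField} (hf0 : f ≠ 0) (hg0 : g ≠ 0)
    (hf : PrincipalDegZero f) (hg : PrincipalDegZero g) : PrincipalDegZero (f * g) := by
  have h : Scheme.ord (f * g) = Scheme.ord f + Scheme.ord g :=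
    funext fun x => Scheme.ord_mul hf0 hg0
  constructor
  · rw [h]
    exact (hf.1.union hg.1).subset (Function.support_add _ _)
  · simp only [h, Pi.add_apply]
    rw [finsum_add_distrib hf.1 hg.1, hf.2, hg.2, add_zero]

lemma PrincipalDegZero.inv {f : X.functionField} (hf0 : f ≠ 0) (hf : PrincipalDegZero f) :
    PrincipalDegZero f⁻¹ := by
  have h : Scheme.ord f⁻¹ = - Scheme.ord f := funext fun x => ord_inv hf0 x
  constructor
  · rw [h, Function.support_neg]
    exact hf.1
  · simp only [h, Pi.neg_apply]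
    rw [finsum_neg_distrib, hf.2, neg_zero]

end Principal

section Unique

variable {C : Scheme.{u}} [IsIntegral C] {L : C.Modules}

/-- On an integral scheme, a section of an invertible sheaf which vanishes on a nonempty open subset
vanishes. -/
lemma eq_zero_of_res_eq_zero (hL : IsInvertible L) {U W : C.Opens} [Nonempty W] (h : W ≤ U)
    (s : Γ(L, U)) (hs : res L h s = 0) : s = 0 := by
  choose V e hxV he using hL
  refine res_ext L (fun x : U => U ⊓ V x.1) U (fun _ => inf_le_left)
    (fun x hx => Opens.mem_iSup.mpr ⟨⟨x, hx⟩, hx, hxV x⟩) _ _ fun x => ?_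
  rw [map_zero]
  have : Nonempty (U ⊓ V x.1 : C.Opens) := ⟨⟨x.1, x.2, hxV x.1⟩⟩
  have := nonempty_inf (U ⊓ V x.1) W
  obtain ⟨a, ha, -⟩ := he x.1 (U ⊓ V x.1) inf_le_right (res L inf_le_left s)
  have h1 : resO (inf_le_left : (U ⊓ V x.1) ⊓ W ≤ U ⊓ V x.1) a = 0 := by
    refine ((he x.1) ((U ⊓ V x.1) ⊓ W) (inf_le_left.trans inf_le_right) 0).unique ?_
      (zero_smul _ _)
    have h2 := congrArg (res L (inf_le_left : (U ⊓ V x.1) ⊓ W ≤ U ⊓ V x.1)) ha
    rw [res_smul, res_res, res_res] at h2
    rw [h2, ← res_res L h (inf_le_right : (U ⊓ V x.1) ⊓ W ≤ W), hs, map_zero]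
  have h3 : a = 0 := by
    apply map_injective_of_isIntegral C (homOfLE (inf_le_left : (U ⊓ V x.1) ⊓ W ≤ U ⊓ V x.1))
    rw [map_zero]
    exact h1
  rw [← ha, h3, zero_smul]

lemma ratio_ne_zero (hL : IsInvertible L) {U V : C.Opens} [Nonempty U] [Nonempty V] (s : Γ(L, U))
    (hs : s ≠ 0) (e : Γ(L, V)) (he : IsFrame L V e) : ratio L s e he ≠ 0 := by
  have := nonempty_inf U V
  intro h
  exact hs (eq_zero_of_res_eq_zero hL _ s ((ratio_eq_zero_iff s e he).mp h))

/-- Change of frame, with a unit which does not depend on the section. -/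
lemma ratio_change_uniform {V V' : C.Opens} [Nonempty V] [Nonempty V']
    (e : Γ(L, V)) (he : IsFrame L V e) (e' : Γ(L, V')) (he' : IsFrame L V' e') :
    ∃ w : C.functionField, w ≠ 0 ∧ ∀ (U : C.Opens) [Nonempty U] (s : Γ(L, U)),
      ratio L s e he = ratio L s e' he' * w := by
  have := nonempty_inf V V'
  obtain ⟨u, hu, hue⟩ := (he.res (inf_le_left : V ⊓ V' ≤ V)).exists_unit
    (he'.res (inf_le_right : V ⊓ V' ≤ V'))
  refine ⟨C.germToFunctionField (V ⊓ V') u, germK_ne_zero hu.ne_zero, ?_⟩
  intro U _ s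
  have := nonempty_inf U (V ⊓ V')
  have hWU : U ⊓ (V ⊓ V') ≤ U := inf_le_left
  have hWVV : U ⊓ (V ⊓ V') ≤ V ⊓ V' := inf_le_right
  have hWV : U ⊓ (V ⊓ V') ≤ V := hWVV.trans inf_le_left
  have hWV' : U ⊓ (V ⊓ V') ≤ V' := hWVV.trans inf_le_right
  obtain ⟨a', ha', -⟩ := he' _ hWV' (res L hWU s)
  have hue' : resO hWVV u • res L hWV e = res L hWV' e' := by
    have := congrArg (res L hWVV) hue
    rw [res_smul, res_res, res_res] at this
    exact this
  rw [ratio_eq s e' he' _ hWU hWV' a' ha',
    ratio_eq s e he _ hWU hWV (a' * resO hWVV u) (by rw [mul_smul, hue', ha']), map_mul,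
    germ_resO]

variable [IsLocallyNoetherian C]

/-- Two nonzero rational sections differ by a nonzero rational function. -/
lemma exists_ordAt_eq_add (hL : IsInvertible L) {U U' : C.Opens} [Nonempty U] [Nonempty U']
    (s : Γ(L, U)) (hs : s ≠ 0) (s' : Γ(L, U')) (hs' : s' ≠ 0) :
    ∃ f : C.functionField, f ≠ 0 ∧ ∀ x, ordAt hL s' x = ordAt hL s x + Scheme.ord f x := by
  obtain ⟨V₀, e₀, hx₀, he₀⟩ := hL (genericPoint C)
  have : Nonempty V₀ := ⟨⟨_, hx₀⟩⟩
  have h0 := ratio_ne_zero hL s hs e₀ he₀
  have h0' := ratio_ne_zero hL s' hs' e₀ he₀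
  refine ⟨ratio L s' e₀ he₀ / ratio L s e₀ he₀, div_ne_zero h0' h0, fun x => ?_⟩
  obtain ⟨V, e, hx, he⟩ := hL x
  have : Nonempty V := ⟨⟨_, hx⟩⟩
  obtain ⟨w, hw, hchange⟩ := ratio_change_uniform e₀ he₀ e he
  have h1 := ratio_ne_zero hL s hs e he
  have h1' := ratio_ne_zero hL s' hs' e he
  rw [ordAt_eq hL s' x hx e he, ordAt_eq hL s x hx e he, hchange U s, hchange U' s',
    ← Scheme.ord_mul h1 (div_ne_zero (mul_ne_zero h1' hw) (mul_ne_zero h1 hw))]
  congr 1
  field_simp

/-- If principal divisors have finite support, so has the divisor of a rational section. -/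
lemma ordAt_support_finite [CompactSpace C]
    (hfin : ∀ f : C.functionField, f ≠ 0 → (Function.support (Scheme.ord f)).Finite)
    (hL : IsInvertible L) {U : C.Opens} [Nonempty U] (s : Γ(L, U)) (hs : s ≠ 0) :
    (Function.support (ordAt hL s)).Finite := by
  have hL' := hL
  choose V e hxV he using hL'
  obtain ⟨t, ht⟩ := isCompact_univ.elim_finite_subcover (fun x : C => (V x : Set C))
    (fun x => (V x).isOpen) (fun x _ => Set.mem_iUnion.mpr ⟨x, hxV x⟩)
  have hne : ∀ x, Nonempty (V x) := fun x => ⟨⟨x, hxV x⟩⟩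
  refine (t.finite_toSet.biUnion fun y _ =>
    hfin _ (ratio_ne_zero hL s hs (e y) (he y))).subset ?_
  intro x hx
  obtain ⟨y, hy, hxy⟩ := Set.mem_iUnion₂.mp (ht (Set.mem_univ x))
  refine Set.mem_iUnion₂.mpr ⟨y, hy, ?_⟩
  rw [Function.mem_support] at hx ⊢
  rwa [ordAt_eq _ s x hxy (e y) (he y)] at hx

/-- **Uniqueness of the degree**, on a quasi-compact integral locally noetherian scheme on which principal
divisors have finite support and degree `0`. -/
theorem hasDegree_unique [CompactSpace C]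
    (hprin : ∀ f : C.functionField, f ≠ 0 → PrincipalDegZero f) {d d' : ℤ}
    (h : HasDegree L d) (h' : HasDegree L d') : d = d' := by
  obtain ⟨hL, U, hU, s, hs, rfl⟩ := h
  obtain ⟨-, U', hU', s', hs', rfl⟩ := h'
  obtain ⟨f, hf, hadd⟩ := exists_ordAt_eq_add hL s hs s' hs'
  simp only [hadd]
  rw [finsum_add_distrib (ordAt_support_finite (fun f hf => (hprin f hf).1) hL s hs)
    (hprin f hf).1, (hprin f hf).2, add_zero]

end Unique

end Claimed.Open.R067
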