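import Claimed.Open.R067.SanityProjGerm
import Claimed.Open.R067.SanityDegreeUnique

/-!
# Sanity for degrees: principal divisors on `ℙ^1_ℂ` have degree `0`
-/

open AlgebraicGeometry CategoryTheory HomogeneousLocalization

namespace Claimed.Open.R067

attribute [local instance] MvPolynomial.gradedAlgebra

noncomputable section ProjLine

/-- The standard grading of `ℂ[x₀, x₁]`. -/
local notation "𝒜₁" => MvPolynomial.homogeneousSubmodule (Fin 2) ℂ

/-- `ℙ^1`, as a `Proj`. -/
local notation "ℙ₁" => Proj (MvPolynomial.homogeneousSubmodule (Fin 2) ℂ)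

instance instIsIntegralProjLine : IsIntegral ℙ₁ := projSpace_isIntegral 1

instance instIsLocallyNoetherianProjLine : IsLocallyNoetherian ℙ₁ :=
  projSpace_isLocallyNoetherian 1

/-- The chart `D₊(x_i)`. -/
def lineU (i : Fin 2) : (ℙ₁).Opens := Proj.basicOpen 𝒜₁ (MvPolynomial.X i)

lemma lineU_isAffineOpen (i : Fin 2) : IsAffineOpen (lineU i) :=
  Proj.isAffineOpen_basicOpen 𝒜₁ (MvPolynomial.X i) (X_mem_deg_one ℂ i) one_pos

instance instNonemptyBasicOpenX (i : Fin 2) :
    Nonempty (Proj.basicOpen 𝒜₁ (MvPolynomial.X i : MvPolynomial (Fin 2) ℂ)) :=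
  ⟨⟨projSpaceGeneric 1, by
    change (MvPolynomial.X i : MvPolynomial (Fin 2) ℂ) ∉
      (⊥ : HomogeneousIdeal (MvPolynomial.homogeneousSubmodule (Fin 2) ℂ))
    simp [← HomogeneousIdeal.mem_iff]⟩⟩

instance instNonemptyLineU (i : Fin 2) : Nonempty (lineU i) := instNonemptyBasicOpenX i

lemma lineU_sup : lineU 0 ⊔ lineU 1 = ⊤ := by
  have h := Proj.iSup_basicOpen_eq_top 𝒜₁ (MvPolynomial.X : Fin 2 → MvPolynomial (Fin 2) ℂ)
    (irrelevant_le_span_X 1)
  rw [← h, eq_comm]
  apply le_antisymm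
  · exact iSup_le fun i => by
      fin_cases i
      · exact le_sup_left
      · exact le_sup_right
  · exact sup_le (le_iSup (fun i => Proj.basicOpen 𝒜₁ (MvPolynomial.X i)) 0)
      (le_iSup (fun i => Proj.basicOpen 𝒜₁ (MvPolynomial.X i)) 1)

/-- The other index. -/
def other (i : Fin 2) : Fin 2 := 1 - i

lemma other_ne (i : Fin 2) : other i ≠ i := by
  fin_cases i <;> simp [other]

instance instUniqueNe (i : Fin 2) : Unique {j : Fin 2 // j ≠ i} where
  default := ⟨other i, other_ne i⟩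
  uniq := by
    rintro ⟨j, hj⟩
    apply Subtype.ext
    change j = other i
    have h : ∀ i j : Fin 2, j ≠ i → j = other i := by decide
    exact h i j hj

/-- Functions on the chart `D₊(x_i)` are the elements of `ℂ[x₀, x₁]_{(x_i)}`. -/
def lineSec (i : Fin 2) : Away 𝒜₁ (MvPolynomial.X i : MvPolynomial (Fin 2) ℂ) ≃+* Γ(ℙ₁, lineU i) :=
  (Proj.basicOpenIsoAway 𝒜₁ (MvPolynomial.X i) (X_mem_deg_one ℂ i)
    one_pos).commRingCatIsoToRingEquiv

lemma lineSec_apply (i : Fin 2) (s : Away 𝒜₁ (MvPolynomial.X i : MvPolynomial (Fin 2) ℂ)) :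
    lineSec i s = Proj.awayToSection 𝒜₁ (MvPolynomial.X i) s := rfl

/-- Functions on the chart `D₊(x_i)` are the polynomials in `x_{1-i} / x_i`. -/
def lineRho (i : Fin 2) : Polynomial ℂ ≃+* Γ(ℙ₁, lineU i) :=
  ((MvPolynomial.uniqueAlgEquiv ℂ {j : Fin 2 // j ≠ i}).symm.toRingEquiv.trans
    (awayEquiv ℂ i)).trans (lineSec i)

lemma lineRho_X (i : Fin 2) :
    lineRho i Polynomial.X = lineSec i (awayFrac ℂ i (other i)) := by
  simp [lineRho]
  rfl

lemma lineRho_C (i : Fin 2) (c : ℂ) :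
    lineRho i (Polynomial.C c) = lineSec i (awayC ℂ i c) := by
  simp [lineRho]

/-! ### The function field -/

/-- The polynomial `P(x_{1-i} / x_i)`, as a rational function on `ℙ^1`. -/
def lineK (i : Fin 2) : Polynomial ℂ →+* (ℙ₁).functionField :=
  ((ℙ₁).germToFunctionField (lineU i)).hom.comp (lineRho i).toRingHom

lemma lineK_apply (i : Fin 2) (P : Polynomial ℂ) :
    lineK i P = (ℙ₁).germToFunctionField (lineU i) (lineRho i P) := rfl

lemma lineK_injective (i : Fin 2) : Function.Injective (lineK i) :=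
  ((ℙ₁).germToFunctionField_injective (lineU i)).comp (lineRho i).injective

lemma C_mem_deg_zero (c : ℂ) : (MvPolynomial.C c : MvPolynomial (Fin 2) ℂ) ∈ 𝒜₁ (0 • 1) := by
  rw [zero_smul, MvPolynomial.mem_homogeneousSubmodule]
  exact MvPolynomial.isHomogeneous_C (Fin 2) c

lemma awayC_eq_mk (i : Fin 2) (c : ℂ) : awayC ℂ i c =
    Away.mk 𝒜₁ (X_mem_deg_one ℂ i) 0 (MvPolynomial.C c) (C_mem_deg_zero c) := by
  apply HomogeneousLocalization.val_injective
  rw [val_awayC, Away.val_mk, ← Localization.mk_one_eq_algebraMap]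
  congr 1

lemma iotaK_lineK_C (i : Fin 2) (c : ℂ) :
    iotaK 𝒜₁ (lineK i (Polynomial.C c)) =
      algebraMap (MvPolynomial (Fin 2) ℂ) (Localization.AtPrime (genIdeal 𝒜₁))
        (MvPolynomial.C c) := by
  have h := iotaK_germ_mk 𝒜₁ (X_mem_deg_one ℂ i) 0 (MvPolynomial.C c) (C_mem_deg_zero c)
  rw [pow_zero, mul_one, ← awayC_eq_mk] at h
  rw [lineK_apply, lineRho_C, lineSec_apply]
  exact h

lemma iotaK_lineK_X (i : Fin 2) :
    iotaK 𝒜₁ (lineK i Polynomial.X) *
        algebraMap (MvPolynomial (Fin 2) ℂ) (Localization.AtPrime (genIdeal 𝒜₁))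
          (MvPolynomial.X i) =
      algebraMap (MvPolynomial (Fin 2) ℂ) (Localization.AtPrime (genIdeal 𝒜₁))
        (MvPolynomial.X (other i)) := by
  have h := iotaK_germ_mk 𝒜₁ (X_mem_deg_one ℂ i) 1 (MvPolynomial.X (other i))
    (X_mem_deg_one' ℂ (other i))
  rw [pow_one] at h
  rw [lineK_apply, lineRho_X, lineSec_apply]
  exact h

lemma lineK_C_eq (c : ℂ) : lineK 0 (Polynomial.C c) = lineK 1 (Polynomial.C c) :=
  iotaK_injective 𝒜₁ ((iotaK_lineK_C 0 c).trans (iotaK_lineK_C 1 c).symm)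

lemma lineK_X_mul : lineK 0 Polynomial.X * lineK 1 Polynomial.X = 1 := by
  apply iotaK_injective 𝒜₁
  have h0 := iotaK_lineK_X 0
  have h1 := iotaK_lineK_X 1
  have e0 : other 0 = 1 := rfl
  have e1 : other 1 = 0 := rfl
  rw [e0] at h0
  rw [e1] at h1
  have u0 := isUnit_algebraMap_genIdeal 𝒜₁ (MvPolynomial.X 0 : MvPolynomial (Fin 2) ℂ)
  have u1 := isUnit_algebraMap_genIdeal 𝒜₁ (MvPolynomial.X 1 : MvPolynomial (Fin 2) ℂ)
  apply (u0.mul u1).mul_right_cancel
  rw [map_mul, map_one, one_mul]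
  linear_combination
    (iotaK 𝒜₁ (lineK 1 Polynomial.X) *
      algebraMap (MvPolynomial (Fin 2) ℂ) (Localization.AtPrime (genIdeal 𝒜₁))
        (MvPolynomial.X 1)) * h0 +
    algebraMap (MvPolynomial (Fin 2) ℂ) (Localization.AtPrime (genIdeal 𝒜₁))
        (MvPolynomial.X 1) * h1

/-- `y - a = (1 - a z) / z`, where `z = 1 / y`. -/
lemma lineK_X_sub_C (a : ℂ) : lineK 0 (Polynomial.X - Polynomial.C a) =
    lineK 1 (1 - Polynomial.C a * Polynomial.X) * (lineK 1 Polynomial.X)⁻¹ := by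
  have hz : lineK 1 Polynomial.X ≠ 0 := by
    intro h
    have := lineK_X_mul
    rw [h, mul_zero] at this
    exact zero_ne_one this
  rw [eq_mul_inv_iff_mul_eq₀ hz, map_sub, map_sub, map_mul, map_one, sub_mul, lineK_X_mul,
    lineK_C_eq]

/-! ### Points -/

/-- The function `y - a` on the chart `D₊(x_i)`, where `y = x_{1-i} / x_i`. -/
def lineG (i : Fin 2) (a : ℂ) : Γ(ℙ₁, lineU i) := lineRho i (Polynomial.X - Polynomial.C a)

lemma lineG_ne_zero (i : Fin 2) (a : ℂ) : lineG i a ≠ 0 := by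
  intro h
  exact Polynomial.X_sub_C_ne_zero a ((lineRho i).injective (h.trans (map_zero _).symm))

lemma lineG_span_isMaximal (i : Fin 2) (a : ℂ) : (Ideal.span {lineG i a}).IsMaximal := by
  have h : (Ideal.span {Polynomial.X - Polynomial.C a}).IsMaximal :=
    PrincipalIdealRing.isMaximal_of_irreducible (Polynomial.irreducible_X_sub_C a)
  have h2 := Ideal.map_isMaximal_of_equiv (lineRho i)
    (p := Ideal.span {Polynomial.X - Polynomial.C a})
  rwa [Ideal.map_span, Set.image_singleton] at h2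

/-- The point `y = a` of the chart `D₊(x_i)`. -/
def linePt (i : Fin 2) (a : ℂ) : ℙ₁ :=
  (lineU_isAffineOpen i).fromSpec ⟨Ideal.span {lineG i a}, (lineG_span_isMaximal i a).isPrime⟩

lemma linePt_mem (i : Fin 2) (a : ℂ) : linePt i a ∈ lineU i := by
  have h := (lineU_isAffineOpen i).range_fromSpec
  have h2 : linePt i a ∈ Set.range (lineU_isAffineOpen i).fromSpec := Set.mem_range_self _
  rw [h] at h2
  exact h2

lemma linePt_notMem_basicOpen (i : Fin 2) (a : ℂ) :
    linePt i a ∉ (ℙ₁).basicOpen (lineG i a) := by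
  intro h
  have h2 : (⟨Ideal.span {lineG i a}, (lineG_span_isMaximal i a).isPrime⟩ :
      PrimeSpectrum Γ(ℙ₁, lineU i)) ∈
      (lineU_isAffineOpen i).fromSpec ⁻¹ᵁ (ℙ₁).basicOpen (lineG i a) := h
  rw [(lineU_isAffineOpen i).fromSpec_preimage_basicOpen] at h2
  exact h2 (Ideal.mem_span_singleton_self _)

/-- `y = a` is the only zero of `y - a` in the chart. -/
lemma eq_linePt (i : Fin 2) (a : ℂ) {x : ℙ₁} (hx : x ∈ lineU i)
    (hx' : x ∉ (ℙ₁).basicOpen (lineG i a)) : x = linePt i a :=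
  eq_of_span_isMaximal (lineU_isAffineOpen i) _ (lineG_ne_zero i a) (lineG_span_isMaximal i a)
    hx hx' (linePt_mem i a) (linePt_notMem_basicOpen i a)

lemma ord_lineK_linePt (i : Fin 2) (a : ℂ) :
    Scheme.ord (lineK i (Polynomial.X - Polynomial.C a)) (linePt i a) = 1 :=
  ord_germ_of_span_isMaximal (lineU_isAffineOpen i) _ (lineG_ne_zero i a)
    (lineG_span_isMaximal i a) (linePt_mem i a) (linePt_notMem_basicOpen i a)

lemma lineG_zero (i : Fin 2) : lineG i 0 = lineSec i (awayFrac ℂ i (other i)) := by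
  rw [lineG, map_zero, sub_zero, lineRho_X]

/-- The function `x_{1-i} / x_i` on `D₊(x_i)` vanishes exactly outside `D₊(x_{1-i})`. -/
lemma basicOpen_lineG_zero (i : Fin 2) :
    (ℙ₁).basicOpen (lineG i 0) = lineU i ⊓ lineU (other i) := by
  rw [lineG_zero, lineSec_apply]
  exact basicOpen_awayToSection 𝒜₁ (X_mem_deg_one ℂ i) 1 (MvPolynomial.X (other i))
    (X_mem_deg_one' ℂ (other i))

/-- The point at infinity is the only point outside of the chart `D₊(x₀)`. -/
lemma eq_linePt_infty {x : ℙ₁} (hx : x ∉ lineU 0) : x = linePt 1 0 := by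
  have h1 : x ∈ lineU 1 := by
    have : x ∈ lineU 0 ⊔ lineU 1 := by rw [lineU_sup]; trivial
    exact this.resolve_left hx
  refine eq_linePt 1 0 h1 ?_
  rw [basicOpen_lineG_zero]
  exact fun h => hx h.2

lemma linePt_infty_notMem : linePt 1 0 ∉ lineU 0 := by
  intro h
  apply linePt_notMem_basicOpen 1 0
  rw [basicOpen_lineG_zero]
  exact ⟨linePt_mem 1 0, h⟩

/-! ### Orders of vanishing -/

lemma lineK_ne_zero (i : Fin 2) {P : Polynomial ℂ} (hP : P ≠ 0) : lineK i P ≠ 0 := by
  intro h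
  exact hP (lineK_injective i (h.trans (map_zero _).symm))

/-- A nonzero constant has order `0` everywhere. -/
lemma ord_lineK_C {c : ℂ} (hc : c ≠ 0) (x : ℙ₁) :
    Scheme.ord (lineK 0 (Polynomial.C c)) x = 0 := by
  have hu : ∀ i, IsUnit (lineRho i (Polynomial.C c)) := fun i =>
    (Polynomial.isUnit_C.mpr (isUnit_iff_ne_zero.mpr hc)).map (lineRho i)
  by_cases hx : x ∈ lineU 0
  · exact Scheme.ord_of_isUnit (hu 0) hx
  · have h1 : x ∈ lineU 1 := by
      have : x ∈ lineU 0 ⊔ lineU 1 := by rw [lineU_sup]; trivial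
      exact this.resolve_left hx
    rw [lineK_C_eq]
    exact Scheme.ord_of_isUnit (hu 1) h1

/-- `1 - a z` does not vanish at `z = 0`. -/
lemma ord_lineK_one_sub (a : ℂ) :
    Scheme.ord (lineK 1 (1 - Polynomial.C a * Polynomial.X)) (linePt 1 0) = 0 := by
  rw [lineK_apply]
  apply ord_germ_of_mem_basicOpen
  rw [Scheme.mem_basicOpen _ _ _ (linePt_mem 1 0)]
  have h0 : ¬ IsUnit ((ℙ₁).presheaf.germ (lineU 1) (linePt 1 0) (linePt_mem 1 0) (lineG 1 0)) :=
    fun h => linePt_notMem_basicOpen 1 0 ((Scheme.mem_basicOpen _ _ _ (linePt_mem 1 0)).mpr h)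
  have h1 : lineRho 1 (1 - Polynomial.C a * Polynomial.X) =
      1 - lineRho 1 (Polynomial.C a) * lineG 1 0 := by
    rw [lineG, map_zero, sub_zero, map_sub, map_mul, map_one]
  rw [h1, map_sub, map_mul, map_one]
  apply IsLocalRing.isUnit_one_sub_self_of_mem_nonunits
  exact Ideal.mul_mem_left (IsLocalRing.maximalIdeal _) _
    ((IsLocalRing.mem_maximalIdeal _).mpr h0)

open Classical in
/-- The divisor of `y - a` is `[a] - [∞]`. -/
lemma ord_lineK_X_sub_C (a : ℂ) (x : ℙ₁) :
    Scheme.ord (lineK 0 (Polynomial.X - Polynomial.C a)) x =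
      (if x = linePt 0 a then 1 else 0) - (if x = linePt 1 0 then 1 else 0) := by
  by_cases hx : x ∈ lineU 0
  · have h1 : x ≠ linePt 1 0 := fun h => linePt_infty_notMem (h ▸ hx)
    rw [if_neg h1, sub_zero]
    by_cases hx' : x ∈ (ℙ₁).basicOpen (lineG 0 a)
    · have h2 : x ≠ linePt 0 a := fun h => linePt_notMem_basicOpen 0 a (h ▸ hx')
      rw [if_neg h2]
      exact ord_germ_of_mem_basicOpen _ hx'
    · have h2 := eq_linePt 0 a hx hx'
      rw [if_pos h2, h2]
      exact ord_lineK_linePt 0 a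
  · have h1 := eq_linePt_infty hx
    have h2 : x ≠ linePt 0 a := fun h => hx (h ▸ linePt_mem 0 a)
    rw [if_neg h2, if_pos h1, h1, lineK_X_sub_C]
    have hz : lineK 1 Polynomial.X ≠ 0 := lineK_ne_zero 1 Polynomial.X_ne_zero
    have hw : lineK 1 (1 - Polynomial.C a * Polynomial.X) ≠ 0 := by
      apply lineK_ne_zero
      intro h
      have := congrArg (Polynomial.eval 0) h
      simp at this
    have h3 : Scheme.ord (lineK 1 Polynomial.X) (linePt 1 0) = 1 := by
      have := ord_lineK_linePt 1 0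
      rwa [map_zero, sub_zero] at this
    rw [Scheme.ord_mul hw (inv_ne_zero hz), ord_inv hz, ord_lineK_one_sub, h3]
    norm_num

lemma principalDegZero_C {c : ℂ} (hc : c ≠ 0) : PrincipalDegZero (lineK 0 (Polynomial.C c)) := by
  have h : Scheme.ord (lineK 0 (Polynomial.C c)) = 0 := funext (ord_lineK_C hc)
  constructor
  · rw [h]; simp
  · simp [ord_lineK_C hc]

lemma principalDegZero_X_sub_C (a : ℂ) :
    PrincipalDegZero (lineK 0 (Polynomial.X - Polynomial.C a)) := by
  classical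
  have hne : linePt 0 a ≠ linePt 1 0 := fun h => linePt_infty_notMem (h ▸ linePt_mem 0 a)
  have hsupp : Function.support (Scheme.ord (lineK 0 (Polynomial.X - Polynomial.C a))) ⊆
      (({linePt 0 a, linePt 1 0} : Finset ℙ₁) : Set ℙ₁) := by
    intro x hx
    rw [Function.mem_support, ord_lineK_X_sub_C] at hx
    by_contra hcon
    simp only [Finset.coe_insert, Finset.coe_singleton, Set.mem_insert_iff,
      Set.mem_singleton_iff, not_or] at hcon
    rw [if_neg hcon.1, if_neg hcon.2] at hx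
    exact hx rfl
  refine ⟨(Finset.finite_toSet _).subset hsupp, ?_⟩
  rw [finsum_eq_sum_of_support_subset _ hsupp, Finset.sum_pair hne, ord_lineK_X_sub_C,
    ord_lineK_X_sub_C, if_pos rfl, if_neg hne, if_neg hne.symm, if_pos rfl]
  norm_num

lemma principalDegZero_lineK {P : Polynomial ℂ} (hP : P ≠ 0) : PrincipalDegZero (lineK 0 P) := by
  have hsplit := (IsAlgClosed.splits P).eq_prod_roots
  have key : (P.roots.map (Polynomial.X - Polynomial.C ·)).prod ≠ 0 ∧
      PrincipalDegZero (lineK 0 (P.roots.map (Polynomial.X - Polynomial.C ·)).prod) := by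
    refine Multiset.prod_induction
      (fun Q : Polynomial ℂ => Q ≠ 0 ∧ PrincipalDegZero (lineK 0 Q)) _ ?_ ?_ ?_
    · rintro Q R ⟨hQ, hQ'⟩ ⟨hR, hR'⟩
      refine ⟨mul_ne_zero hQ hR, ?_⟩
      rw [map_mul]
      exact hQ'.mul (lineK_ne_zero 0 hQ) (lineK_ne_zero 0 hR) hR'
    · refine ⟨one_ne_zero, ?_⟩
      rw [map_one]
      exact PrincipalDegZero.one
    · intro Q hQ
      obtain ⟨a, -, rfl⟩ := Multiset.mem_map.mp hQ
      exact ⟨Polynomial.X_sub_C_ne_zero a, principalDegZero_X_sub_C a⟩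
  have hlc : P.leadingCoeff ≠ 0 := Polynomial.leadingCoeff_ne_zero.mpr hP
  rw [hsplit, map_mul]
  exact (principalDegZero_C hlc).mul (lineK_ne_zero 0 (Polynomial.C_ne_zero.mpr hlc))
    (lineK_ne_zero 0 key.1) key.2

/-- **Principal divisors on `ℙ^1_ℂ` have finite support and degree `0`.** -/
theorem principalDegZero_projLine' (f : (ℙ₁).functionField) (hf : f ≠ 0) :
    PrincipalDegZero f := by
  have hfrac := functionField_isFractionRing_of_isAffineOpen ℙ₁ (lineU 0) (lineU_isAffineOpen 0)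
  obtain ⟨p, q, hq, rfl⟩ := IsFractionRing.div_surjective (A := Γ(ℙ₁, lineU 0)) f
  obtain ⟨P, rfl⟩ := (lineRho 0).surjective p
  obtain ⟨Q, rfl⟩ := (lineRho 0).surjective q
  change lineK 0 P / lineK 0 Q ≠ 0 at hf
  change PrincipalDegZero (lineK 0 P / lineK 0 Q)
  have hP : P ≠ 0 := by
    rintro rfl
    simp at hf
  have hQ : Q ≠ 0 := by
    rintro rfl
    simp at hf
  rw [div_eq_mul_inv]
  exact (principalDegZero_lineK hP).mul (lineK_ne_zero 0 hP) (inv_ne_zero (lineK_ne_zero 0 hQ))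
    ((principalDegZero_lineK hQ).inv (lineK_ne_zero 0 hQ))

end ProjLine

instance instIsIntegralProjSpace (N : ℕ) : IsIntegral (projSpace N) := projSpace_isIntegral N

instance instIsLocallyNoetherianProjSpace (N : ℕ) : IsLocallyNoetherian (projSpace N) :=
  projSpace_isLocallyNoetherian N

/-- **Principal divisors on `ℙ^1_ℂ` have finite support and degree `0`.** -/
theorem principalDegZero_projLine (f : (projSpace 1).functionField) (hf : f ≠ 0) :
    PrincipalDegZero f :=
  principalDegZero_projLine' f hf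

/-- **On `ℙ^1_ℂ` the degree of an invertible sheaf is unique.** -/
theorem hasDegree_unique_projLine {L : (projSpace 1).Modules} {d d' : ℤ}
    (h : HasDegree L d) (h' : HasDegree L d') : d = d' :=
  have := projSpace_compactSpace 1
  hasDegree_unique principalDegZero_projLine h h'

/-- `HasDegree` has teeth: `𝒪` on `ℙ^1` has degree `0` and no other degree. -/
theorem hasDegree_structureSheaf_projLine_iff (d : ℤ) :
    HasDegree (structureSheaf (projSpace 1)) d ↔ d = 0 :=
  ⟨fun h => hasDegree_unique_projLine h hasDegree_structureSheaf,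
    fun h => h ▸ hasDegree_structureSheaf⟩

end Claimed.Open.R067
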