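import Claimed.Open.R067.SanityRes

/-!
# Sanity for invertible sheaves, orders of vanishing and degrees

* `isInvertible_structureSheaf` : `𝒪_X` is invertible;
* `ordAt_eq` : the order `ordAt hL s x` does not depend on the frame that is chosen near `x`;
* `ordAt_nonneg` : a regular section has nonnegative order at every point of its domain;
* `hasDegree_nonneg_of_section` : an invertible sheaf with a nonzero global section has a degree
  which is `≥ 0`;
* `hasDegree_structureSheaf` : `𝒪_C` has degree `0`.
-/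

open AlgebraicGeometry CategoryTheory Opposite TopologicalSpace

universe u

namespace Claimed.Open.R067

section StructureSheaf

variable {X : Scheme.{u}}

/-- Sections of `structureSheaf X` are regular functions. -/
noncomputable def toO (U : X.Opens) : Γ(X, U) ≃+ Γ(structureSheaf X, U) := AddEquiv.refl _

lemma smul_toO {U : X.Opens} (a b : Γ(X, U)) : a • toO U b = toO U (a * b) := rfl

lemma res_toO {V W : X.Opens} (h : W ≤ V) (a : Γ(X, V)) :
    res (structureSheaf X) h (toO V a) = toO W (resO h a) := rfl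

/-- The section `1` is a frame of `𝒪_X` over every open set. -/
lemma isFrame_one (V : X.Opens) : IsFrame (structureSheaf X) V (toO V 1) := by
  intro W h t
  refine ⟨(toO W).symm t, ?_, ?_⟩
  · simp only [res_toO, smul_toO, map_one, mul_one, AddEquiv.apply_symm_apply]
  · intro a ha
    simp only [res_toO, smul_toO, map_one, mul_one] at ha
    rw [← ha, AddEquiv.symm_apply_apply]

/-- **`𝒪_X` is an invertible sheaf.** -/
theorem isInvertible_structureSheaf (X : Scheme.{u}) : IsInvertible (structureSheaf X) :=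
  fun _ => ⟨⊤, toO ⊤ 1, trivial, isFrame_one ⊤⟩

end StructureSheaf

section Frames

variable {X : Scheme.{u}} {L : X.Modules}

/-- A frame restricts to a frame. -/
lemma IsFrame.res {V : X.Opens} {e : Γ(L, V)} (he : IsFrame L V e) {V' : X.Opens} (h : V' ≤ V) :
    IsFrame L V' (res L h e) := by
  intro W hW t
  simpa only [res_res] using he W (hW.trans h) t

/-- Two frames over the same open set differ by a unit. -/
lemma IsFrame.exists_unit {V : X.Opens} {e e' : Γ(L, V)} (he : IsFrame L V e)
    (he' : IsFrame L V e') : ∃ u : Γ(X, V), IsUnit u ∧ u • e = e' := by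
  have hid : ∀ m : Γ(L, V), Claimed.Open.R067.res L le_rfl m = m := by
    intro m
    simp only [Claimed.Open.R067.res]
    have : (homOfLE (le_refl V)).op = 𝟙 (op V) := rfl
    rw [this, L.presheaf.map_id]
    rfl
  obtain ⟨u, hu, -⟩ := he V le_rfl e'
  obtain ⟨v, hv, -⟩ := he' V le_rfl e
  rw [hid] at hu hv
  refine ⟨u, ?_, hu⟩
  have h1 : (v * u) • e = (1 : Γ(X, V)) • e := by
    rw [mul_smul, hu, hv, one_smul]
  have h2 := (he V le_rfl ((1 : Γ(X, V)) • e)).unique (y₁ := v * u) (y₂ := 1)
    (by rw [hid]; exact h1) (by rw [hid])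
  exact IsUnit.of_mul_eq_one v (by rw [mul_comm]; exact h2)

end Frames

section Ratio

variable {C : Scheme.{u}} [IsIntegral C] {L : C.Modules}

lemma germ_resO {V W : C.Opens} [Nonempty V] [Nonempty W] (h : W ≤ V) (a : Γ(C, V)) :
    C.germToFunctionField W (resO h a) = C.germToFunctionField V a :=
  C.presheaf.germ_res_apply (homOfLE h) _ _ a

/-- Characterisation of `ratio`: if `s = b • e` on some nonempty open set `W`, then `s / e` is the
germ of `b`. -/
lemma ratio_eq {U V : C.Opens} [Nonempty U] [Nonempty V] (s : Γ(L, U)) (e : Γ(L, V))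
    (he : IsFrame L V e) (W : C.Opens) [Nonempty W] (hU : W ≤ U) (hV : W ≤ V) (b : Γ(C, W))
    (hb : b • res L hV e = res L hU s) :
    ratio L s e he = C.germToFunctionField W b := by
  have := nonempty_inf U V
  have hspec := (he (U ⊓ V) inf_le_right (res L inf_le_left s)).choose_spec.1
  have hW : W ≤ U ⊓ V := le_inf hU hV
  have h1 : resO hW (he (U ⊓ V) inf_le_right (res L inf_le_left s)).choose = b := by
    refine (he W hV (res L hU s)).unique ?_ hb
    have := congrArg (res L hW) hspec
    rw [res_smul, res_res, res_res] at this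
    exact this
  rw [← h1, germ_resO]
  rfl

/-- `s / e = 0` iff `s = 0`. -/
lemma ratio_eq_zero_iff {U V : C.Opens} [Nonempty U] [Nonempty V] (s : Γ(L, U)) (e : Γ(L, V))
    (he : IsFrame L V e) : ratio L s e he = 0 ↔ res L (inf_le_left : U ⊓ V ≤ U) s = 0 := by
  have := nonempty_inf U V
  have hspec := (he (U ⊓ V) inf_le_right (res L inf_le_left s)).choose_spec.1
  constructor
  · intro h
    have h0 : (he (U ⊓ V) inf_le_right (res L inf_le_left s)).choose = 0 := by
      apply C.germToFunctionField_injective (U ⊓ V)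
      rw [map_zero]
      exact h
    rw [← hspec, h0, zero_smul]
  · intro h
    rw [ratio_eq s e he (U ⊓ V) inf_le_left inf_le_right 0 (by rw [zero_smul, h]), map_zero]

/-- Change of frame: `s / e = (s / e') * (e' / e)`, where `e' / e` is a unit near every point
of `V ⊓ V'`. -/
lemma ratio_change {U V V' : C.Opens} [Nonempty U] [Nonempty V] [Nonempty V'] (s : Γ(L, U))
    (e : Γ(L, V)) (he : IsFrame L V e) (e' : Γ(L, V')) (he' : IsFrame L V' e') :
    haveI := nonempty_inf V V'
    ∃ u : Γ(C, V ⊓ V'), IsUnit u ∧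
      ratio L s e he = ratio L s e' he' * C.germToFunctionField (V ⊓ V') u := by
  have := nonempty_inf V V'
  have := nonempty_inf U (V ⊓ V')
  obtain ⟨u, hu, hue⟩ := (he.res (inf_le_left : V ⊓ V' ≤ V)).exists_unit
    (he'.res (inf_le_right : V ⊓ V' ≤ V'))
  refine ⟨u, hu, ?_⟩
  -- work on `W = U ⊓ (V ⊓ V')`
  have hWU : U ⊓ (V ⊓ V') ≤ U := inf_le_left
  have hWVV : U ⊓ (V ⊓ V') ≤ V ⊓ V' := inf_le_right
  have hWV : U ⊓ (V ⊓ V') ≤ V := hWVV.trans inf_le_left
  have hWV' : U ⊓ (V ⊓ V') ≤ V' := hWVV.trans inf_le_right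
  obtain ⟨a', ha', -⟩ := he' _ hWV' (res L hWU s)
  have hue' : resO hWVV u • res L hWV e = res L hWV' e' := by
    have := congrArg (res L hWVV) hue
    rw [res_smul, res_res, res_res] at this
    exact this
  rw [ratio_eq s e' he' _ hWU hWV' a' ha',
    ratio_eq s e he _ hWU hWV (a' * resO hWVV u) (by rw [mul_smul, hue', ha']), map_mul,
    germ_resO]

end Ratio

section Ord

variable {C : Scheme.{u}} [IsIntegral C] [IsLocallyNoetherian C] {L : C.Modules}

/-- **The order of a rational section at `x` does not depend on the frame chosen near `x`.** -/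
theorem ordAt_eq (hL : IsInvertible L) {U : C.Opens} [Nonempty U] (s : Γ(L, U)) (x : C)
    {V : C.Opens} [Nonempty V] (hx : x ∈ V) (e : Γ(L, V)) (he : IsFrame L V e) :
    ordAt hL s x = Scheme.ord (ratio L s e he) x := by
  have : Nonempty (hL x).choose := ⟨⟨x, (hL x).choose_spec.choose_spec.1⟩⟩
  have := nonempty_inf (hL x).choose V
  obtain ⟨u, hu, h⟩ := ratio_change s (hL x).choose_spec.choose (hL x).choose_spec.choose_spec.2
    e he
  change Scheme.ord (ratio L s (hL x).choose_spec.choose (hL x).choose_spec.choose_spec.2) x = _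
  rw [h]
  by_cases h0 : ratio L s e he = 0
  · rw [h0, zero_mul]
  · have hu0 : C.germToFunctionField ((hL x).choose ⊓ V) u ≠ 0 := by
      intro h'
      rw [← map_zero (C.germToFunctionField ((hL x).choose ⊓ V)).hom] at h'
      exact hu.ne_zero (C.germToFunctionField_injective _ h')
    rw [Scheme.ord_mul h0 hu0,
      Scheme.ord_of_isUnit hu ⟨(hL x).choose_spec.choose_spec.1, hx⟩, add_zero]

lemma ord_germ_nonneg {W : C.Opens} [Nonempty W] (a : Γ(C, W)) {x : C} (hx : x ∈ W) :
    0 ≤ Scheme.ord (C.germToFunctionField W a) x := by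
  by_cases ha : a = 0
  · simp [ha]
  · have h := Scheme.ord_le_smul hx ha (1 : C.functionField)
    have h1 : Scheme.ord (1 : C.functionField) x = 0 := by
      have := Scheme.ord_of_isUnit (X := C) (U := W) (f := 1) isUnit_one hx
      rwa [map_one] at this
    rw [h1, Algebra.smul_def, mul_one] at h
    exact h

/-- **A regular section has nonnegative order at every point of its domain.** -/
theorem ordAt_nonneg (hL : IsInvertible L) {U : C.Opens} [Nonempty U] (s : Γ(L, U)) {x : C}
    (hx : x ∈ U) : 0 ≤ ordAt hL s x := by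
  obtain ⟨V, e, hxV, he⟩ := hL x
  have : Nonempty V := ⟨⟨x, hxV⟩⟩
  have := nonempty_inf U V
  rw [ordAt_eq hL s x hxV e he]
  obtain ⟨a, ha, -⟩ := he _ (inf_le_right : U ⊓ V ≤ V) (res L inf_le_left s)
  rw [ratio_eq s e he _ inf_le_left inf_le_right a ha]
  exact ord_germ_nonneg a ⟨hx, hxV⟩

/-- **An invertible sheaf with a nonzero global section has a degree, and it is `≥ 0`.** -/
theorem hasDegree_nonneg_of_section (hL : IsInvertible L) (s : Γ(L, ⊤)) (hs : s ≠ 0) :
    ∃ d : ℤ, HasDegree L d ∧ 0 ≤ d :=
  have : Nonempty (⊤ : C.Opens) := ⟨⟨genericPoint C, trivial⟩⟩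
  ⟨_, ⟨hL, ⊤, inferInstance, s, hs, rfl⟩, finsum_nonneg fun _ => ordAt_nonneg hL s trivial⟩

/-- **`𝒪_C` has degree `0`.** -/
theorem hasDegree_structureSheaf : HasDegree (structureSheaf C) 0 := by
  have : Nonempty (⊤ : C.Opens) := ⟨⟨genericPoint C, trivial⟩⟩
  refine ⟨isInvertible_structureSheaf C, ⊤, inferInstance, toO ⊤ 1, ?_, ?_⟩
  · intro h
    exact one_ne_zero ((toO (X := C) ⊤).injective (h.trans (map_zero _).symm))
  · have : ∀ x : C, ordAt (isInvertible_structureSheaf C) (toO (X := C) ⊤ 1) x = 0 := by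
      intro x
      rw [ordAt_eq _ _ x (V := ⊤) trivial (toO ⊤ 1) (isFrame_one ⊤),
        ratio_eq _ _ _ ⊤ le_rfl le_rfl 1 (one_smul _ _)]
      exact Scheme.ord_of_isUnit isUnit_one trivial
    simp [this]

end Ord

end Claimed.Open.R067
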