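import Claimed.Open.R067.SanityCotangent
import Claimed.Open.R067.SanityDegree

/-!
# Sanity for `cotangentSheaf`: curves with a coordinate

On an affine open `U` whose ring of functions is generated over `ℂ` by one function `y`, and on which there is a
vector field `D` with `D y = 1`, the differential `dy` is a frame of `Ω_{X/ℂ}`.
-/

open AlgebraicGeometry CategoryTheory Opposite TopologicalSpace

namespace Claimed.Open.R067

variable {X : Scheme.{0}} (π : X ⟶ SpecC)

lemma dSheaf_add {V : X.Opens} (a b : Γ(X, V)) :
    dSheaf π (a + b) = dSheaf π a + dSheaf π b := by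
  rw [dSheaf, dP_add, map_add]
  rfl

lemma dSheaf_mul {V : X.Opens} (a b : Γ(X, V)) :
    dSheaf π (a * b) = a • dSheaf π b + b • dSheaf π a := by
  rw [dSheaf, dP_mul, map_add, toCotangent_smul, toCotangent_smul]
  rfl

lemma dSheaf_one {V : X.Opens} : dSheaf π (1 : Γ(X, V)) = 0 := by
  rw [dSheaf, dP_one, map_zero]

variable {π}

/-- If `M` is locally generated on `U` by one section `θ`, and `f : M ⟶ 𝒪` is a linear form with `f θ = 1`,
then `θ` is a frame of `M` on `U`. -/
theorem isFrame_of_locallyGenerates_one {M : X.Modules} {U : X.Opens} {θ : Γ(M, U)}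
    (hθ : LocallyGenerates M U (fun _ : Fin 1 => θ)) (f : M ⟶ structureSheaf X)
    (hf : appLin f U θ = 1) : IsFrame M U θ := by
  have hfW : ∀ (W : X.Opens) (hW : W ≤ U), appLin f W (res M hW θ) = 1 := by
    intro W hW
    rw [← resO_appLin, hf, map_one]
  intro W hW t
  refine ⟨appLin f W t, ?_, ?_⟩
  · change appLin f W t • res M hW θ = t
    choose W' hW' c hx hc using fun x : W => hθ W hW t x.1 x.2
    refine res_ext M (fun x : W => W' x) W hW'
      (fun x hx' => Opens.mem_iSup.mpr ⟨⟨x, hx'⟩, hx ⟨x, hx'⟩⟩) _ _ fun x => ?_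
    have h1 := hc x
    simp only [Fin.sum_univ_one, Fin.isValue] at h1
    have h2 : appLin f (W' x) (res M (hW' x) t) = c x 0 := by
      rw [h1, map_smul, hfW, smul_eq_mul, mul_one]
    rw [res_smul, resO_appLin, h2, res_res, h1]
  · intro a ha
    change a • res M hW θ = t at ha
    rw [← ha, map_smul, hfW, smul_eq_mul, mul_one]

/-- On an affine open `U` with coordinate `y` and a vector field `D` with `D y = 1`, the differential `dy` is a
frame of the cotangent sheaf. -/
theorem isFrame_dSheaf {U : X.Opens} (hU : IsAffineOpen U) (y : Γ(X, U))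
    (hy : genSubring π (fun _ : Fin 1 => y) = ⊤) (D : SheafDer π) (hD : D.d U y = 1) :
    IsFrame (cotangentSheaf π) U (dSheaf π y) :=
  isFrame_of_locallyGenerates_one (locallyGenerates_dSheaf π hU (fun _ : Fin 1 => y) hy) D.toHom
    ((D.appLin_toHom y).trans hD)

end Claimed.Open.R067
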