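import Claimed.Open.R067.SanityProjAway

/-!
# Sanity for `projSpace`: `ℙ^N_ℂ` is projective, compact, irreducible and smooth of dimension `N`
-/

open AlgebraicGeometry CategoryTheory MvPolynomial HomogeneousLocalization

namespace Claimed.Open.R067

attribute [local instance] MvPolynomial.gradedAlgebra

/-! ## Polynomial rings are standard smooth -/

section Poly

variable (ι : Type) (R : Type) [CommRing R]

/-- The presentation of `R[x_j : j ∈ ι]` with generators `x_j` and no relations. -/
noncomputable def polyPresentation : Algebra.Presentation R (MvPolynomial ι R) ι PEmpty.{1} where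
  __ := Algebra.Generators.mvPolynomial R ι
  relation := PEmpty.elim
  span_range_relation_eq_ker := by
    simp only [Set.range_eq_empty, Ideal.span_empty]
    symm
    rw [Algebra.Generators.ker_eq_ker_aeval_val, ← RingHom.injective_iff_ker_eq_bot]
    intro a b hab
    simpa using hab

/-- It is pre-submersive. -/
noncomputable def polyPreSubmersive :
    Algebra.PreSubmersivePresentation R (MvPolynomial ι R) ι PEmpty.{1} where
  toPresentation := polyPresentation ι R
  map := PEmpty.elim
  map_inj (a b : PEmpty) h := by contradiction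

lemma polyPreSubmersive_jacobian : (polyPreSubmersive ι R).jacobian = 1 := by
  rw [Algebra.PreSubmersivePresentation.jacobian_eq_jacobiMatrix_det, Matrix.det_isEmpty, map_one]

/-- It is submersive. -/
noncomputable def polySubmersive :
    Algebra.SubmersivePresentation R (MvPolynomial ι R) ι PEmpty.{1} where
  toPreSubmersivePresentation := polyPreSubmersive ι R
  jacobian_isUnit := by
    rw [polyPreSubmersive_jacobian]
    exact isUnit_one

/-- The polynomial ring in `n` variables is standard smooth of relative dimension `n`. -/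
theorem poly_isStandardSmoothOfRelativeDimension [Finite ι] :
    Algebra.IsStandardSmoothOfRelativeDimension (Nat.card ι) R (MvPolynomial ι R) :=
  (polySubmersive ι R).isStandardSmoothOfRelativeDimension
    (by simp [Algebra.Presentation.dimension])

end Poly

/-! ## The standard charts of `ℙ^N` -/

section Charts

variable (N : ℕ)

lemma irrelevant_le_span_X :
    (HomogeneousIdeal.irrelevant (homogeneousSubmodule (Fin (N + 1)) ℂ)).toIdeal ≤
      Ideal.span (Set.range (X : Fin (N + 1) → MvPolynomial (Fin (N + 1)) ℂ)) := by
  intro a ha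
  have h0 : homogeneousComponent 0 a = 0 := by
    have := (HomogeneousIdeal.mem_irrelevant_iff _ a).mp ha
    rw [GradedRing.proj_apply] at this
    rw [← this]
    exact (decomposition.decompose'_apply a 0).symm
  rw [homogeneousComponent_zero] at h0
  have h0' : coeff 0 a = 0 := by simpa using h0
  rw [← Set.image_univ, mem_ideal_span_X_image]
  intro m hm
  by_contra hcon
  push Not at hcon
  have : m = 0 := by
    ext i
    simpa using hcon i (Set.mem_univ i)
  subst this
  exact (mem_support_iff.mp hm) h0'

/-- The standard affine cover of `ℙ^N` by the `N + 1` charts `D₊(x_i) = Spec ℂ[x]_{(x_i)}`. -/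
noncomputable def projSpaceCover : (projSpace N).AffineOpenCover :=
  Proj.affineOpenCoverOfIrrelevantLESpan (homogeneousSubmodule (Fin (N + 1)) ℂ)
    (X : Fin (N + 1) → MvPolynomial (Fin (N + 1)) ℂ) (m := fun _ => 1)
    (fun i => X_mem_deg_one ℂ i) (fun _ => one_pos) (irrelevant_le_span_X N)

/-- The chart `Spec ℂ[x]_{(x_i)} → ℙ^N`. -/
noncomputable def chart (i : Fin (N + 1)) :
    Spec (.of (Away (homogeneousSubmodule (Fin (N + 1)) ℂ) (X i : MvPolynomial (Fin (N + 1)) ℂ))) ⟶
      projSpace N :=
  Proj.awayι (homogeneousSubmodule (Fin (N + 1)) ℂ) (X i) (X_mem_deg_one ℂ i) one_pos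

lemma chart_projSpaceHom (i : Fin (N + 1)) :
    chart N i ≫ projSpaceHom N = Spec.map (CommRingCat.ofHom (awayC ℂ i)) := by
  refine (Proj.awayι_toSpecZero_assoc (homogeneousSubmodule (Fin (N + 1)) ℂ) (X i)
    (X_mem_deg_one ℂ i) one_pos (Spec.map (CommRingCat.ofHom
      (algebraMap ℂ (homogeneousSubmodule (Fin (N + 1)) ℂ 0))))).trans ?_
  rw [← Spec.map_comp]
  rfl

lemma awayC_eq_comp (i : Fin (N + 1)) : awayC ℂ i =
    (awayEquiv ℂ i).toRingHom.comp (algebraMap ℂ (MvPolynomial {j // j ≠ i} ℂ)) := by
  ext c
  simp [MvPolynomial.algebraMap_eq]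

lemma card_ne (i : Fin (N + 1)) : Nat.card {j : Fin (N + 1) // j ≠ i} = N := by
  simp [Fintype.card_subtype_compl]

lemma awayC_isStandardSmooth (i : Fin (N + 1)) :
    (awayC ℂ i).IsStandardSmoothOfRelativeDimension N := by
  rw [awayC_eq_comp]
  refine (RingHom.isStandardSmoothOfRelativeDimension_respectsIso (n := N)).1 _ (awayEquiv ℂ i) ?_
  rw [RingHom.isStandardSmoothOfRelativeDimension_algebraMap]
  have := poly_isStandardSmoothOfRelativeDimension {j : Fin (N + 1) // j ≠ i} ℂ
  rwa [card_ne] at this

/-- **`ℙ^N_ℂ` is smooth of relative dimension `N` over `ℂ`.** -/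
theorem projSpaceHom_smooth : SmoothOfRelativeDimension N (projSpaceHom N) := by
  have : IsZariskiLocalAtSource (@SmoothOfRelativeDimension.{0} N) :=
    HasRingHomProperty.instIsZariskiLocalAtSource (P := @SmoothOfRelativeDimension N)
  rw [IsZariskiLocalAtSource.iff_of_openCover (P := @SmoothOfRelativeDimension N)
    (projSpaceCover N).openCover]
  have key : ∀ i : Fin (N + 1), SmoothOfRelativeDimension N (chart N i ≫ projSpaceHom N) := by
    intro i
    rw [chart_projSpaceHom, HasRingHomProperty.Spec_iff (P := @SmoothOfRelativeDimension N)]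
    exact RingHom.locally_of (RingHom.isStandardSmoothOfRelativeDimension_respectsIso (n := N)) _
      (awayC_isStandardSmooth N i)
  exact key

/-- **`ℙ^N_ℂ` is projective.** -/
theorem projSpaceHom_isProjective : IsProjective (projSpaceHom N) :=
  ⟨N, 𝟙 _, inferInstance, Category.id_comp _⟩

/-- **`ℙ^N_ℂ` is quasi-compact.** -/
theorem projSpace_compactSpace : CompactSpace (projSpace N) := by
  have : Finite (projSpaceCover N).openCover.I₀ := inferInstanceAs (Finite (Fin (N + 1)))
  have h : ∀ i, CompactSpace ((projSpaceCover N).openCover.X i) := fun i =>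
    inferInstanceAs (CompactSpace (Spec ((projSpaceCover N).X i)))
  exact (projSpaceCover N).openCover.compactSpace

/-- The generic point of `ℙ^N`: the zero ideal. -/
noncomputable def projSpaceGeneric :
    ProjectiveSpectrum (homogeneousSubmodule (Fin (N + 1)) ℂ) where
  asHomogeneousIdeal := ⊥
  isPrime := by
    rw [HomogeneousIdeal.toIdeal_bot]
    exact Ideal.isPrime_bot
  not_irrelevant_le := by
    intro h
    have h1 : (X 0 : MvPolynomial (Fin (N + 1)) ℂ) ∈
        HomogeneousIdeal.irrelevant (homogeneousSubmodule (Fin (N + 1)) ℂ) :=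
      HomogeneousIdeal.mem_irrelevant_of_mem _ one_pos (X_mem_deg_one ℂ 0)
    have h2 : (X 0 : MvPolynomial (Fin (N + 1)) ℂ) ∈
        (⊥ : HomogeneousIdeal (homogeneousSubmodule (Fin (N + 1)) ℂ)) := h h1
    simp [← HomogeneousIdeal.mem_iff] at h2

/-- **`ℙ^N_ℂ` is irreducible.** -/
theorem projSpace_irreducibleSpace : IrreducibleSpace (projSpace N) := by
  have h : IrreducibleSpace (ProjectiveSpectrum (homogeneousSubmodule (Fin (N + 1)) ℂ)) := by
    rw [irreducibleSpace_def]
    have : closure {projSpaceGeneric N} = ⊤ := by
      change _ = Set.univ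
      rw [Set.eq_univ_iff_forall]
      intro y
      rw [← ProjectiveSpectrum.le_iff_mem_closure, ← ProjectiveSpectrum.as_ideal_le_as_ideal]
      exact bot_le
    rw [← this]
    exact isIrreducible_singleton.closure
  exact h

/-- **`ℙ^N_ℂ` is connected.** -/
theorem projSpace_connectedSpace : ConnectedSpace (projSpace N) :=
  have := projSpace_irreducibleSpace N
  inferInstance

end Charts

end Claimed.Open.R067
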