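import Claimed.Open.R067.SanityCotangent
import Claimed.Open.R067.SanityProjSmooth

/-!
# Vector fields on `Proj A` from homogeneous derivations of `A`

* `locDer S D` : the extension of a derivation `D` of `A` to `S⁻¹A` (quotient rule `locDer_mk`);
* `homLocDer D hD S` : the induced derivation of the homogeneous localisation `(S⁻¹A)₀` if `D` is homogeneous of
  degree `0`;
* `constHom_toSpecZero_apply` : the constants `ℂ → 𝒪(V)` of `Proj A → Spec A₀ → Spec ℂ` are the fractions `c/1`;
* `projSheafDer φ D hD hφ : SheafDer (Proj A → Spec ℂ)` : the induced vector field on `Proj A`, and its value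
  `projSheafDer_awayToSection` on the sections over `D₊(f)` coming from `A_(f)`.
-/

open AlgebraicGeometry CategoryTheory Opposite TopologicalSpace

namespace Claimed.Open.R067

section LocDer

variable {A : Type*} [CommRing A] (S : Submonoid A) (D : Derivation ℤ A A)

/-- The ring homomorphism `a ↦ a/1 + ε · (Da)/1` to the dual numbers over `S⁻¹A`. -/
noncomputable def locDerAux : A →+* TrivSqZeroExt (Localization S) (Localization S) where
  toFun a := TrivSqZeroExt.inl (algebraMap A (Localization S) a) +
    TrivSqZeroExt.inr (algebraMap A (Localization S) (D a))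
  map_one' := by
    ext <;> simp
  map_mul' a b := by
    ext
    · simp
    · simp only [Derivation.leibniz, smul_eq_mul, map_add, map_mul, TrivSqZeroExt.snd_add,
        TrivSqZeroExt.snd_inl, TrivSqZeroExt.snd_inr, zero_add, TrivSqZeroExt.snd_mul,
        TrivSqZeroExt.fst_add, TrivSqZeroExt.fst_inl, TrivSqZeroExt.fst_inr, add_zero,
        MulOpposite.smul_eq_mul_unop, MulOpposite.unop_op]
      ring
  map_zero' := by
    ext <;> simp
  map_add' a b := by
    ext
    · simp
    · simp only [map_add, TrivSqZeroExt.snd_add, TrivSqZeroExt.snd_inl, TrivSqZeroExt.snd_inr,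
        zero_add]

lemma fst_locDerAux (a : A) : (locDerAux S D a).fst = algebraMap A (Localization S) a := by
  simp [locDerAux]

lemma snd_locDerAux (a : A) : (locDerAux S D a).snd = algebraMap A (Localization S) (D a) := by
  simp only [locDerAux, RingHom.coe_mk, MonoidHom.coe_mk, OneHom.coe_mk, TrivSqZeroExt.snd_add,
    TrivSqZeroExt.snd_inl, TrivSqZeroExt.snd_inr, zero_add]

lemma locDerAux_isUnit (s : S) : IsUnit (locDerAux S D s) := by
  rw [TrivSqZeroExt.isUnit_iff_isUnit_fst, fst_locDerAux]
  exact IsLocalization.map_units (Localization S) s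

/-- The ring homomorphism `x ↦ x + ε · Dx` from `S⁻¹A` to its dual numbers. -/
noncomputable def locDerHom : Localization S →+* TrivSqZeroExt (Localization S) (Localization S) :=
  IsLocalization.lift (M := S) (g := locDerAux S D) (locDerAux_isUnit S D)

lemma locDerHom_algebraMap (a : A) :
    locDerHom S D (algebraMap A (Localization S) a) = locDerAux S D a :=
  IsLocalization.lift_eq _ a

lemma fst_locDerHom (x : Localization S) : (locDerHom S D x).fst = x := by
  have : (TrivSqZeroExt.fstHom (Localization S) (Localization S)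
      (Localization S)).toRingHom.comp (locDerHom S D) = RingHom.id _ := by
    apply IsLocalization.ringHom_ext S
    ext a
    simp only [RingHom.comp_apply, locDerHom_algebraMap, RingHom.id_apply]
    exact fst_locDerAux S D a
  exact congrArg (fun f : Localization S →+* Localization S => f x) this

/-- The extension of a derivation of `A` to `S⁻¹A`. -/
noncomputable def locDer (x : Localization S) : Localization S := (locDerHom S D x).snd

lemma locDer_add (x y : Localization S) : locDer S D (x + y) = locDer S D x + locDer S D y := by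
  simp [locDer]

lemma locDer_mul (x y : Localization S) :
    locDer S D (x * y) = x * locDer S D y + y * locDer S D x := by
  simp [locDer, fst_locDerHom, mul_comm]

lemma locDer_algebraMap (a : A) :
    locDer S D (algebraMap A (Localization S) a) = algebraMap A (Localization S) (D a) := by
  rw [locDer, locDerHom_algebraMap, snd_locDerAux]

lemma locDer_mk (a : A) (b : S) :
    locDer S D (Localization.mk a b) = Localization.mk (D a * b - a * D b) (b * b) := by
  have h1 : Localization.mk a b * algebraMap A (Localization S) b = algebraMap A _ a := by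
    rw [Localization.mk_eq_mk', IsLocalization.mk'_spec]
  have h2 := congrArg (locDer S D) h1
  rw [locDer_mul, locDer_algebraMap, locDer_algebraMap] at h2
  have h4 : Localization.mk (D a * b - a * D b) (b * b) =
      IsLocalization.mk' (Localization S) (D a * b - a * D b) (b * b) := by
    rw [Localization.mk_eq_mk']
  rw [h4, IsLocalization.eq_mk'_iff_mul_eq]
  have h3 : algebraMap A (Localization S) (b : A) * locDer S D (Localization.mk a b) =
      algebraMap A _ (D a) - Localization.mk a b * algebraMap A _ (D b) := by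
    rw [← h2]; ring
  simp only [Submonoid.coe_mul, map_mul, map_sub]
  calc locDer S D (Localization.mk a b) * (algebraMap A _ (b : A) * algebraMap A _ (b : A))
      = (algebraMap A (Localization S) (b : A) * locDer S D (Localization.mk a b)) *
          algebraMap A _ (b : A) := by ring
    _ = algebraMap A _ (D a) * algebraMap A _ (b : A) -
        (Localization.mk a b * algebraMap A (Localization S) b) * algebraMap A _ (D b) := by
          rw [h3]; ring
    _ = _ := by rw [h1]

end LocDer

section HomLocDer

open HomogeneousLocalization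

variable {A σ : Type*} [CommRing A] [SetLike σ A] [AddSubgroupClass σ A] {𝒜 : ℕ → σ}
  [GradedRing 𝒜] (D : Derivation ℤ A A) (hD : ∀ n a, a ∈ 𝒜 n → D a ∈ 𝒜 n) (S : Submonoid A)

/-- The quotient rule on homogeneous fractions, for a derivation which is homogeneous of degree `0`. -/
def homLocDerNum (f : NumDenSameDeg 𝒜 S) : NumDenSameDeg 𝒜 S where
  deg := f.deg + f.deg
  num := ⟨D f.num * f.den - f.num * D f.den,
    sub_mem (SetLike.mul_mem_graded (hD _ _ f.num.2) f.den.2)
      (SetLike.mul_mem_graded f.num.2 (hD _ _ f.den.2))⟩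
  den := ⟨f.den * f.den, SetLike.mul_mem_graded f.den.2 f.den.2⟩
  den_mem := S.mul_mem f.den_mem f.den_mem

lemma embedding_homLocDerNum (f : NumDenSameDeg 𝒜 S) :
    (homLocDerNum D hD S f).embedding = locDer S D f.embedding :=
  (locDer_mk S D f.num ⟨f.den, f.den_mem⟩).symm

/-- The derivation of the homogeneous localisation `(S⁻¹A)₀` induced by a derivation of `A`
which is homogeneous of degree `0`. -/
def homLocDer (z : HomogeneousLocalization 𝒜 S) : HomogeneousLocalization 𝒜 S :=
  Quotient.map' (homLocDerNum D hD S) (fun f g (e : f.embedding = g.embedding) => by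
    change (homLocDerNum D hD S f).embedding = (homLocDerNum D hD S g).embedding
    rw [embedding_homLocDerNum, embedding_homLocDerNum, e]) z

lemma homLocDer_mk (f : NumDenSameDeg 𝒜 S) :
    homLocDer D hD S (mk f) = mk (homLocDerNum D hD S f) := rfl

lemma val_homLocDer (z : HomogeneousLocalization 𝒜 S) :
    (homLocDer D hD S z).val = locDer S D z.val := by
  obtain ⟨f, rfl⟩ := mk_surjective z
  exact embedding_homLocDerNum D hD S f

lemma homLocDer_add (x y : HomogeneousLocalization 𝒜 S) :
    homLocDer D hD S (x + y) = homLocDer D hD S x + homLocDer D hD S y := by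
  apply val_injective
  simp only [val_homLocDer, val_add, locDer_add]

lemma homLocDer_mul (x y : HomogeneousLocalization 𝒜 S) :
    homLocDer D hD S (x * y) = x * homLocDer D hD S y + y * homLocDer D hD S x := by
  apply val_injective
  simp only [val_homLocDer, val_add, val_mul, locDer_mul]

lemma homLocDer_mapId {S T : Submonoid A} (h : S ≤ T) (x : HomogeneousLocalization 𝒜 S) :
    homLocDer D hD T (mapId 𝒜 h x) = mapId 𝒜 h (homLocDer D hD S x) := by
  obtain ⟨f, rfl⟩ := mk_surjective x
  rfl

end HomLocDer

section ProjDer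

open HomogeneousLocalization ProjectiveSpectrum.StructureSheaf AlgebraicGeometry.ProjectiveSpectrum

variable {A σ : Type*} [CommRing A] [SetLike σ A] [AddSubgroupClass σ A] {𝒜 : ℕ → σ}
  [GradedRing 𝒜] (D : Derivation ℤ A A) (hD : ∀ n a, a ∈ 𝒜 n → D a ∈ 𝒜 n)

/-- The action on the sections of the structure sheaf of `Proj A` of a derivation of `A` which is
homogeneous of degree `0`. -/
def projDer' (U : Opens (ProjectiveSpectrum.top 𝒜)) (s : (Proj.structureSheaf 𝒜).1.obj (op U)) :
    (Proj.structureSheaf 𝒜).1.obj (op U) :=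
  ⟨fun x => homLocDer D hD _ (s.1 x), fun x => by
    obtain ⟨V, hxV, i, n, r, t, hnin, h⟩ := s.2 x
    refine ⟨V, hxV, i, n + n, ⟨D r * t - r * D t,
      sub_mem (SetLike.mul_mem_graded (hD _ _ r.2) t.2) (SetLike.mul_mem_graded r.2 (hD _ _ t.2))⟩,
      ⟨t * t, SetLike.mul_mem_graded t.2 t.2⟩,
      fun y hy => (y.1.isPrime.mem_or_mem hy).elim (hnin y) (hnin y), fun y => ?_⟩
    have := congrArg (homLocDer D hD _) (h y)
    exact this⟩

end ProjDer


lemma topIso_inv_appTop_of_section {X : Scheme} {U : X.Opens} (hU : ⊤ ≤ U) (j : X ⟶ U.toScheme)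
    (hj : j ≫ U.ι = 𝟙 X) :
    U.topIso.inv ≫ j.appTop = X.presheaf.map (homOfLE hU).op := by
  have h1 : U.ι.appTop ≫ j.appTop = 𝟙 _ := by
    rw [← Scheme.Hom.comp_appTop, hj]; rfl
  have h2 : U.ι.appTop = X.presheaf.map (homOfLE le_top).op ≫ U.topIso.inv := by
    rw [Scheme.Opens.ι_appTop, Scheme.Opens.topIso_inv]
    exact (X.presheaf.map_comp (homOfLE (le_top : U ≤ ⊤)).op
      (eqToHom U.ι_image_top).op)
  have h3 : X.presheaf.map (homOfLE hU).op ≫ X.presheaf.map (homOfLE (le_top : U ≤ ⊤)).op =
      𝟙 _ := by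
    rw [← Functor.map_comp]
    exact X.presheaf.map_id _
  calc U.topIso.inv ≫ j.appTop
      = (X.presheaf.map (homOfLE hU).op ≫ X.presheaf.map (homOfLE (le_top : U ≤ ⊤)).op) ≫
          U.topIso.inv ≫ j.appTop := by rw [h3, Category.id_comp]
    _ = X.presheaf.map (homOfLE hU).op ≫ (U.ι.appTop ≫ j.appTop) := by
          rw [h2]; simp only [Category.assoc]
    _ = _ := by rw [h1, Category.comp_id]

section
open HomogeneousLocalization
variable {A σ : Type*} [CommRing A] [SetLike σ A] [AddSubgroupClass σ A] (𝒜 : ℕ → σ)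
  [GradedRing 𝒜]

lemma toSpecZero_appTop :
    (Scheme.ΓSpecIso _).inv ≫ (Proj.toSpecZero 𝒜).appTop =
      CommRingCat.ofHom (fromZeroRingHom 𝒜 (Submonoid.powers 1)) ≫ Proj.awayToSection 𝒜 1 ≫
        (Proj 𝒜).presheaf.map (homOfLE (le_of_eq (Proj.basicOpen_one 𝒜).symm)).op := by
  rw [Proj.toSpecZero]
  simp only [Scheme.Hom.comp_appTop, Category.assoc]
  rw [← Scheme.ΓSpecIso_inv_naturality_assoc, Scheme.Hom.appTop, Proj.basicOpenToSpec_app_top]
  simp only [Category.assoc, Iso.inv_hom_id_assoc]
  rw [← Scheme.Hom.comp_appTop, topIso_inv_appTop_of_section]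
  simp

end

section
open HomogeneousLocalization
variable {A σ : Type} [CommRing A] [SetLike σ A] [AddSubgroupClass σ A] (𝒜 : ℕ → σ)
  [GradedRing 𝒜] (φ : ℂ →+* 𝒜 0)

lemma constHom_toSpecZero (V : (Proj 𝒜).Opens) :
    constHom (Proj.toSpecZero 𝒜 ≫ Spec.map (CommRingCat.ofHom φ)) V =
      CommRingCat.ofHom φ ≫ CommRingCat.ofHom (fromZeroRingHom 𝒜 (Submonoid.powers 1)) ≫
        Proj.awayToSection 𝒜 1 ≫
        (Proj 𝒜).presheaf.map (homOfLE (le_top.trans (le_of_eq (Proj.basicOpen_one 𝒜).symm)) :
          V ⟶ Proj.basicOpen 𝒜 1).op := by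
  rw [constHom, Scheme.Hom.comp_appTop, Category.assoc, ← Scheme.ΓSpecIso_inv_naturality_assoc,
    reassoc_of% toSpecZero_appTop 𝒜, ← Functor.map_comp]
  rfl

lemma constHom_toSpecZero_apply (V : (Proj 𝒜).Opens) (c : ℂ) (x : V) :
    ((constHom (Proj.toSpecZero 𝒜 ≫ Spec.map (CommRingCat.ofHom φ)) V).hom c).1 x =
      fromZeroRingHom 𝒜 _ (φ c) := by
  rw [constHom_toSpecZero]
  rfl

end


section ProjSheafDer

open HomogeneousLocalization AlgebraicGeometry.ProjectiveSpectrum

variable {A σ : Type} [CommRing A] [SetLike σ A] [AddSubgroupClass σ A] {𝒜 : ℕ → σ}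
  [GradedRing 𝒜] (φ : ℂ →+* 𝒜 0) (D : Derivation ℤ A A) (hD : ∀ n a, a ∈ 𝒜 n → D a ∈ 𝒜 n)

lemma homLocDer_fromZeroRingHom (S : Submonoid A) (a : 𝒜 0) (ha : D (a : A) = 0) :
    homLocDer D hD S (fromZeroRingHom 𝒜 S a) = 0 := by
  apply val_injective
  rw [val_homLocDer, val_zero]
  change locDer S D (Localization.mk (a : A) 1) = 0
  rw [locDer_mk, ha]
  simp [Localization.mk_zero]

/-- The vector field on `Proj A` induced by a `ℂ`-derivation of `A` which is homogeneous of
degree `0`. -/
noncomputable def projSheafDer (hφ : ∀ c, D (φ c : A) = 0) :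
    SheafDer (Proj.toSpecZero 𝒜 ≫ Spec.map (CommRingCat.ofHom φ)) where
  d V s := projDer' D hD V s
  add V a b := by
    apply Proj.ext
    funext x
    exact homLocDer_add D hD _ _ _
  mul V a b := by
    apply Proj.ext
    funext x
    exact homLocDer_mul D hD _ _ _
  const V c := by
    apply Proj.ext
    funext x
    have h := congrArg (homLocDer D hD _) (constHom_toSpecZero_apply 𝒜 φ V c x)
    exact h.trans (homLocDer_fromZeroRingHom D hD _ _ (hφ c))
  res V W h a := rfl

lemma projSheafDer_awayToSection (hφ : ∀ c, D (φ c : A) = 0) (f : A) (z : Away 𝒜 f) :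
    (projSheafDer φ D hD hφ).d (Proj.basicOpen 𝒜 f)
        ((AlgebraicGeometry.Proj.awayToSection 𝒜 f).hom z) =
      (AlgebraicGeometry.Proj.awayToSection 𝒜 f).hom (homLocDer D hD _ z) := by
  apply Proj.ext
  funext x
  exact homLocDer_mapId D hD _ z

end ProjSheafDer

end Claimed.Open.R067
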