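import Claimed.Open.R067.SanityProjLine
import Claimed.Open.R067.SanityProjDer
import Claimed.Open.R067.SanityOmegaFrame

/-!
# Sanity for `IsNef` and `HasDegree`: the cotangent sheaf of `ℙ^1_ℂ` has degree `-2` and is not nef
-/

open AlgebraicGeometry CategoryTheory HomogeneousLocalization

namespace Claimed.Open.R067

attribute [local instance] MvPolynomial.gradedAlgebra

/-- A derivation over `ℤ` from an additive map which satisfies the Leibniz rule. -/
def intDer {A : Type*} [CommRing A] (D : A →+ A) (h : ∀ a b, D (a * b) = a * D b + b * D a) :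
    Derivation ℤ A A :=
  Derivation.mk' D.toIntLinearMap (fun a b => by simpa using h a b)

noncomputable section ProjLineOmega

/-- The standard grading of `ℂ[x₀, x₁]`. -/
local notation "𝒜₁" => MvPolynomial.homogeneousSubmodule (Fin 2) ℂ

/-- `ℙ^1`, as a `Proj`. -/
local notation "ℙ₁" => Proj (MvPolynomial.homogeneousSubmodule (Fin 2) ℂ)

/-- The structure morphism of `ℙ^1`. -/
def lineHom : ℙ₁ ⟶ SpecC :=
  Proj.toSpecZero 𝒜₁ ≫ Spec.map (CommRingCat.ofHom (algebraMap ℂ (𝒜₁ 0)))

lemma lineHom_eq : lineHom = projSpaceHom 1 := rfl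

/-- The derivation `x_i ∂/∂x_{1-i}` of `ℂ[x₀, x₁]`. -/
def lineDer (i : Fin 2) :=
  intDer (A := MvPolynomial (Fin 2) ℂ)
    (((MvPolynomial.X i : MvPolynomial (Fin 2) ℂ) •
      MvPolynomial.pderiv (R := ℂ) (other i)).toLinearMap.toAddMonoidHom)
    (fun a b => by
      change MvPolynomial.X i * MvPolynomial.pderiv (other i) (a * b) =
        a * (MvPolynomial.X i * MvPolynomial.pderiv (other i) b) +
          b * (MvPolynomial.X i * MvPolynomial.pderiv (other i) a)
      rw [Derivation.leibniz]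
      simp only [smul_eq_mul]
      ring)

lemma lineDer_apply (i : Fin 2) (p : MvPolynomial (Fin 2) ℂ) :
    lineDer i p = MvPolynomial.X i * MvPolynomial.pderiv (other i) p := rfl

lemma lineDer_homogeneous (i : Fin 2) (n : ℕ) (a : MvPolynomial (Fin 2) ℂ) (ha : a ∈ 𝒜₁ n) :
    lineDer i a ∈ 𝒜₁ n := by
  rw [MvPolynomial.mem_homogeneousSubmodule] at ha ⊢
  rw [lineDer_apply]
  rcases n with _ | n
  · have h : MvPolynomial.pderiv (other i) a = 0 := by
      have h0 := (MvPolynomial.totalDegree_zero_iff_isHomogeneous (Fin 2)).mpr ha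
      rw [MvPolynomial.totalDegree_eq_zero_iff_eq_C] at h0
      rw [h0, MvPolynomial.pderiv_C]
    rw [h, mul_zero]
    exact MvPolynomial.isHomogeneous_zero _ _ _
  · have h := (MvPolynomial.isHomogeneous_X ℂ i).mul (ha.pderiv (i := other i))
    rwa [Nat.add_sub_cancel, add_comm] at h

lemma lineDer_const (i : Fin 2) (c : ℂ) :
    lineDer i ((algebraMap ℂ (𝒜₁ 0) c : 𝒜₁ 0) : MvPolynomial (Fin 2) ℂ) = 0 := by
  rw [lineDer_apply]
  change _ * MvPolynomial.pderiv (other i) (MvPolynomial.C c) = 0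
  rw [MvPolynomial.pderiv_C, mul_zero]

/-- The vector field `x_i ∂/∂x_{1-i}` on `ℙ^1`. -/
def lineField (i : Fin 2) : SheafDer lineHom :=
  projSheafDer (algebraMap ℂ (𝒜₁ 0)) (lineDer i) (lineDer_homogeneous i) (lineDer_const i)

/-- The coordinate `y_i = x_{1-i} / x_i` on the chart `D₊(x_i)`. -/
def lineY (i : Fin 2) : Γ(ℙ₁, lineU i) := lineG i 0

lemma lineY_eq (i : Fin 2) :
    lineY i = (Proj.awayToSection 𝒜₁ (MvPolynomial.X i)).hom (awayFrac ℂ i (other i)) :=
  lineG_zero i

lemma lineY_eq_rho (i : Fin 2) : lineY i = lineRho i Polynomial.X := by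
  rw [lineY, lineG, map_zero, sub_zero]

lemma homLocDer_awayFrac (i : Fin 2) :
    homLocDer (lineDer i) (lineDer_homogeneous i) _ (awayFrac ℂ i (other i)) = 1 := by
  apply HomogeneousLocalization.val_injective
  rw [val_homLocDer, val_one, awayFrac, Away.val_mk, locDer_mk]
  have h1 : lineDer i (MvPolynomial.X (other i)) = MvPolynomial.X i := by
    rw [lineDer_apply, MvPolynomial.pderiv_X_self, mul_one]
  have h2 : lineDer i ((MvPolynomial.X i : MvPolynomial (Fin 2) ℂ) ^ 1) = 0 := by
    rw [lineDer_apply, pow_one, MvPolynomial.pderiv_X_of_ne (other_ne i).symm, mul_zero]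
  simp only [h1, h2, mul_zero, sub_zero]
  rw [← Localization.mk_one]
  rw [Localization.mk_eq_mk_iff, Localization.r_iff_exists]
  exact ⟨1, by simp⟩

/-- `x_i ∂/∂x_{1-i}` is `∂/∂y_i` on the chart `D₊(x_i)`. -/
lemma lineField_lineY (i : Fin 2) : (lineField i).d (lineU i) (lineY i) = 1 := by
  rw [lineY_eq]
  refine (projSheafDer_awayToSection (algebraMap ℂ (𝒜₁ 0)) (lineDer i) (lineDer_homogeneous i)
    (lineDer_const i) (MvPolynomial.X i) (awayFrac ℂ i (other i))).trans ?_
  rw [homLocDer_awayFrac, map_one]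
  rfl

/-- The constants on the chart. -/
lemma constHom_lineU (i : Fin 2) (c : ℂ) :
    (constHom lineHom (lineU i)).hom c = lineRho i (Polynomial.C c) := by
  rw [lineRho_C, lineSec_apply]
  apply AlgebraicGeometry.Proj.ext
  funext x
  exact constHom_toSpecZero_apply 𝒜₁ (algebraMap ℂ (𝒜₁ 0)) (lineU i) c x

/-- The ring of functions on the chart is generated by the constants and the coordinate. -/
lemma genSubring_lineY (i : Fin 2) : genSubring lineHom (fun _ : Fin 1 => lineY i) = ⊤ := by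
  rw [eq_top_iff]
  intro g hg
  clear hg
  obtain ⟨P, rfl⟩ := (lineRho i).surjective g
  induction P using Polynomial.induction_on' with
  | add p q hp hq => rw [map_add]; exact add_mem hp hq
  | monomial n c =>
    rw [← Polynomial.C_mul_X_pow_eq_monomial, map_mul, map_pow, ← constHom_lineU, ← lineY_eq_rho]
    have h1 : (constHom lineHom (lineU i)).hom c ∈ genSubring lineHom (fun _ : Fin 1 => lineY i) :=
      Subring.subset_closure (Or.inl ⟨c, rfl⟩)
    have h2 : lineY i ∈ genSubring lineHom (fun _ : Fin 1 => lineY i) :=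
      Subring.subset_closure (Or.inr ⟨0, rfl⟩)
    exact mul_mem h1 (pow_mem h2 n)

/-- The cotangent sheaf of `ℙ^1`. -/
local notation "Ω₁" => cotangentSheaf lineHom

/-- `dy_i` is a frame of `Ω` on the chart `D₊(x_i)`. -/
lemma isFrame_dLineY (i : Fin 2) : IsFrame Ω₁ (lineU i) (dSheaf lineHom (lineY i)) :=
  isFrame_dSheaf (lineU_isAffineOpen i) (lineY i) (genSubring_lineY i) (lineField i)
    (lineField_lineY i)

/-- **The cotangent sheaf of `ℙ^1` is invertible.** -/
theorem isInvertible_cotangent_line : IsInvertible Ω₁ := by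
  intro x
  have hx : x ∈ lineU 0 ⊔ lineU 1 := by rw [lineU_sup]; trivial
  rcases hx with hx | hx
  · exact ⟨lineU 0, _, hx, isFrame_dLineY 0⟩
  · exact ⟨lineU 1, _, hx, isFrame_dLineY 1⟩

instance instNonemptyLineInf : Nonempty (lineU 0 ⊓ lineU 1 : (ℙ₁).Opens) :=
  nonempty_inf (lineU 0) (lineU 1)

/-- `y₀ y₁ = 1` on the intersection of the charts. -/
lemma lineY_mul : resO (inf_le_left : lineU 0 ⊓ lineU 1 ≤ lineU 0) (lineY 0) *
    resO (inf_le_right : lineU 0 ⊓ lineU 1 ≤ lineU 1) (lineY 1) = 1 := by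
  apply (ℙ₁).germToFunctionField_injective (lineU 0 ⊓ lineU 1)
  rw [map_mul, map_one, germ_resO, germ_resO, lineY_eq_rho, lineY_eq_rho]
  exact lineK_X_mul

/-- `dy₀ = - y₀² dy₁` on the intersection of the charts. -/
lemma dLineY_relation :
    (- resO (inf_le_left : lineU 0 ⊓ lineU 1 ≤ lineU 0) (lineY 0) ^ 2) •
      res Ω₁ (inf_le_right : lineU 0 ⊓ lineU 1 ≤ lineU 1) (dSheaf lineHom (lineY 1)) =
    res Ω₁ (inf_le_left : lineU 0 ⊓ lineU 1 ≤ lineU 0) (dSheaf lineHom (lineY 0)) := by
  rw [res_dSheaf, res_dSheaf]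
  set a := resO (inf_le_left : lineU 0 ⊓ lineU 1 ≤ lineU 0) (lineY 0) with ha
  set b := resO (inf_le_right : lineU 0 ⊓ lineU 1 ≤ lineU 1) (lineY 1) with hb
  have hab : a * b = 1 := lineY_mul
  have h1 : a • dSheaf lineHom b + b • dSheaf lineHom a = 0 := by
    rw [← dSheaf_mul, hab, dSheaf_one]
  have h2 := congrArg (fun t => a • t) h1
  simp only [smul_add, smul_zero, smul_smul, hab, one_smul] at h2
  rw [neg_smul, pow_two]
  exact (eq_neg_of_add_eq_zero_right h2).symm

/-- The rational function `dy₀ / dy₁ = - y₀²`. -/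
lemma ratio_dLineY : ratio Ω₁ (dSheaf lineHom (lineY 0)) (dSheaf lineHom (lineY 1))
    (isFrame_dLineY 1) = lineK 0 (Polynomial.C (-1)) * lineK 0 Polynomial.X ^ 2 := by
  rw [ratio_eq _ _ _ (lineU 0 ⊓ lineU 1) inf_le_left inf_le_right _ dLineY_relation, map_neg,
    map_pow, germ_resO, lineY_eq_rho, map_neg, map_neg, Polynomial.C_1, map_one, neg_mul, one_mul]
  rfl

lemma dLineY_ne_zero : dSheaf lineHom (lineY 0) ≠ 0 := by
  intro h
  have h1 := (isFrame_dLineY 0 (lineU 0) le_rfl 0).unique (y₁ := 1) (y₂ := 0)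
    (by rw [h, map_zero, smul_zero]) (zero_smul _ _)
  exact one_ne_zero h1

open Classical in
/-- The divisor of the rational section `dy₀` of `Ω` is `-2 [∞]`. -/
lemma ordAt_dLineY (x : ℙ₁) : ordAt isInvertible_cotangent_line (dSheaf lineHom (lineY 0)) x =
    if x = linePt 1 0 then -2 else 0 := by
  by_cases hx : x ∈ lineU 0
  · have h1 : x ≠ linePt 1 0 := fun h => linePt_infty_notMem (h ▸ hx)
    rw [if_neg h1, ordAt_eq _ _ x hx _ (isFrame_dLineY 0),
      ratio_eq _ _ _ (lineU 0) le_rfl le_rfl 1 (one_smul _ _), map_one, ord_one]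
  · have h1 := eq_linePt_infty hx
    rw [if_pos h1, h1, ordAt_eq _ _ _ (linePt_mem 1 0) _ (isFrame_dLineY 1), ratio_dLineY]
    have hX : lineK 0 Polynomial.X ≠ 0 := lineK_ne_zero 0 Polynomial.X_ne_zero
    have hC : lineK 0 (Polynomial.C (-1)) ≠ 0 :=
      lineK_ne_zero 0 (Polynomial.C_ne_zero.mpr (by norm_num))
    have h2 : Scheme.ord (lineK 0 Polynomial.X) (linePt 1 0) = -1 := by
      have h3 := ord_lineK_X_sub_C 0 (linePt 1 0)
      have hne : linePt 1 0 ≠ linePt 0 0 := fun h => linePt_infty_notMem (h ▸ linePt_mem 0 0)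
      rw [map_zero, sub_zero, if_neg hne, if_pos rfl] at h3
      rw [h3]; norm_num
    rw [Scheme.ord_mul hC (pow_ne_zero 2 hX), pow_two, Scheme.ord_mul hX hX,
      ord_lineK_C (by norm_num), h2]
    norm_num

/-- **The cotangent sheaf of `ℙ^1` has degree `-2`.** -/
theorem hasDegree_cotangent_line : HasDegree Ω₁ (-2) := by
  classical
  refine ⟨isInvertible_cotangent_line, lineU 0, inferInstance, dSheaf lineHom (lineY 0),
    dLineY_ne_zero, ?_⟩
  rw [finsum_eq_single _ (linePt 1 0) (fun x hx => by rw [ordAt_dLineY, if_neg hx]), ordAt_dLineY,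
    if_pos rfl]

/-- **`IsNef` has teeth: the cotangent sheaf of `ℙ^1` is not nef.** -/
theorem not_isNef_cotangent_line : ¬ IsNef lineHom Ω₁ := by
  intro h
  have hp : IsProper lineHom := projSpaceHom_isProper 1
  have hs : SmoothOfRelativeDimension 1 lineHom := projSpaceHom_smooth 1
  have hc : CompactSpace ℙ₁ := projSpace_compactSpace 1
  obtain ⟨d, hd, hd0⟩ := h ℙ₁ lineHom (𝟙 _) (Category.id_comp _) Ω₁
    ((Scheme.Modules.pullbackId ℙ₁).hom.app Ω₁) isInvertible_cotangent_line
  have h2 := hasDegree_unique principalDegZero_projLine' hd hasDegree_cotangent_line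
  omega

end ProjLineOmega

/-- **The cotangent sheaf of `ℙ^1_ℂ` is invertible.** -/
theorem isInvertible_cotangentSheaf_projLine : IsInvertible (cotangentSheaf (projSpaceHom 1)) :=
  isInvertible_cotangent_line

/-- **The cotangent sheaf of `ℙ^1_ℂ` has degree `-2`** (and no other degree, by
`hasDegree_unique_projLine`). -/
theorem hasDegree_cotangentSheaf_projLine : HasDegree (cotangentSheaf (projSpaceHom 1)) (-2) :=
  hasDegree_cotangent_line

/-- **`IsNef` has teeth: the cotangent sheaf of `ℙ^1_ℂ` is not nef.** -/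
theorem not_isNef_cotangentSheaf_projLine :
    ¬ IsNef (projSpaceHom 1) (cotangentSheaf (projSpaceHom 1)) :=
  not_isNef_cotangent_line

end Claimed.Open.R067
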