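import Claimed.Open.R067.SanitySLSection
import Claimed.Open.R067.SanityProjCurve

/-!
# Sanity for R067, group side: `ℙ^N = SL_{N+1}/P` is rational homogeneous
-/

namespace Claimed.Open.R067

open AlgebraicGeometry CategoryTheory Opposite TopologicalSpace Limits Matrix MvPolynomial
open HomogeneousLocalization
open MonoidalCategory CartesianMonoidalCategory
open scoped MonObj LinearAlgebra.Projectivization

attribute [local instance] MvPolynomial.gradedAlgebra

noncomputable section

variable (N : ℕ)

/-- **`q : SL_{N+1} → ℙ^N` is the quotient of `SL_{N+1}` by the stabiliser `P` of `[e_0]`.** -/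
theorem isQuotient_qSL : IsQuotient (SLn (Fin (N + 1))) (parabolicPts N) (qSL N) := by
  have : IsReduced (Over.mk (projSpaceHom N)).left := projSpace_isReduced N
  have : IsReduced (SLn (Fin (N + 1))).left := inferInstance
  exact isQuotient_of_sections _ _ qSL_fibres (projSpaceCover N).openCover
    (fun i => sec N i) (fun i => sec_qLeft N i)

lemma col_one : col (1 : Points (SLn (Fin (N + 1)))) = Pi.single 0 1 := by
  ext i
  simp [col, Matrix.one_apply, Pi.single_apply]

/-- `P` is the group of the matrices whose first column is a multiple of `e_0`. -/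
lemma mem_parabolicPts_iff_col (g : Points (SLn (Fin (N + 1)))) :
    g ∈ parabolicPts N ↔ ∀ k : Fin (N + 1), k ≠ 0 → col g k = 0 := by
  have h := mem_parabolicPts_iff (1 : Points (SLn (Fin (N + 1)))) g
  rw [inv_one, one_mul, col_one] at h
  rw [h]
  constructor
  · rintro ⟨a, ha⟩ k hk
    rw [← ha]
    simp [hk]
  · intro hk
    refine ⟨col g 0, ?_⟩
    ext k
    by_cases h0 : k = 0
    · subst h0; simp
    · simp [h0, hk k h0]

/-- `P` is Zariski closed: it is the zero locus of the entries `x_{k0}`, `k ≠ 0`. -/
theorem isClosed_parabolicPts : IsClosed (parabolicPts N : Set (Points (SLn (Fin (N + 1))))) := by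
  have h : (parabolicPts N : Set (Points (SLn (Fin (N + 1))))) =
      Points.toPoint (SLn (Fin (N + 1))) ⁻¹'
        (show Set (PrimeSpectrum (SLRing (Fin (N + 1)))) from
          PrimeSpectrum.zeroLocus {a | ∃ k : Fin (N + 1), k ≠ 0 ∧ a = SLRing.univ (Fin (N + 1)) k 0}) := by
    ext g
    rw [SetLike.mem_coe, mem_parabolicPts_iff_col]
    change _ ↔ _ ⊆ ((show PrimeSpectrum (SLRing (Fin (N + 1))) from
      Points.toPoint (SLn (Fin (N + 1))) g).asIdeal : Set (SLRing (Fin (N + 1))))
    rw [toPoint_asIdeal]
    constructor
    · rintro hk _ ⟨k, hk0, rfl⟩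
      have := hk k hk0
      simpa [RingHom.mem_ker, evalAt, col] using this
    · intro hk k hk0
      have := hk ⟨k, hk0, rfl⟩
      simpa [RingHom.mem_ker, evalAt, col] using this
  rw [h]
  exact (PrimeSpectrum.isClosed_zeroLocus _).preimage continuous_induced_dom

/-- **`P` is a parabolic subgroup of `SL_{N+1}`.** -/
theorem isParabolic_parabolicPts : IsParabolic (SLn (Fin (N + 1))) (parabolicPts N) :=
  ⟨isClosed_parabolicPts N, Over.mk (projSpaceHom N), qSL N, isQuotient_qSL N,
    projSpaceHom_isProper N⟩

/-- **`ℙ^N` is rational homogeneous**, for every `N`. -/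
theorem projSpace_isRationalHomogeneous : IsRationalHomogeneous (projSpaceHom N) :=
  ⟨SLn (Fin (N + 1)), inferInstance, inferInstance, inferInstance, inferInstance,
    isSemisimple_SLn _, parabolicPts N, isParabolic_parabolicPts N, qSL N, isQuotient_qSL N⟩

end

end Claimed.Open.R067
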