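import Claimed.Open.R067.SanityPn
import Claimed.Open.R067.SanityRatHom
import Claimed.Open.R067.SanityProjAmple
import Claimed.Open.R067.SanityProjLine
import Claimed.Open.R067.SanityProjLineOmega
import Claimed.Open.R067.SanityRatHomNot
import Claimed.Open.R067.SanityGm
import Claimed.Open.R067.SanityHomogeneous
import Claimed.Open.R067.SanityFiniteSupport
import Claimed.Open.R067.SanityDimension
import Claimed.Open.R067.SanityNefFunctorial
import Claimed.Open.R067.SanityCurveHyp
import Claimed.Open.R067.SanityLowPower
import Claimed.Open.R067.SanityDimZero
import Claimed.Open.R067.SanityCurvePoints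

/-!
# Sanity checks for `Claimed.Open.R067.Statement`

Everything below and in the imported `Sanity*.lean` files is proved (no `sorry`, standard axioms only).

## The checked example: `ℙ⁶`

`hypotheses_can_be_met` : the scheme `ℙ⁶_ℂ = projSpace 6` satisfies **all five hypotheses** of `Statement`
(projective, smooth of relative dimension six, connected, ample anticanonical sheaf, nef tangent sheaf) **and its
conclusion** (`ℙ⁶ = SL₇/P` is rational homogeneous).  All the ingredients are proved for every `ℙ^N`.

## What is checked, by file

Positivity side
* `SanityRes` : sections of a sheaf of modules are determined locally (`res_ext`; used by the files below).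
* `SanityProjAway`, `SanityProjSmooth`, `SanityProjCurve` : the charts `D₊(x_i) = Spec ℂ[x_j/x_i]`; `ℙ^N` is projective,
  smooth of relative dimension `N`, proper, integral, noetherian, compact, connected; `ℙ¹` is a curve in the sense
  of `IsNef`.
* `SanityDimension` : the relative dimension of a smooth morphism from a nonempty scheme is unique (`SmoothOfRelativeDimension.unique`);
  `ℙ^N` is smooth of relative dimension `n` iff `n = N`, and satisfies the five hypotheses of `Statement` **iff `N = 6`**
  (`hypotheses_projSpace_iff`); the point is not of dimension six; on small affine opens `cotangentPresheaf π` is free of rank `n`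
  (`exists_free_cotangentPresheaf`): the hypothesis "of dimension six" has teeth, and its `6` is the `6` of `anticanonicalSheaf π 6`.
* `SanityAltHom` : sections of `altHom k M 𝒪 = 𝓗om(⋀ᵏM, 𝒪)`; if `M` is locally generated by `k` sections `θ`, a section `s` with
  `s(θ) = 1` is a frame; dual bases for `k = 1`; wedge products of linear forms.
* `SanityCotangent` : `d : 𝒪 → Ω`, local generators `dy_j` of `cotangentSheaf`, vector fields (derivations of `𝒪_X`) give
  linear forms on `Ω`.
* `SanityProjDer`, `SanityPn` : the vector fields `x_i ∂/∂x_j` on `ℙ^N`; `ω⁻¹ = anticanonicalSheaf` is invertible, the section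
  `⋀_{j≠k} x_k ∂/∂x_j` generates it exactly on `D₊(x_k)` (`nonvanishingLocus_antiSection`), so `ω⁻¹` is ample
  (`isAmple_anticanonicalSheaf`); `tangentSheaf` is globally generated, hence nef (`isNef_tangentSheaf`).
* `SanityTopPower`, `SanityLowPower` : if `M` is locally generated by `r < k` sections, `altHom k M 𝒪 = 𝓗om(⋀ᵏM, 𝒪)` is zero, hence **not** invertible on a
  nonempty open; if `M` has `N` sections with a dual family of linear forms, it is **not** invertible for `0 < k < N`; so on `ℙ^N`, for `k > 0`,
  `anticanonicalSheaf _ k` is invertible (resp. ample) **iff `k = N`** (`isAmple_anticanonicalSheaf_iff`), and the Fano hypothesis of `Statement` holds for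
  `ℙ^N` iff `N = 6` (`isAmple_anticanonicalSheaf_six_iff`): the index of `anticanonicalSheaf` has teeth.
* `SanityDegree`, `SanityOrd`, `SanityDegreeUnique`, `SanityProjGerm`, `SanityProjLine` : `𝒪_X` is invertible; `ordAt` does not depend on
  the chosen frames and is `≥ 0` for regular sections; `deg 𝒪 = 0`; the degree is unique as soon as principal divisors have
  degree `0`, and they have on `ℙ¹` (`hasDegree_unique_projLine`): `HasDegree` has teeth.
* `SanityFiniteSupport` : on a quasi-compact integral locally noetherian scheme rational functions and nonzero rational sections
  of invertible sheaves have zeros and poles at finitely many points only (`ord_support_finite`, `ordAt_support_finite'`); so the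
  `finsum` of `HasDegree` is an honest finite sum (`hasDegree_iff_sum`), in particular on the curves of `IsNef`
  (`ordAt_support_finite_of_isProper`).
* `SanityNef` : globally generated sheaves are nef, `𝒪_X` is nef.
* `SanityNefFunctorial` : quotients and pullbacks of nef sheaves are nef (`IsNef.of_epi`, `IsNef.pullback`; Lazarsfeld 6.1.2), nefness
  only depends on the isomorphism class; `Ω_{ℙ¹}` is a quotient of no nef sheaf and is not globally generated.
* `SanityCurveHyp` : a proper `ℂ`-scheme is locally noetherian, so the instance hypothesis `IsLocallyNoetherian C` of `IsNef` excludes no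
  curve (`isNef_iff_forall_integral_curve`); the residue field of a closed point is `ℂ` (`nonempty_residueField_iso_of_isClosed`).
* `SanityCurvePoints` : on the curves over which `IsNef` quantifies every point other than the generic point is closed, of codimension one,
  its local ring is a discrete valuation ring and its residue field is `ℂ` (`curve_point_of_isProper`); the divisor of a rational
  section is supported at closed points (`isClosed_of_ordAt_ne_zero`): the sum in `HasDegree` is the degree of a divisor.
* `SanityOmegaFrame`, `SanityProjLineOmega` : `Ω_{ℙ¹}` is invertible of degree `-2` (`dy = -y² dz`) and is **not** nef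
  (`not_isNef_cotangentSheaf_projLine`): `IsNef` has teeth.
* `SanityAmple`, `SanityProjAmple` : `𝒪` is ample on affine schemes and is **not** ample on `ℙ^N`, `N ≥ 1`; `tensor M 𝒪 ≅ M`.

Group side
* `SanityGroup`, `SanityQuotient` : `ℂ`-points are closed points, they are dense and separate morphisms (reduced, finite type);
  a criterion for `IsQuotient` by local sections.
* `SanitySLRing`, `SanitySL`, `SanitySLSimple` : the group scheme `SL_n`, `Points SL_n = SL_n(ℂ)`, `SL_n` is semisimple in the sense of
  `IsSemisimple`.
* `SanitySLProj`, `SanitySLSection`, `SanityRatHom` : `SL_{N+1} → ℙ^N` is the quotient by the (closed, parabolic) stabiliser of a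
  line: `projSpace_isRationalHomogeneous`.
* `SanityRatHomNot` : the quotient is unique up to isomorphism; a rational homogeneous variety is proper and nonempty; the
  affine line and the empty scheme are **not** rational homogeneous.
* `SanityHomogeneous` : a rational homogeneous variety is connected, so two reduced points `Spec (ℂ × ℂ)` (proper, nonempty) are
  **not** rational homogeneous (`not_isRationalHomogeneous_twoPoints`); `G(ℂ)` acts on `G/P` by automorphisms over `ℂ`, transitively on
  `ℂ`-points: a rational homogeneous variety is homogeneous (`IsRationalHomogeneous.homogeneous`).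
* `SanityDimZero` : `IsQuotient` and `IsRationalHomogeneous` only depend on the isomorphism class over `ℂ`; a quasi-compact connected scheme smooth of
  relative dimension `0` over `ℂ` is `Spec ℂ`; so the analogue of `Statement` in dimension `0` is a theorem (`statement_dim_zero`), and the point is the
  only rational homogeneous variety of dimension `0`.
* `SanityGm` : the multiplicative group `𝔾_m = Spec ℂ[T, T⁻¹]` (affine, connected, of finite type) is **not** semisimple
  (`not_isSemisimple_Gm`: it is its own radical), its trivial subgroup is closed but **not** parabolic
  (`not_isParabolic_bot_Gm`: the quotient is `𝔾_m`, not complete), and `𝔾_m` is **not** projective (`not_isProjective_Gm`):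
  `IsSemisimple`, `IsParabolic` and `IsProjective` have teeth.
-/

open AlgebraicGeometry CategoryTheory

namespace Claimed.Open.R067

/-- **The hypotheses of `Statement` can be met**: `ℙ⁶` satisfies all of them, and the conclusion. -/
theorem hypotheses_can_be_met :
    ∃ (X : Scheme.{0}) (π : X ⟶ SpecC),
      IsProjective π ∧ SmoothOfRelativeDimension 6 π ∧ ConnectedSpace X ∧
      IsAmple (anticanonicalSheaf π 6) ∧ IsNef π (tangentSheaf π) ∧
      IsRationalHomogeneous π :=
  ⟨projSpace 6, projSpaceHom 6, projSpaceHom_isProjective 6, projSpaceHom_smooth 6,
    projSpace_connectedSpace 6, isAmple_anticanonicalSheaf 6, isNef_tangentSheaf 6,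
    projSpace_isRationalHomogeneous 6⟩

/-- The same in every dimension: `ℙ^N` is a Fano variety with nef tangent sheaf, and it is rational
homogeneous. -/
theorem projSpace_example (N : ℕ) :
    IsProjective (projSpaceHom N) ∧ SmoothOfRelativeDimension N (projSpaceHom N) ∧
      ConnectedSpace (projSpace N) ∧ IsAmple (anticanonicalSheaf (projSpaceHom N) N) ∧
      IsNef (projSpaceHom N) (tangentSheaf (projSpaceHom N)) ∧
      IsRationalHomogeneous (projSpaceHom N) :=
  ⟨projSpaceHom_isProjective N, projSpaceHom_smooth N, projSpace_connectedSpace N,
    isAmple_anticanonicalSheaf N, isNef_tangentSheaf N, projSpace_isRationalHomogeneous N⟩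

end Claimed.Open.R067
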