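import Claimed.Open.R067.SanityRes

/-!
# Sanity, part 1: working with the sheaf `altHom k M N`
-/

open AlgebraicGeometry CategoryTheory Opposite TopologicalSpace

universe u

namespace Claimed.Open.R067

variable {X : Scheme.{u}}

lemma res_self (M : X.Modules) {V : X.Opens} (h : V ≤ V) (m : Γ(M, V)) : res M h m = m := by
  have : (homOfLE h).op = 𝟙 (op V) := rfl
  simp only [res, this, CategoryTheory.Functor.map_id]
  rfl

lemma resO_self {V : X.Opens} (h : V ≤ V) (a : Γ(X, V)) : resO h a = a := by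
  have : (homOfLE h).op = 𝟙 (op V) := rfl
  simp only [resO, this, CategoryTheory.Functor.map_id]
  rfl

section Ev

variable {k : ℕ} {M N : X.Modules}

/-- Evaluation of a section of `altHom k M N` over `U` on sections of `M` over `V ≤ U`. -/
noncomputable def ev {U : X.Opens} (s : Γ(altHom k M N, U)) (V : X.Opens) (h : V ≤ U) :
    Γ(M, V) [⋀^Fin k]→ₗ[Γ(X, V)] Γ(N, V) :=
  ((show altHomSections k M N U from s).1 ⟨V, h⟩).alt

lemma ev_res {U U' : X.Opens} (hU : U' ≤ U) (s : Γ(altHom k M N, U)) (V : X.Opens) (h : V ≤ U') :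
    ev (res (altHom k M N) hU s) V h = ev s V (h.trans hU) := rfl

lemma ev_smul {U : X.Opens} (a : Γ(X, U)) (s : Γ(altHom k M N, U)) (V : X.Opens) (h : V ≤ U) :
    ev (a • s) V h = resO h a • ev s V h := rfl

lemma ev_add {U : X.Opens} (s t : Γ(altHom k M N, U)) (V : X.Opens) (h : V ≤ U) :
    ev (s + t) V h = ev s V h + ev t V h := rfl

lemma ev_zero {U : X.Opens} (V : X.Opens) (h : V ≤ U) :
    ev (0 : Γ(altHom k M N, U)) V h = 0 := rfl

lemma res_ev {U : X.Opens} (s : Γ(altHom k M N, U)) {V W : X.Opens} (h : V ≤ U) (hW : W ≤ V)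
    (m : Fin k → Γ(M, V)) :
    res N hW (ev s V h m) = ev s W (hW.trans h) (fun i => res M hW (m i)) :=
  (show altHomSections k M N U from s).2 ⟨V, h⟩ ⟨W, hW.trans h⟩ hW m

lemma ev_ext {U : X.Opens} (s t : Γ(altHom k M N, U))
    (h : ∀ (V : X.Opens) (hV : V ≤ U), ev s V hV = ev t V hV) : s = t := by
  apply Subtype.ext
  funext V
  exact h V.1 V.2

/-- Constructor for sections of `altHom k M N`. -/
noncomputable def mkSection (U : X.Opens)
    (φ : ∀ V : X.Opens, V ≤ U → (Γ(M, V) [⋀^Fin k]→ₗ[Γ(X, V)] Γ(N, V)))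
    (hφ : ∀ (V W : X.Opens) (hV : V ≤ U) (hW : W ≤ V) (m : Fin k → Γ(M, V)),
      res N hW (φ V hV m) = φ W (hW.trans hV) (fun i => res M hW (m i))) :
    Γ(altHom k M N, U) :=
  (⟨fun V => φ V.1 V.2, fun V W h m => hφ V.1 W.1 V.2 h m⟩ : altHomSections k M N U)

lemma ev_mkSection (U : X.Opens) (φ hφ) (V : X.Opens) (h : V ≤ U) :
    ev (mkSection (k := k) (M := M) (N := N) U φ hφ) V h = φ V h := rfl

end Ev

/-! ### Values in the structure sheaf -/

section EvO

variable {k : ℕ} {M : X.Modules}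

/-- Evaluation of a section of `altHom k M 𝒪_X`, with values in regular functions. -/
noncomputable def evO {U : X.Opens} (s : Γ(altHom k M (structureSheaf X), U)) (V : X.Opens)
    (h : V ≤ U) : Γ(M, V) [⋀^Fin k]→ₗ[Γ(X, V)] Γ(X, V) :=
  ev s V h

lemma evO_res {U U' : X.Opens} (hU : U' ≤ U) (s : Γ(altHom k M (structureSheaf X), U))
    (V : X.Opens) (h : V ≤ U') :
    evO (res (altHom k M (structureSheaf X)) hU s) V h = evO s V (h.trans hU) := rfl

lemma evO_smul {U : X.Opens} (a : Γ(X, U)) (s : Γ(altHom k M (structureSheaf X), U))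
    (V : X.Opens) (h : V ≤ U) : evO (a • s) V h = resO h a • evO s V h := rfl

lemma evO_add {U : X.Opens} (s t : Γ(altHom k M (structureSheaf X), U)) (V : X.Opens)
    (h : V ≤ U) : evO (s + t) V h = evO s V h + evO t V h := rfl

lemma resO_evO {U : X.Opens} (s : Γ(altHom k M (structureSheaf X), U)) {V W : X.Opens}
    (h : V ≤ U) (hW : W ≤ V) (m : Fin k → Γ(M, V)) :
    resO hW (evO s V h m) = evO s W (hW.trans h) (fun i => res M hW (m i)) :=
  res_ev s h hW m

lemma evO_ext {U : X.Opens} (s t : Γ(altHom k M (structureSheaf X), U))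
    (h : ∀ (V : X.Opens) (hV : V ≤ U), evO s V hV = evO t V hV) : s = t :=
  ev_ext s t h

/-- Regular functions that agree locally are equal. -/
lemma resO_ext {V : X.Opens} (a b : Γ(X, V))
    (h : ∀ x ∈ V, ∃ (W : X.Opens) (hW : W ≤ V), x ∈ W ∧ resO hW a = resO hW b) : a = b := by
  choose W hW hx hab using h
  refine res_ext (structureSheaf X) (fun x : V => W x.1 x.2) V (fun x => hW x.1 x.2) ?_ a b
    (fun x => hab x.1 x.2)
  intro x hxV
  exact Opens.mem_iSup.mpr ⟨⟨x, hxV⟩, hx x hxV⟩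

end EvO

/-! ### Local generation -/

/-- The sections `θ j` of `M` over `U` generate `M` locally on `U`. -/
def LocallyGenerates (M : X.Modules) (U : X.Opens) {r : ℕ} (θ : Fin r → Γ(M, U)) : Prop :=
  ∀ (W : X.Opens) (hW : W ≤ U) (ω : Γ(M, W)) (x : X), x ∈ W →
    ∃ (W' : X.Opens) (hW' : W' ≤ W) (c : Fin r → Γ(X, W')), x ∈ W' ∧
      res M hW' ω = ∑ j, c j • res M (hW'.trans hW) (θ j)

lemma LocallyGenerates.simul {M : X.Modules} {U : X.Opens} {r : ℕ} {θ : Fin r → Γ(M, U)}
    (hθ : LocallyGenerates M U θ) {k : ℕ} {W : X.Opens} (hW : W ≤ U) (m : Fin k → Γ(M, W))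
    (x : X) (hx : x ∈ W) :
    ∃ (W' : X.Opens) (hW' : W' ≤ W) (c : Fin k → Fin r → Γ(X, W')), x ∈ W' ∧
      ∀ l, res M hW' (m l) = ∑ j, c l j • res M (hW'.trans hW) (θ j) := by
  choose W' hW' c hx' hc using fun l => hθ W hW (m l) x hx
  have hle : ∀ l, W ⊓ Finset.univ.inf W' ≤ W' l := fun l =>
    inf_le_right.trans (Finset.inf_le (Finset.mem_univ l))
  refine ⟨W ⊓ Finset.univ.inf W', inf_le_left, fun l j => resO (hle l) (c l j), ⟨hx, ?_⟩, ?_⟩
  · rw [SetLike.mem_coe, ← SetLike.mem_coe, Opens.coe_finset_inf]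
    simp [hx']
  · intro l
    have := congrArg (res M (hle l)) (hc l)
    rw [res_res, map_sum] at this
    rw [this]
    refine Finset.sum_congr rfl fun j _ => ?_
    rw [res_smul, res_res]

/-! ### Two lemmas on alternating maps -/

lemma alt_eq_of_top {R P : Type*} [CommRing R] [AddCommGroup P] [Module R P] {k : ℕ}
    (g₁ g₂ : P [⋀^Fin k]→ₗ[R] R) (θ : Fin k → P) (h : g₁ θ = g₂ θ)
    (m : Fin k → P) (c : Fin k → Fin k → R) (hm : ∀ l, m l = ∑ j, c l j • θ j) :
    g₁ m = g₂ m := by
  have key : ∀ g : P [⋀^Fin k]→ₗ[R] R, g m = g θ * (Pi.basisFun R (Fin k)).det c := by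
    intro g
    have h1 := AlternatingMap.eq_smul_basis_det (Pi.basisFun R (Fin k))
      (g.compLinearMap (Fintype.linearCombination R θ))
    have h2 := congrArg (fun f => f c) h1
    simp only [AlternatingMap.compLinearMap_apply, AlternatingMap.smul_apply, smul_eq_mul] at h2
    have h3 : (fun l => Fintype.linearCombination R θ (c l)) = m := by
      funext l
      rw [Fintype.linearCombination_apply, hm l]
    have h4 : (fun l => Fintype.linearCombination R θ (Pi.basisFun R (Fin k) l)) = θ := by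
      funext l
      simp [Fintype.linearCombination_apply, Pi.single_apply]
    rw [h3, h4] at h2
    exact h2
  rw [key g₁, key g₂, h]

lemma alt_eq_of_one {R P : Type*} [CommRing R] [AddCommGroup P] [Module R P] {r : ℕ}
    (g₁ g₂ : P [⋀^Fin 1]→ₗ[R] R) (θ : Fin r → P) (h : ∀ j, g₁ (fun _ => θ j) = g₂ (fun _ => θ j))
    (m : Fin 1 → P) (c : Fin r → R) (hm : m 0 = ∑ j, c j • θ j) :
    g₁ m = g₂ m := by
  have key : ∀ g : P [⋀^Fin 1]→ₗ[R] R, g m = ∑ j, c j * g (fun _ => θ j) := by
    intro g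
    have h1 : m = fun _ => m 0 := by
      funext i
      rw [Subsingleton.elim i 0]
    have h2 : g m = (AlternatingMap.ofSubsingleton R P R (0 : Fin 1)).symm g (m 0) := by
      rw [AlternatingMap.ofSubsingleton_symm_apply_apply, ← h1]
    rw [h2, hm, map_sum]
    refine Finset.sum_congr rfl fun j _ => ?_
    rw [map_smul, AlternatingMap.ofSubsingleton_symm_apply_apply, smul_eq_mul]
  rw [key g₁, key g₂]
  exact Finset.sum_congr rfl fun j _ => by rw [h j]

/-! ### Frames of `altHom k M 𝒪` and dual bases -/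

lemma evO_res_theta {k : ℕ} {M : X.Modules} {U : X.Opens} (θ : Fin k → Γ(M, U))
    (s : Γ(altHom k M (structureSheaf X), U)) (hs : evO s U le_rfl θ = 1) {W : X.Opens}
    (hW : W ≤ U) : evO s W hW (fun j => res M hW (θ j)) = 1 := by
  rw [← resO_evO s le_rfl hW θ, hs, map_one]

/-- If `M` is locally generated on `U` by `k` sections `θ`, a section `s` of
`𝓗om(⋀ᵏ M, 𝒪)` with `s(θ) = 1` is a frame. -/
theorem isFrame_of_locallyGenerates {k : ℕ} {M : X.Modules} {U : X.Opens} {θ : Fin k → Γ(M, U)}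
    (hθ : LocallyGenerates M U θ) (s : Γ(altHom k M (structureSheaf X), U))
    (hs : evO s U le_rfl θ = 1) : IsFrame (altHom k M (structureSheaf X)) U s := by
  intro W hW t
  refine ⟨evO t W le_rfl (fun j => res M hW (θ j)), ?_, ?_⟩
  · apply evO_ext
    intro V hV
    apply AlternatingMap.ext
    intro m
    apply resO_ext
    intro x hx
    obtain ⟨W', hW', c, hxW', hc⟩ := hθ.simul (hV.trans hW) m x hx
    refine ⟨W', hW', hxW', ?_⟩
    rw [resO_evO, resO_evO]
    refine alt_eq_of_top _ _ (fun j => res M (hW'.trans (hV.trans hW)) (θ j)) ?_ _ c hc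
    rw [evO_smul, evO_res, AlternatingMap.smul_apply, evO_res_theta θ s hs, smul_eq_mul, mul_one,
      resO_evO]
    simp only [res_res]
  · intro a ha
    have h1 := congrArg (fun t' => evO t' W le_rfl (fun j => res M hW (θ j))) ha
    simp only [evO_smul, evO_res, AlternatingMap.smul_apply, evO_res_theta θ s hs, smul_eq_mul,
      mul_one, resO_self] at h1
    exact h1

/-- If `M` is locally generated on `U` by `θ`, and `E j` are linear forms on `M` over `U` with
`E j (θ l) = δ_{jl}`, then every linear form `t` over `W ≤ U` is `∑ j, t(θ j) • E j`. -/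
theorem eq_sum_of_locallyGenerates {r : ℕ} {M : X.Modules} {U : X.Opens} {θ : Fin r → Γ(M, U)}
    (hθ : LocallyGenerates M U θ) (E : Fin r → Γ(altHom 1 M (structureSheaf X), U))
    (hE : ∀ j l, evO (E j) U le_rfl (fun _ => θ l) = if j = l then 1 else 0)
    {W : X.Opens} (hW : W ≤ U) (t : Γ(altHom 1 M (structureSheaf X), W)) :
    t = ∑ j, evO t W le_rfl (fun _ => res M hW (θ j)) •
      res (altHom 1 M (structureSheaf X)) hW (E j) := by
  have evO_sum : ∀ (V : X.Opens) (hV : V ≤ W) (f : Fin r → Γ(altHom 1 M (structureSheaf X), W))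
      (m : Fin 1 → Γ(M, V)), evO (∑ j, f j) V hV m = ∑ j, evO (f j) V hV m := by
    intro V hV f m
    exact map_sum (⟨⟨fun s => evO s V hV m, rfl⟩, fun s t => rfl⟩ :
      Γ(altHom 1 M (structureSheaf X), W) →+ Γ(X, V)) f Finset.univ
  apply evO_ext
  intro V hV
  apply AlternatingMap.ext
  intro m
  apply resO_ext
  intro x hx
  obtain ⟨W', hW', c, hxW', hc⟩ := hθ V (hV.trans hW) (m 0) x hx
  refine ⟨W', hW', hxW', ?_⟩
  rw [resO_evO, resO_evO]
  refine alt_eq_of_one _ _ (fun j => res M (hW'.trans (hV.trans hW)) (θ j)) ?_ _ c hc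
  intro l
  rw [evO_sum]
  have h1 : ∀ j, evO (E j) W' (hW'.trans (hV.trans hW))
      (fun _ => res M (hW'.trans (hV.trans hW)) (θ l)) = if j = l then 1 else 0 := by
    intro j
    rw [← resO_evO (E j) le_rfl (hW'.trans (hV.trans hW)) (fun _ => θ l), hE j l]
    split_ifs <;> simp
  simp only [evO_smul, evO_res, AlternatingMap.smul_apply, h1, smul_eq_mul, mul_ite, mul_one,
    mul_zero, Finset.sum_ite_eq', Finset.mem_univ, if_true, resO_evO, res_res]

/-! ### Wedge products of linear forms -/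

section Wedge

variable {M : X.Modules}

/-- The linear form on `M(V)` given by a morphism `M ⟶ 𝒪_X`. -/
noncomputable def appLin (f : M ⟶ structureSheaf X) (V : X.Opens) : Γ(M, V) →ₗ[Γ(X, V)] Γ(X, V) where
  toFun m := f.app V m
  map_add' a b := map_add (f.app V).hom a b
  map_smul' a b := Scheme.Modules.Hom.app_smul f a b

lemma resO_appLin (f : M ⟶ structureSheaf X) {V W : X.Opens} (h : W ≤ V) (m : Γ(M, V)) :
    resO h (appLin f V m) = appLin f W (res M h m) := by
  have := ConcreteCategory.congr_hom (f.mapPresheaf.naturality (homOfLE h).op) m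
  exact this.symm

/-- The wedge product `f₁ ∧ ⋯ ∧ f_k` of linear forms `f_a : M ⟶ 𝒪_X`, as a section of
`𝓗om(⋀ᵏ M, 𝒪_X)`: it sends `(m₁, …, m_k)` to `det (f_a (m_l))`. -/
noncomputable def wedge {k : ℕ} (f : Fin k → (M ⟶ structureSheaf X)) (U : X.Opens) :
    Γ(altHom k M (structureSheaf X), U) :=
  mkSection U
    (fun V _ => (Matrix.detRowAlternating (R := Γ(X, V)) (n := Fin k)).compLinearMap
      (LinearMap.pi fun a => appLin (f a) V))
    (by
      intro V W hV hW m
      change resO hW (Matrix.det (Matrix.of fun l a => appLin (f a) V (m l))) =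
        Matrix.det (Matrix.of fun l a => appLin (f a) W (res M hW (m l)))
      rw [RingHom.map_det]
      congr 1
      ext l a
      exact resO_appLin (f a) hW (m l))

lemma evO_wedge {k : ℕ} (f : Fin k → (M ⟶ structureSheaf X)) (U V : X.Opens) (h : V ≤ U)
    (m : Fin k → Γ(M, V)) :
    evO (wedge f U) V h m = Matrix.det (Matrix.of fun l a => appLin (f a) V (m l)) := rfl

lemma res_wedge {k : ℕ} (f : Fin k → (M ⟶ structureSheaf X)) {U U' : X.Opens} (h : U' ≤ U) :
    res (altHom k M (structureSheaf X)) h (wedge f U) = wedge f U' := rfl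

end Wedge

end Claimed.Open.R067
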