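import Claimed.Open.R067.SanityAltHom

/-!
# Sanity for `cotangentSheaf`: differentials of functions, local generators, vector fields

* `dSheaf π g : Γ(cotangentSheaf π, V)` : the differential `dg` of a regular function `g` on `V`;
* `locallyGenerates_dSheaf` : on an affine `U` whose ring of functions is generated over `ℂ` by
  `y₁, …, y_r`, the sheaf `Ω_{X/ℂ}` is locally generated by `dy₁, …, dy_r`;
* `SheafDer π` : `ℂ`-derivations of the structure sheaf (vector fields), `SheafDer.toHom` : the linear form
  `Ω_{X/ℂ} ⟶ 𝒪_X` of a vector field, with `SheafDer.appLin_toHom : D.toHom (dg) = D g`.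
-/

open AlgebraicGeometry CategoryTheory Opposite TopologicalSpace

namespace Claimed.Open.R067

variable {X : Scheme.{0}} (π : X ⟶ SpecC)

/-- The canonical map from the presheaf of Kähler differentials to the cotangent sheaf. -/
noncomputable def toCotangent : (cotangentPresheaf π).presheaf ⟶ (cotangentSheaf π).presheaf :=
  CategoryTheory.toSheafify (Opens.grothendieckTopology X) (cotangentPresheaf π).presheaf

lemma toCotangent_locSurj :
    Presheaf.IsLocallySurjective (Opens.grothendieckTopology X) (toCotangent π) :=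
  ((Opens.grothendieckTopology X).W_toSheafify (cotangentPresheaf π).presheaf).isLocallySurjective

lemma toCotangent_exists {W : X.Opens} (ω : Γ(cotangentSheaf π, W)) (x : X) (hx : x ∈ W) :
    ∃ (W' : X.Opens) (hW' : W' ≤ W) (ω' : (cotangentPresheaf π).presheaf.obj (op W')), x ∈ W' ∧
      (toCotangent π).app (op W') ω' = res (cotangentSheaf π) hW' ω := by
  have := (TopCat.Presheaf.isLocallySurjective_iff (toCotangent π)).mp (toCotangent_locSurj π)
    W ω x hx
  obtain ⟨V, hV, ⟨s, hs⟩, hxV⟩ := this
  exact ⟨V, hV, s, hxV, hs⟩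

/-- `Ω_{𝒪(V)/ℂ}`, the sections over `V` of the presheaf of Kähler differentials. -/
abbrev KD (V : X.Opens) : Type := (cotangentPresheaf π).presheaf.obj (op V)

noncomputable instance instModuleKD (V : X.Opens) : Module Γ(X, V) (KD π V) :=
  ((cotangentPresheaf π).obj (op V)).isModule

lemma toCotangent_smul {V : X.Opens} (a : Γ(X, V)) (p : KD π V) :
    (toCotangent π).app (op V) (a • p) = a • (toCotangent π).app (op V) p :=
  (((PresheafOfModules.sheafificationAdjunction (𝟙 X.ringCatSheaf.obj)).unit.app
    (cotangentPresheaf π)).app (op V)).hom.map_smul a p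

/-- The differential `dg ∈ Ω_{𝒪(V)/ℂ}` of a regular function. -/
noncomputable def dP {V : X.Opens} (g : Γ(X, V)) : KD π V :=
  CommRingCat.KaehlerDifferential.d (f := constHom π V) g

/-- The differential `dg ∈ Ω_X(V)` of a regular function. -/
noncomputable def dSheaf {V : X.Opens} (g : Γ(X, V)) : Γ(cotangentSheaf π, V) :=
  (toCotangent π).app (op V) (dP π g)

lemma map_dP {V W : X.Opens} (h : W ≤ V) (g : Γ(X, V)) :
    (cotangentPresheaf π).presheaf.map (homOfLE h).op (dP π g) = dP π (resO h g) :=
  PresheafOfModules.DifferentialsConstruction.relativeDifferentials'_map_d (constToStructure π)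
    (homOfLE h).op g

lemma res_dSheaf {V W : X.Opens} (h : W ≤ V) (g : Γ(X, V)) :
    res (cotangentSheaf π) h (dSheaf π g) = dSheaf π (resO h g) := by
  have := ConcreteCategory.congr_hom ((toCotangent π).naturality (homOfLE h).op) (dP π g)
  have h2 := congrArg ((toCotangent π).app (op W)) (map_dP π h g)
  exact this.symm.trans h2

lemma KD_span (V : X.Opens) : Submodule.span Γ(X, V) (Set.range (dP π (V := V))) = ⊤ := by
  let := (constHom π V).hom.toAlgebra
  exact KaehlerDifferential.span_range_derivation ℂ Γ(X, V)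

lemma dP_add {V : X.Opens} (a b : Γ(X, V)) : dP π (a + b) = dP π a + dP π b :=
  ModuleCat.Derivation.d_add _ a b

lemma dP_mul {V : X.Opens} (a b : Γ(X, V)) : dP π (a * b) = a • dP π b + b • dP π a :=
  ModuleCat.Derivation.d_mul _ a b

lemma dP_const {V : X.Opens} (c : ℂ) : dP π ((constHom π V).hom c) = 0 :=
  ModuleCat.Derivation.d_map (CommRingCat.KaehlerDifferential.D (constHom π V)) c

lemma dP_zero {V : X.Opens} : dP π (0 : Γ(X, V)) = 0 := by
  have := dP_const π (V := V) 0
  rwa [map_zero] at this

lemma dP_one {V : X.Opens} : dP π (1 : Γ(X, V)) = 0 := by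
  have := dP_const π (V := V) 1
  rwa [map_one] at this

lemma dP_neg {V : X.Opens} (a : Γ(X, V)) : dP π (-a) = - dP π a := by
  have := dP_add π a (-a)
  rw [add_neg_cancel, dP_zero] at this
  exact (neg_eq_of_add_eq_zero_right this.symm).symm

/-- The subring of `𝒪(V)` generated by the constants and the functions `y j`. -/
def genSubring {V : X.Opens} {r : ℕ} (y : Fin r → Γ(X, V)) : Subring Γ(X, V) :=
  Subring.closure (Set.range (constHom π V).hom ∪ Set.range y)

lemma dP_mem_span_of_mem_genSubring {V : X.Opens} {r : ℕ} (y : Fin r → Γ(X, V)) (g : Γ(X, V))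
    (hg : g ∈ genSubring π y) :
    dP π g ∈ Submodule.span Γ(X, V) (Set.range fun j => dP π (y j)) := by
  induction hg using Subring.closure_induction with
  | mem x hx =>
    rcases hx with ⟨c, rfl⟩ | ⟨j, rfl⟩
    · rw [dP_const]; exact zero_mem _
    · exact Submodule.subset_span ⟨j, rfl⟩
  | zero => rw [dP_zero]; exact zero_mem _
  | one => rw [dP_one]; exact zero_mem _
  | add a b _ _ ha hb => rw [dP_add]; exact add_mem ha hb
  | neg a _ ha => rw [dP_neg]; exact neg_mem ha
  | mul a b _ _ ha hb =>
    rw [dP_mul]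
    exact add_mem (Submodule.smul_mem _ _ hb) (Submodule.smul_mem _ _ ha)

lemma KD_span_of_ess {V : X.Opens} {r : ℕ} (y : Fin r → Γ(X, V))
    (hy : ∀ g : Γ(X, V), ∃ t ∈ genSubring π y, IsUnit t ∧ g * t ∈ genSubring π y) :
    Submodule.span Γ(X, V) (Set.range fun j => dP π (y j)) = ⊤ := by
  rw [eq_top_iff, ← KD_span π V, Submodule.span_le]
  rintro _ ⟨g, rfl⟩
  obtain ⟨t, ht, htu, hgt⟩ := hy g
  obtain ⟨u, rfl⟩ := htu
  have h1 := dP_mem_span_of_mem_genSubring π y _ hgt
  have h2 := dP_mem_span_of_mem_genSubring π y _ ht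
  rw [dP_mul] at h1
  have h3 : (u : Γ(X, V)) • dP π g ∈ Submodule.span Γ(X, V) (Set.range fun j => dP π (y j)) := by
    have := sub_mem h1 (Submodule.smul_mem _ g h2)
    rwa [add_sub_cancel_left] at this
  have h4 := Submodule.smul_mem _ ((u⁻¹ : Γ(X, V)ˣ) : Γ(X, V)) h3
  rwa [smul_smul, Units.inv_mul, one_smul] at h4

lemma exists_mul_pow_eq {U : X.Opens} (hU : IsAffineOpen U) (f : Γ(X, U))
    (g : Γ(X, X.basicOpen f)) :
    IsUnit (resO (X.basicOpen_le f) f) ∧
    ∃ (n : ℕ) (a : Γ(X, U)), g * (resO (X.basicOpen_le f) f) ^ n = resO (X.basicOpen_le f) a := by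
  let : Algebra Γ(X, U) Γ(X, X.basicOpen f) := (resO (X.basicOpen_le f)).toAlgebra
  have hloc : IsLocalization.Away f Γ(X, X.basicOpen f) :=
    hU.isLocalization_of_eq_basicOpen f (homOfLE (X.basicOpen_le f)) rfl
  refine ⟨IsLocalization.Away.algebraMap_isUnit f, ?_⟩
  obtain ⟨⟨a, ⟨_, n, rfl⟩⟩, h⟩ := IsLocalization.surj (Submonoid.powers f) g
  refine ⟨n, a, ?_⟩
  simp only [map_pow] at h
  exact h

lemma resO_constHom {V W : X.Opens} (h : W ≤ V) (c : ℂ) :
    resO h ((constHom π V).hom c) = (constHom π W).hom c := by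
  have := ConcreteCategory.congr_hom ((constToStructure π).naturality (homOfLE h).op) c
  exact this.symm

lemma resO_mem_genSubring {V W : X.Opens} (h : W ≤ V) {r : ℕ} (y : Fin r → Γ(X, V)) (g : Γ(X, V))
    (hg : g ∈ genSubring π y) : resO h g ∈ genSubring π (fun j => resO h (y j)) := by
  induction hg using Subring.closure_induction with
  | mem x hx =>
    rcases hx with ⟨c, rfl⟩ | ⟨j, rfl⟩
    · rw [resO_constHom]; exact Subring.subset_closure (Or.inl ⟨c, rfl⟩)
    · exact Subring.subset_closure (Or.inr ⟨j, rfl⟩)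
  | zero => rw [map_zero]; exact zero_mem _
  | one => rw [map_one]; exact one_mem _
  | add a b _ _ ha hb => rw [map_add]; exact add_mem ha hb
  | neg a _ ha => rw [map_neg]; exact neg_mem ha
  | mul a b _ _ ha hb => rw [map_mul]; exact mul_mem ha hb

/-- On an affine open `U` whose ring of functions is generated over `ℂ` by `y₁, …, y_r`, the
cotangent sheaf is locally generated by `dy₁, …, dy_r`. -/
theorem locallyGenerates_dSheaf {U : X.Opens} (hU : IsAffineOpen U) {r : ℕ} (y : Fin r → Γ(X, U))
    (hy : genSubring π y = ⊤) :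
    LocallyGenerates (cotangentSheaf π) U (fun j => dSheaf π (y j)) := by
  intro W hW ω x hx
  obtain ⟨W₁, hW₁, ω₁, hxW₁, hω₁⟩ := toCotangent_exists π ω x hx
  obtain ⟨f, hf, hxf⟩ := hU.exists_basicOpen_le (V := W₁) ⟨x, hxW₁⟩ (hW hx)
  have hspan := KD_span_of_ess π (fun j => resO (X.basicOpen_le f) (y j)) (by
    intro g
    obtain ⟨hu, n, a, h⟩ := exists_mul_pow_eq hU f g
    refine ⟨(resO (X.basicOpen_le f) f) ^ n, ?_, hu.pow n, ?_⟩
    · exact pow_mem (resO_mem_genSubring π _ y f (hy ▸ Subring.mem_top f)) n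
    · rw [h]
      exact resO_mem_genSubring π _ y a (hy ▸ Subring.mem_top a))
  have hmem : (cotangentPresheaf π).presheaf.map (homOfLE hf).op ω₁ ∈
      Submodule.span Γ(X, X.basicOpen f)
        (Set.range fun j => dP π (resO (X.basicOpen_le f) (y j))) := by
    rw [hspan]; trivial
  obtain ⟨c, hc⟩ := (Submodule.mem_span_range_iff_exists_fun _).mp hmem
  refine ⟨X.basicOpen f, hf.trans hW₁, c, hxf, ?_⟩
  have h1 := ConcreteCategory.congr_hom ((toCotangent π).naturality (homOfLE hf).op) ω₁
  have h2 : res (cotangentSheaf π) (hf.trans hW₁) ω =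
      (toCotangent π).app (op (X.basicOpen f))
        ((cotangentPresheaf π).presheaf.map (homOfLE hf).op ω₁) := by
    rw [← res_res (cotangentSheaf π) hW₁ hf, ← hω₁]
    exact h1.symm
  rw [h2, ← hc, map_sum]
  refine Finset.sum_congr rfl fun j _ => ?_
  rw [toCotangent_smul, res_dSheaf]
  rfl

/-- A `ℂ`-derivation of the structure sheaf: a vector field on `X`. -/
structure SheafDer where
  /-- the derivation on sections over `V` -/
  d : ∀ V : X.Opens, Γ(X, V) → Γ(X, V)
  add : ∀ V a b, d V (a + b) = d V a + d V b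
  mul : ∀ V a b, d V (a * b) = a * d V b + b * d V a
  const : ∀ V c, d V ((constHom π V).hom c) = 0
  res : ∀ (V W : X.Opens) (h : W ≤ V) a, resO h (d V a) = d W (resO h a)

variable {π}

/-- The derivation of presheaves of modules attached to a vector field. -/
noncomputable def SheafDer.toDerivation (D : SheafDer π) :
    (structureSheaf X).val.Derivation' (constToStructure π) where
  d {V} := AddMonoidHom.mk' (D.d V.unop) (D.add V.unop)
  d_mul {V} a b := D.mul V.unop a b
  d_map {V W} f a := (D.res V.unop W.unop f.unop.le a).symm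
  d_app {V} c := D.const V.unop c

/-- The morphism of presheaves of modules `Ω ⟶ 𝒪` attached to a vector field. -/
noncomputable def SheafDer.descPresheaf (D : SheafDer π) :
    cotangentPresheaf π ⟶ (structureSheaf X).val :=
  (PresheafOfModules.DifferentialsConstruction.isUniversal' (constToStructure π)).desc
    D.toDerivation

/-- The linear form `Ω_X ⟶ 𝒪_X` attached to a vector field. -/
noncomputable def SheafDer.toHom (D : SheafDer π) : cotangentSheaf π ⟶ structureSheaf X :=
  ((PresheafOfModules.sheafificationAdjunction (𝟙 X.ringCatSheaf.obj)).homEquiv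
    (cotangentPresheaf π) (structureSheaf X)).symm D.descPresheaf

lemma SheafDer.descPresheaf_dP (D : SheafDer π) {V : X.Opens} (g : Γ(X, V)) :
    (D.descPresheaf.app (op V)).hom (dP π g) = D.d V g :=
  ModuleCat.Derivation.desc_d (D.toDerivation.app (op V)) g

lemma SheafDer.homEquiv_toHom (D : SheafDer π) :
    (PresheafOfModules.sheafificationAdjunction (𝟙 X.ringCatSheaf.obj)).homEquiv
      (cotangentPresheaf π) (structureSheaf X) D.toHom = D.descPresheaf := by
  unfold SheafDer.toHom
  exact Equiv.apply_symm_apply _ _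

lemma SheafDer.appLin_toHom (D : SheafDer π) {V : X.Opens} (g : Γ(X, V)) :
    appLin D.toHom V (dSheaf π g) = D.d V g := by
  have h0 : PresheafOfModules.sheafificationHomEquiv (𝟙 X.ringCatSheaf.obj)
      (P := cotangentPresheaf π) (F := structureSheaf X) D.toHom = D.descPresheaf :=
    D.homEquiv_toHom
  have h1 := PresheafOfModules.toPresheaf_map_sheafificationHomEquiv_def
    (𝟙 X.ringCatSheaf.obj) (P := cotangentPresheaf π) (F := structureSheaf X) D.toHom
  rw [h0] at h1
  have h3 := ConcreteCategory.congr_hom (congrArg (fun t => t.app (op V)) h1) (dP π g)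
  rw [← D.descPresheaf_dP g]
  exact h3.symm

end Claimed.Open.R067
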