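import Claimed.Open.R067.SanityFiniteSupport

/-!
# Sanity for `HasDegree`: the points of the curves of `IsNef`

`HasDegree L d` of `Statement.lean` sums `Scheme.ord` over all points of the curve, each with multiplicity one.
Deviation 3 of `CLAIM.md` says why this is the degree of a divisor: the only point that is not of codimension
one is the generic point, and every closed point has residue field `ℂ`.  Here this is proved for the curves
`c : C ⟶ Spec ℂ` over which `IsNef` quantifies (integral, locally noetherian, proper, smooth of relative dimension `1`):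

* `curve_point_of_isProper`: every point other than the generic point is closed, of codimension one, its local
  ring is a discrete valuation ring (so `Scheme.ord` is the valuation) and its residue field is `ℂ`;
* `isClosed_of_ordAt_ne_zero`: the divisor of a rational section is supported at closed points.

Proof.  Let `x` be a closed point, `P = 𝒪_{C,x}`, `κ = ℂ` its residue field (Nullstellensatz, Mathlib's
`residueFieldIsoBase`).  `P` is a localisation of a standard smooth `ℂ`-algebra of relative dimension `1`, so it is
formally smooth over `ℂ` and `Ω_{P/ℂ}` is generated by one element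
(`formallySmooth_and_exists_span_kaehler_of_isLocalization`).  As `κ` is formally smooth over `ℂ`, the map
`𝔪/𝔪² → κ ⊗ Ω_{P/ℂ}` is injective (Stacks 031I), so `𝔪` is principal by Nakayama's lemma
(`isPrincipal_maximalIdeal_of_formallySmooth`), and `P` is a field or a discrete valuation ring.  A point `x` other than
the generic point specialises to a closed point `y`; `𝒪_{C,y}` has dimension one, so `x = y`.
-/

open AlgebraicGeometry CategoryTheory Opposite TopologicalSpace
open IsLocalRing KaehlerDifferential TensorProduct

namespace Claimed.Open.R067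

section Algebra

theorem isPrincipal_maximalIdeal_of_formallySmooth {K P : Type*} [CommRing K] [CommRing P]
    [Algebra K P] [IsLocalRing P] [IsNoetherianRing P] [Algebra.FormallySmooth K P]
    (hres : Function.Bijective (algebraMap K (ResidueField P)))
    (hΩ : ∃ ω : Ω[P⁄K], Submodule.span P {ω} = ⊤) : (maximalIdeal P).IsPrincipal := by
  obtain ⟨ω, hω⟩ := hΩ
  have hS : Algebra.FormallySmooth K (ResidueField P) :=
    Algebra.FormallySmooth.of_equiv (AlgEquiv.ofBijective (Algebra.ofId K (ResidueField P)) hres)
  have hsurj : Function.Surjective (algebraMap P (ResidueField P)) := residue_surjective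
  obtain ⟨l, hl⟩ := (Algebra.FormallySmooth.iff_split_injection (R := K) (P := P)
    (A := ResidueField P) hsurj).mp hS
  have hinj : Function.Injective (kerCotangentToTensor K P (ResidueField P)) := by
    intro a b hab
    have := congrArg l hab
    rwa [← LinearMap.comp_apply, ← LinearMap.comp_apply, hl] at this
  have hker : RingHom.ker (algebraMap P (ResidueField P)) = maximalIdeal P := ker_residue
  have hD : ∀ x : P, ∃ a : P, D K P x = a • ω := fun x =>
    (Submodule.mem_span_singleton.mp (hω ▸ Submodule.mem_top : D K P x ∈ Submodule.span P {ω})).imp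
      fun a h => h.symm
  rw [← hker]
  set I := RingHom.ker (algebraMap P (ResidueField P)) with hI
  -- the key: `I ≤ span {x₀} ⊔ I • I`
  have key : ∃ x₀ ∈ I, I ≤ Ideal.span {x₀} ⊔ I • I := by
    by_cases h : ∃ x₀ ∈ I, ∃ u : P, IsUnit u ∧ D K P x₀ = u • ω
    · obtain ⟨x₀, hx₀, u, hu, hDx₀⟩ := h
      obtain ⟨v, hv⟩ := hu.exists_left_inv
      refine ⟨x₀, hx₀, fun x hx => ?_⟩
      obtain ⟨a, ha⟩ := hD x
      have h1 : D K P x = (a * v) • D K P x₀ := by
        rw [hDx₀, smul_smul, mul_assoc, hv, mul_one, ha]
      have h2 : I.toCotangent ⟨x, hx⟩ = I.toCotangent ((a * v) • ⟨x₀, hx₀⟩) := by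
        apply hinj
        rw [map_smul, map_smul, kerCotangentToTensor_toCotangent, kerCotangentToTensor_toCotangent,
          h1, tmul_smul]
      rw [Ideal.toCotangent_eq] at h2
      have h3 : x = (a * v) * x₀ + (x - (a * v) * x₀) := by ring
      rw [h3]
      refine Submodule.add_mem_sup (Ideal.mul_mem_left _ _ (Ideal.mem_span_singleton_self x₀)) ?_
      rw [smul_eq_mul, ← pow_two]
      exact h2
    · push Not at h
      refine ⟨0, I.zero_mem, fun x hx => ?_⟩
      obtain ⟨a, ha⟩ := hD x
      have ha' : a ∈ I := by
        rw [hker]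
        exact (mem_maximalIdeal a).mpr fun hu => h x hx a hu ha
      have h2 : I.toCotangent ⟨x, hx⟩ = 0 := by
        apply hinj
        rw [map_zero, kerCotangentToTensor_toCotangent, ha, tmul_smul, smul_tmul', Algebra.smul_def,
          (RingHom.mem_ker).mp ha', zero_mul, zero_tmul]
      rw [Ideal.toCotangent_eq_zero] at h2
      refine Submodule.mem_sup_right ?_
      rw [smul_eq_mul, ← pow_two]
      exact h2
  obtain ⟨x₀, hx₀, hle⟩ := key
  have hjac : I ≤ Ideal.jacobson ⊥ := by
    rw [hker]
    exact (IsLocalRing.jacobson_eq_maximalIdeal ⊥ bot_ne_top).ge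
  have h4 : I ≤ Ideal.span {x₀} :=
    Submodule.le_of_le_smul_of_le_jacobson_bot (IsNoetherian.noetherian I) hjac hle
  exact ⟨⟨x₀, le_antisymm h4 ((Ideal.span_singleton_le_iff_mem I).mpr hx₀)⟩⟩


theorem formallySmooth_and_exists_span_kaehler_of_isLocalization {K A P : Type*} [CommRing K] [CommRing A]
    [CommRing P] [Algebra K A] [Algebra A P] [Algebra K P] [IsScalarTower K A P] [Nontrivial A]
    [Algebra.IsStandardSmoothOfRelativeDimension 1 K A] (M : Submonoid A) [IsLocalization M P] :
    Algebra.FormallySmooth K P ∧ ∃ ω : Ω[P⁄K], Submodule.span P {ω} = ⊤ := by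
  have hstd : Algebra.IsStandardSmooth K A :=
    Algebra.IsStandardSmoothOfRelativeDimension.isStandardSmooth 1
  constructor
  · have : Algebra.FormallySmooth A P := Algebra.FormallySmooth.of_isLocalization M
    exact Algebra.FormallySmooth.comp K A P
  · have hrank : Module.rank A Ω[A⁄K] = 1 := by
      simpa using Algebra.IsStandardSmoothOfRelativeDimension.rank_kaehlerDifferential (R := K) (S := A) 1
    obtain ⟨ω₀, hω₀⟩ : ∃ ω₀ : Ω[A⁄K], Submodule.span A {ω₀} = ⊤ := by
      have b := Module.Free.chooseBasis A Ω[A⁄K]
      have hcard : Cardinal.mk (Module.Free.ChooseBasisIndex A Ω[A⁄K]) = 1 := by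
        rw [← hrank, Module.Free.rank_eq_card_chooseBasisIndex]
      obtain ⟨hsub, ⟨i⟩⟩ := Cardinal.eq_one_iff_unique.mp hcard
      have : Unique (Module.Free.ChooseBasisIndex A Ω[A⁄K]) := ⟨⟨i⟩, fun j => Subsingleton.elim _ _⟩
      exact ⟨b default, by rw [← Set.range_unique, b.span_eq]⟩
    refine ⟨map K K A P ω₀, ?_⟩
    have := span_eq_top_of_isLocalizedModule P M (map K K A P) (v := {ω₀}) hω₀
    rwa [Set.image_singleton] at this

end Algebra

section Scheme

variable {C : Scheme.{0}} (c : C ⟶ SpecC)

/-- The structure map `ℂ → 𝒪_{C,x}`. -/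
noncomputable def stalkHom {V : C.Opens} {x : C} (hxV : x ∈ V) :
    CommRingCat.of ℂ ⟶ C.presheaf.stalk x :=
  constHom c V ≫ C.presheaf.germ V x hxV

lemma SpecMap_stalkHom {V : C.Opens} {x : C} (hxV : x ∈ V) :
    Spec.map (stalkHom c hxV) = C.fromSpecStalk x ≫ c := by
  apply ext_of_isAffine
  rw [← cancel_mono (Scheme.ΓSpecIso _).hom, Scheme.ΓSpecIso_naturality, Scheme.Hom.comp_appTop,
    Scheme.fromSpecStalk_appTop, stalkHom, constHom]
  simp

lemma stalkHom_residue [LocallyOfFiniteType c] {V : C.Opens} {x : C} (hxV : x ∈ V)
    (hx : IsClosed {x}) : stalkHom c hxV ≫ C.residue x = (residueFieldIsoBase c x hx).inv := by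
  apply Spec.map_injective
  rw [Spec.map_comp, SpecMap_stalkHom, SpecMap_residueFieldIsoBase_inv]
  rfl

lemma exists_isStandardSmooth_constHom [SmoothOfRelativeDimension 1 c] (x : C) :
    ∃ (V : C.Opens) (_ : IsAffineOpen V) (_ : x ∈ V),
      (constHom c V).hom.IsStandardSmoothOfRelativeDimension 1 := by
  obtain ⟨U, hU, V, hV, hxV, e, h⟩ :=
    SmoothOfRelativeDimension.exists_isStandardSmoothOfRelativeDimension (n := 1) (f := c) x
  have hUtop : U = ⊤ := by
    ext y
    simp only [Opens.coe_top, Set.mem_univ, iff_true]
    have : c x ∈ U := e hxV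
    rwa [Subsingleton.elim y (c x)]
  subst hUtop
  refine ⟨V, hV, hxV, ?_⟩
  have h1 : constHom c V = (Scheme.ΓSpecIso _).inv ≫ c.appLE ⊤ V e := rfl
  rw [h1, CommRingCat.hom_comp]
  exact (RingHom.isStandardSmoothOfRelativeDimension_respectsIso.cancel_left_isIso _ _).mpr h

variable [IsLocallyNoetherian C] [SmoothOfRelativeDimension 1 c]

include c in
/-- At a closed point of a smooth curve over `ℂ` the maximal ideal of the local ring is principal. -/
theorem isPrincipal_maximalIdeal_stalk {x : C} (hx : IsClosed {x}) :
    (maximalIdeal (C.presheaf.stalk x)).IsPrincipal := by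
  obtain ⟨V, hV, hxV, hstd⟩ := exists_isStandardSmooth_constHom c x
  have : Smooth c := SmoothOfRelativeDimension.smooth 1 c
  let : Algebra ℂ Γ(C, V) := (constHom c V).hom.toAlgebra
  let : Algebra Γ(C, V) (C.presheaf.stalk x) := C.presheaf.algebra_section_stalk ⟨x, hxV⟩
  let : Algebra ℂ (C.presheaf.stalk x) := (stalkHom c hxV).hom.toAlgebra
  have : IsScalarTower ℂ Γ(C, V) (C.presheaf.stalk x) := IsScalarTower.of_algebraMap_eq' rfl
  have : Algebra.IsStandardSmoothOfRelativeDimension 1 ℂ Γ(C, V) := hstd
  have hloc := hV.isLocalization_stalk ⟨x, hxV⟩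
  have : Nonempty V := ⟨⟨x, hxV⟩⟩
  obtain ⟨hfs, hΩ⟩ := formallySmooth_and_exists_span_kaehler_of_isLocalization (K := ℂ)
    (A := Γ(C, V)) (P := C.presheaf.stalk x) (hV.primeIdealOf ⟨x, hxV⟩).asIdeal.primeCompl
  refine isPrincipal_maximalIdeal_of_formallySmooth (K := ℂ) ?_ hΩ
  have h1 := stalkHom_residue c hxV hx
  have h2 : Function.Bijective (residueFieldIsoBase c x hx).inv :=
    ConcreteCategory.bijective_of_isIso _
  rw [← h1] at h2
  exact h2

variable [IsIntegral C]

include c in
/-- The local ring of a smooth integral curve over `ℂ` at a closed point (other than the generic point) is a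
discrete valuation ring. -/
theorem isDiscreteValuationRing_stalk_of_isClosed {x : C} (hx : IsClosed {x})
    (hne : x ≠ genericPoint C) : IsDiscreteValuationRing (C.presheaf.stalk x) := by
  have h0 : genericPoint C ⤳ x := genericPoint_specializes x
  have hlt : x < genericPoint C :=
    lt_of_le_not_ge (Scheme.le_iff_specializes.2 h0)
      fun h => hne (h0.antisymm (Scheme.le_iff_specializes.1 h)).eq.symm
  have hnf : ¬ IsField (C.presheaf.stalk x) := by
    intro hf
    have h1 := ringKrullDim_stalk_eq_coheight x
    rw [ringKrullDim_eq_zero_of_isField hf] at h1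
    have h2 := Order.coheight_add_one_le hlt
    have h3 : Order.coheight x = 0 := by exact_mod_cast h1.symm
    rw [h3] at h2
    simp at h2
  exact ((IsDiscreteValuationRing.TFAE _ hnf).out 0 4).mpr (isPrincipal_maximalIdeal_stalk c hx)

include c in
/-- **The points of a smooth integral quasi-compact curve over `ℂ`**: every point other than the generic point is
closed, of codimension one, and its local ring is a discrete valuation ring. -/
theorem isClosed_and_coheight_eq_one_and_isDiscreteValuationRing [CompactSpace C] {x : C}
    (hne : x ≠ genericPoint C) :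
    IsClosed {x} ∧ Order.coheight x = 1 ∧ IsDiscreteValuationRing (C.presheaf.stalk x) := by
  obtain ⟨y, hy, hyc⟩ := IsClosed.exists_closed_singleton (isClosed_closure (s := {x}))
    ⟨x, subset_closure rfl⟩
  have hxy : x ⤳ y := specializes_iff_mem_closure.mpr hy
  have hyne : y ≠ genericPoint C := by
    rintro rfl
    exact hne (hxy.antisymm (genericPoint_specializes x)).eq
  have hdvr := isDiscreteValuationRing_stalk_of_isClosed c hyc hyne
  have hco : Order.coheight y = 1 := by
    have h1 := ringKrullDim_stalk_eq_coheight y
    rw [IsDiscreteValuationRing.ringKrullDim_eq_one] at h1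
    exact_mod_cast h1.symm
  have hxy' : x = y := by
    by_contra hcon
    have h0 : genericPoint C ⤳ x := genericPoint_specializes x
    have hlt1 : y < x :=
      lt_of_le_not_ge (Scheme.le_iff_specializes.2 hxy)
        fun h => hcon (hxy.antisymm (Scheme.le_iff_specializes.1 h)).eq
    have hlt2 : x < genericPoint C :=
      lt_of_le_not_ge (Scheme.le_iff_specializes.2 h0)
        fun h => hne (h0.antisymm (Scheme.le_iff_specializes.1 h)).eq.symm
    have h3 := Order.coheight_add_one_le hlt1
    have h4 := Order.coheight_add_one_le hlt2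
    rw [hco] at h3
    have h5 : (1 : ℕ∞) ≤ Order.coheight x := le_trans le_add_self h4
    have h6 : (1 : ℕ∞) + 1 ≤ 1 := (add_le_add_left h5 1).trans h3
    exact absurd h6 (by decide)
  subst hxy'
  exact ⟨hyc, hco, hdvr⟩

/-- **The curves over which `IsNef` quantifies**: every point other than the generic point is closed, of
codimension one, its local ring is a discrete valuation ring and its residue field is `ℂ`. -/
theorem curve_point_of_isProper [IsProper c] {x : C} (hne : x ≠ genericPoint C) :
    IsClosed {x} ∧ Order.coheight x = 1 ∧ IsDiscreteValuationRing (C.presheaf.stalk x) ∧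
      Nonempty (C.residueField x ≅ CommRingCat.of ℂ) := by
  have := compactSpace_of_isProper c
  obtain ⟨h1, h2, h3⟩ := isClosed_and_coheight_eq_one_and_isDiscreteValuationRing c hne
  exact ⟨h1, h2, h3, ⟨residueFieldIsoBase c x h1⟩⟩

/-- The divisor of a rational section is supported at closed points. -/
theorem isClosed_of_ordAt_ne_zero [IsProper c] {L : C.Modules} (hL : IsInvertible L) {U : C.Opens}
    [Nonempty U] (s : Γ(L, U)) {x : C} (hx : ordAt hL s x ≠ 0) : IsClosed {x} := by
  have hco : Order.coheight x = 1 := by
    by_contra h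
    exact hx (Scheme.ord_eq_zero_of_coheight_neq_one h _)
  refine (curve_point_of_isProper c ?_).1
  rintro rfl
  have h0 : Order.coheight (genericPoint C) = 0 :=
    Order.coheight_eq_zero.mpr fun b _ => Scheme.le_iff_specializes.2 (genericPoint_specializes b)
  rw [h0] at hco
  exact absurd hco (by decide)

end Scheme

end Claimed.Open.R067
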