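import Claimed.Open.R067.Statement

/-!
# Sanity for R067, group side: general facts on `Points G`
-/

namespace Claimed.Open.R067

open AlgebraicGeometry CategoryTheory Opposite TopologicalSpace
open MonoidalCategory CartesianMonoidalCategory
open scoped MonObj

noncomputable section

variable {G : Over SpecC}

lemma Points.left_comp_hom (g : Points G) : g.left ≫ G.hom = 𝟙 SpecC := by
  simp

/-- The `ℂ`-point attached to a section of the structure morphism. -/
def Points.mk (p : SpecC ⟶ G.left) (hp : p ≫ G.hom = 𝟙 _) : Points G :=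
  Over.homMk p (by simpa using hp)

@[simp] lemma Points.mk_left (p : SpecC ⟶ G.left) (hp : p ≫ G.hom = 𝟙 _) :
    (Points.mk p hp).left = p := rfl

lemma Points.toPoint_comp {H : Over SpecC} (g : Points G) (f : G ⟶ H) :
    Points.toPoint H (g ≫ f) = f.left (Points.toPoint G g) := by
  simp only [Points.toPoint, Over.comp_left]
  exact Scheme.Hom.comp_apply _ _ _

section FiniteType

variable [LocallyOfFiniteType G.hom]

lemma Points.isClosed_toPoint (g : Points G) : IsClosed {Points.toPoint G g} :=
  (pointEquivClosedPoint G.hom ⟨g.left, g.left_comp_hom⟩).2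

lemma Points.toPoint_injective : Function.Injective (Points.toPoint G) := by
  intro g g' h
  ext1
  exact ext_of_apply_closedPoint_eq G.hom g.left_comp_hom g'.left_comp_hom h

lemma Points.exists_toPoint_eq (x : G.left) (hx : IsClosed {x}) :
    ∃ g : Points G, Points.toPoint G g = x :=
  ⟨Points.mk (pointOfClosedPoint G.hom x hx) (pointOfClosedPoint_comp _ _ _),
    pointOfClosedPoint_apply _ _ _ _⟩

instance instT1SpacePoints : T1Space (Points G) where
  t1 g := by
    have : ({g} : Set (Points G)) = Points.toPoint G ⁻¹' {Points.toPoint G g} := by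
      ext g'
      simp [Points.toPoint_injective.eq_iff]
    rw [this]
    exact (Points.isClosed_toPoint g).preimage continuous_induced_dom

end FiniteType

/-! ### Morphisms out of a reduced variety are determined by their values on `ℂ`-points -/

section Ext

variable {T Z : Scheme.{0}} (τ : T ⟶ SpecC) [LocallyOfFiniteType τ] [IsReduced T]

include τ in
/-- Separated target. -/
lemma hom_ext_of_points_of_isSeparated [Z.IsSeparated] (f g : T ⟶ Z)
    (H : ∀ t : SpecC ⟶ T, t ≫ τ = 𝟙 _ → t ≫ f = t ≫ g) : f = g := by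
  have : JacobsonSpace T := LocallyOfFiniteType.jacobsonSpace τ
  refine ext_of_fromSpecResidueField_eq f g (Limits.terminal.from Z) (closedPoints T)
    (by rw [dense_iff_closure_eq, closure_closedPoints]) ?_ (Limits.terminal.hom_ext _ _)
  intro x hx
  rw [← cancel_epi (Spec.map (residueFieldIsoBase τ x hx).hom)]
  exact H (pointOfClosedPoint τ x hx) (pointOfClosedPoint_comp τ x hx)

include τ in
/-- Arbitrary target. -/
lemma hom_ext_of_points (f g : T ⟶ Z)
    (H : ∀ t : SpecC ⟶ T, t ≫ τ = 𝟙 _ → t ≫ f = t ≫ g) : f = g := by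
  have : JacobsonSpace T := LocallyOfFiniteType.jacobsonSpace τ
  have key : ∀ x : T, IsClosed {x} → ∃ U : T.Opens, x ∈ U ∧ U.ι ≫ f = U.ι ≫ g := by
    intro x hx
    have hfg : f x = g x := by
      have h1 := H (pointOfClosedPoint τ x hx) (pointOfClosedPoint_comp τ x hx)
      obtain ⟨pt⟩ : Nonempty SpecC := ⟨IsLocalRing.closedPoint ℂ⟩
      have h2 : (pointOfClosedPoint τ x hx ≫ f) pt = (pointOfClosedPoint τ x hx ≫ g) pt := by
        rw [h1]
      rwa [Scheme.Hom.comp_apply, Scheme.Hom.comp_apply, pointOfClosedPoint_apply] at h2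
    obtain ⟨W, hW, hxW, -⟩ := exists_isAffineOpen_mem_and_subset (x := f x) (U := ⊤) trivial
    let U : T.Opens := f ⁻¹ᵁ W ⊓ g ⁻¹ᵁ W
    have hxU : x ∈ U := ⟨hxW, by change g x ∈ W; rw [← hfg]; exact hxW⟩
    refine ⟨U, hxU, ?_⟩
    have hf : Set.range (U.ι ≫ f) ⊆ Set.range W.ι := by
      rintro _ ⟨y, rfl⟩
      rw [Scheme.Hom.comp_apply, Scheme.Opens.range_ι]
      exact y.2.1
    have hg : Set.range (U.ι ≫ g) ⊆ Set.range W.ι := by
      rintro _ ⟨y, rfl⟩
      rw [Scheme.Hom.comp_apply, Scheme.Opens.range_ι]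
      exact y.2.2
    have : IsAffine W.toScheme := hW
    have hlift : IsOpenImmersion.lift W.ι (U.ι ≫ f) hf = IsOpenImmersion.lift W.ι (U.ι ≫ g) hg := by
      refine hom_ext_of_points_of_isSeparated (U.ι ≫ τ) _ _ fun t ht => ?_
      rw [← cancel_mono W.ι]
      simp only [Category.assoc, IsOpenImmersion.lift_fac]
      simpa using H (t ≫ U.ι) (by simpa using ht)
    rw [← IsOpenImmersion.lift_fac W.ι (U.ι ≫ f) hf, hlift, IsOpenImmersion.lift_fac]
  refine Scheme.hom_ext_of_forall f g fun x => ?_
  by_contra hx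
  push Not at hx
  let V : T.Opens := sSup {U | U.ι ≫ f = U.ι ≫ g}
  have hxV : x ∉ V := by
    intro h
    obtain ⟨U, hU, hxU⟩ := TopologicalSpace.Opens.mem_sSup.mp h
    exact hx U hxU hU
  obtain ⟨y, hyV, hy⟩ := nonempty_inter_closedPoints (Z := (V : Set T)ᶜ) ⟨x, hxV⟩
    V.isOpen.isClosed_compl.isLocallyClosed
  obtain ⟨U, hyU, hU⟩ := key y hy
  exact hyV (TopologicalSpace.Opens.mem_sSup.mpr ⟨U, hU, hyU⟩)

end Ext

/-! ### Right translations -/

lemma Points.comp_mulRight [GrpObj G] (g p : Points G) :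
    g ≫ (GrpObj.mulRight p).hom = g * p := by
  rw [GrpObj.mulRight_hom, Hom.mul_def, comp_lift_assoc, Category.comp_id,
    ← Category.assoc, toUnit_unique (g ≫ toUnit G) (𝟙 _), Category.id_comp]

end

end Claimed.Open.R067
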