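import Claimed.Open.R067.SanityDegree

/-!
# Sanity for `Scheme.ord`: units and uniformisers

General lemmas to compute the order of vanishing of a rational function at a point of an integral
locally noetherian scheme.
-/

open AlgebraicGeometry CategoryTheory Opposite TopologicalSpace

universe u

namespace Claimed.Open.R067

variable {X : Scheme.{u}} [IsIntegral X] [IsLocallyNoetherian X]

lemma ord_one (x : X) : Scheme.ord (1 : X.functionField) x = 0 := by
  have : Nonempty (⊤ : X.Opens) := ⟨⟨x, trivial⟩⟩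
  have := Scheme.ord_of_isUnit (X := X) (U := ⊤) (f := 1) isUnit_one (x := x) trivial
  rwa [map_one] at this

lemma ord_inv {f : X.functionField} (hf : f ≠ 0) (x : X) :
    Scheme.ord f⁻¹ x = - Scheme.ord f x := by
  have h := Scheme.ord_mul (x := x) hf (inv_ne_zero hf)
  rw [mul_inv_cancel₀ hf, ord_one] at h
  linarith

omit [IsLocallyNoetherian X] in
lemma germK_ne_zero {U : X.Opens} [Nonempty U] {g : Γ(X, U)} (hg : g ≠ 0) :
    X.germToFunctionField U g ≠ 0 := by
  intro h
  rw [← map_zero (X.germToFunctionField U).hom] at h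
  exact hg (X.germToFunctionField_injective U h)

/-- A regular function has order `0` at the points where it does not vanish. -/
lemma ord_germ_of_mem_basicOpen {U : X.Opens} [Nonempty U] (g : Γ(X, U)) {x : X}
    (hx : x ∈ X.basicOpen g) : Scheme.ord (X.germToFunctionField U g) x = 0 := by
  have : Nonempty (X.basicOpen g) := ⟨⟨x, hx⟩⟩
  rw [← germ_resO (X.basicOpen_le g) g]
  have hu : IsUnit (resO (X.basicOpen_le g) g) := X.toRingedSpace.isUnit_res_basicOpen g
  exact Scheme.ord_of_isUnit hu hx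

/-- If `g` generates a maximal ideal of the ring of functions of an affine open `U`, then at a point of `U`
where `g` vanishes the local ring is a discrete valuation ring with uniformiser `g`. -/
lemma stalk_dvr_of_span_isMaximal {U : X.Opens} (hU : IsAffineOpen U) (g : Γ(X, U)) (hg0 : g ≠ 0)
    (hg : (Ideal.span {g}).IsMaximal) {x : X} (hxU : x ∈ U) (hx : x ∉ X.basicOpen g) :
    IsDiscreteValuationRing (X.presheaf.stalk x) ∧ Irreducible (X.presheaf.germ U x hxU g) ∧
      (hU.primeIdealOf ⟨x, hxU⟩).asIdeal = Ideal.span {g} := by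
  let := X.presheaf.algebra_section_stalk ⟨x, hxU⟩
  have hloc := hU.isLocalization_stalk ⟨x, hxU⟩
  have hnu : ¬ IsUnit (X.presheaf.germ U x hxU g) := fun h =>
    hx ((Scheme.mem_basicOpen X g x hxU).mpr h)
  have hgP : g ∈ (hU.primeIdealOf ⟨x, hxU⟩).asIdeal := by
    by_contra hcon
    exact hnu ((IsLocalization.AtPrime.isUnit_to_map_iff (X.presheaf.stalk x)
      (hU.primeIdealOf ⟨x, hxU⟩).asIdeal g).mpr hcon)
  have hP : (hU.primeIdealOf ⟨x, hxU⟩).asIdeal = Ideal.span {g} :=
    (hg.eq_of_le (hU.primeIdealOf ⟨x, hxU⟩).isPrime.ne_top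
      ((Ideal.span_singleton_le_iff_mem _).mpr hgP)).symm
  have hmax : IsLocalRing.maximalIdeal (X.presheaf.stalk x) =
      Ideal.span {X.presheaf.germ U x hxU g} := by
    rw [← IsLocalization.AtPrime.map_eq_maximalIdeal (hU.primeIdealOf ⟨x, hxU⟩).asIdeal
      (X.presheaf.stalk x), hP, Ideal.map_span, Set.image_singleton]
    rfl
  have hne : X.presheaf.germ U x hxU g ≠ 0 := by
    intro h
    rw [← map_zero (X.presheaf.germ U x hxU).hom] at h
    exact hg0 (germ_injective_of_isIntegral X x hxU h)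
  have hnf : ¬ IsField (X.presheaf.stalk x) := by
    intro hf
    obtain ⟨b, hb⟩ := hf.mul_inv_cancel hne
    exact hnu (IsUnit.of_mul_eq_one b hb)
  have hdvr : IsDiscreteValuationRing (X.presheaf.stalk x) :=
    ((IsDiscreteValuationRing.TFAE (X.presheaf.stalk x) hnf).out 0 4).mpr
      (⟨⟨_, hmax⟩⟩ : (IsLocalRing.maximalIdeal (X.presheaf.stalk x)).IsPrincipal)
  exact ⟨hdvr, (IsDiscreteValuationRing.irreducible_iff_uniformizer _).mpr hmax, hP⟩

/-- ... and `g` has order `1` there. -/
lemma ord_germ_of_span_isMaximal {U : X.Opens} (hU : IsAffineOpen U) [Nonempty U] (g : Γ(X, U))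
    (hg0 : g ≠ 0) (hg : (Ideal.span {g}).IsMaximal) {x : X} (hxU : x ∈ U)
    (hx : x ∉ X.basicOpen g) : Scheme.ord (X.germToFunctionField U g) x = 1 := by
  obtain ⟨hdvr, hirr, -⟩ := stalk_dvr_of_span_isMaximal hU g hg0 hg hxU hx
  have hco : Order.coheight x = 1 := by
    have h1 := ringKrullDim_stalk_eq_coheight x
    rw [IsDiscreteValuationRing.ringKrullDim_eq_one] at h1
    exact_mod_cast h1.symm
  rw [Scheme.ord_eq_iff hco (germK_ne_zero hg0),
    ← Scheme.algebraMap_germ_eq_germToFunctionField X hxU g]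
  exact Ring.ordFrac_irreducible hirr

/-- ... and there is only one such point. -/
lemma eq_of_span_isMaximal {U : X.Opens} (hU : IsAffineOpen U) (g : Γ(X, U))
    (hg0 : g ≠ 0) (hg : (Ideal.span {g}).IsMaximal) {x y : X} (hxU : x ∈ U)
    (hx : x ∉ X.basicOpen g) (hyU : y ∈ U) (hy : y ∉ X.basicOpen g) : x = y := by
  obtain ⟨-, -, h1⟩ := stalk_dvr_of_span_isMaximal hU g hg0 hg hxU hx
  obtain ⟨-, -, h2⟩ := stalk_dvr_of_span_isMaximal hU g hg0 hg hyU hy
  have h3 : hU.primeIdealOf ⟨x, hxU⟩ = hU.primeIdealOf ⟨y, hyU⟩ :=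
    PrimeSpectrum.ext (h1.trans h2.symm)
  have h4 := congrArg hU.fromSpec h3
  rwa [hU.fromSpec_primeIdealOf, hU.fromSpec_primeIdealOf] at h4

end Claimed.Open.R067
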