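import Claimed.Open.R067.SanityProjDer
import Claimed.Open.R067.SanityNef

/-!
# `ℙ^N` is a Fano variety with nef tangent bundle

With the vector fields `x_i ∂/∂x_j` on `ℙ^N = projSpace N` we check, for the definitions of `Statement.lean`:

* `locallyGenerates_dCoord` : on the chart `U_k = D₊(x_k)`, `Ω` is generated by the `d(x_l/x_k)`, `l ≠ k`;
* `isInvertible_anticanonicalSheaf`, `nonvanishingLocus_antiSection`, `isAmple_anticanonicalSheaf` :
  `ω⁻¹ = 𝓗om(⋀^N Ω, 𝒪)` is invertible; its section `⋀_{j ≠ k} x_k ∂/∂x_j` (`= ± x_k^{N+1}` in `𝒪(N+1)`) generates it exactly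
  on `U_k`; hence `ω⁻¹` is ample;
* `isGloballyGenerated_tangentSheaf`, `isNef_tangentSheaf` : `T` is globally generated, hence nef;
* `projSpace_six_hypotheses` : `ℙ⁶` satisfies all five hypotheses of `Statement`.
-/

open AlgebraicGeometry CategoryTheory Opposite TopologicalSpace MvPolynomial HomogeneousLocalization

namespace Claimed.Open.R067

attribute [local instance] MvPolynomial.gradedAlgebra

variable (N : ℕ)

/-- The derivation `x_i ∂/∂x_j` of `ℂ[x_0, …, x_N]`. -/
noncomputable def eulerDer (i j : Fin (N + 1)) :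
    @Derivation ℤ (MvPolynomial (Fin (N + 1)) ℂ) (MvPolynomial (Fin (N + 1)) ℂ) _ _ _
      (Ring.toIntAlgebra _) _ _ where
  toFun p := X i * pderiv j p
  map_add' p q := by rw [map_add, mul_add]
  map_smul' n p := by
    rw [map_zsmul, mul_smul_comm]
    rfl
  map_one_eq_zero' := by
    change X i * pderiv j 1 = 0
    rw [pderiv_one, mul_zero]
  leibniz' p q := by
    change X i * pderiv j (p * q) = p * (X i * pderiv j q) + q * (X i * pderiv j p)
    rw [pderiv_mul]
    ring

lemma eulerDer_apply (i j : Fin (N + 1)) (p : MvPolynomial (Fin (N + 1)) ℂ) :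
    eulerDer N i j p = X i * pderiv j p := rfl

lemma eulerDer_X (i j l : Fin (N + 1)) :
    eulerDer N i j (X l) = if j = l then X i else 0 := by
  rw [eulerDer_apply, pderiv_X]
  by_cases h : j = l
  · subst h; simp
  · simp [h, Ne.symm h]

lemma eulerDer_C (i j : Fin (N + 1)) (c : ℂ) : eulerDer N i j (C c) = 0 := by
  rw [eulerDer_apply, pderiv_C, mul_zero]

lemma eulerDer_mem (i j : Fin (N + 1)) (n : ℕ) (a : MvPolynomial (Fin (N + 1)) ℂ)
    (ha : a ∈ homogeneousSubmodule (Fin (N + 1)) ℂ n) :
    eulerDer N i j a ∈ homogeneousSubmodule (Fin (N + 1)) ℂ n := by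
  rw [mem_homogeneousSubmodule] at ha ⊢
  rw [eulerDer_apply]
  cases n with
  | zero =>
    rw [← totalDegree_zero_iff_isHomogeneous, totalDegree_eq_zero_iff_eq_C] at ha
    rw [ha, pderiv_C, mul_zero]
    apply isHomogeneous_zero
  | succ m =>
    have := (isHomogeneous_X ℂ i).mul (ha.pderiv (i := j))
    rw [Nat.add_sub_cancel] at this
    exact (add_comm 1 m) ▸ this

/-- The vector field `x_i ∂/∂x_j` on `ℙ^N`. -/
noncomputable def eulerField (i j : Fin (N + 1)) : SheafDer (projSpaceHom N) :=
  projSheafDer (algebraMap ℂ (homogeneousSubmodule (Fin (N + 1)) ℂ 0)) (eulerDer N i j)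
    (eulerDer_mem N i j) (fun c => eulerDer_C N i j c)

/-- The standard chart `U_k = D₊(x_k)` of `ℙ^N`. -/
noncomputable def stdOpen (k : Fin (N + 1)) : (projSpace N).Opens :=
  Proj.basicOpen (homogeneousSubmodule (Fin (N + 1)) ℂ) (X k)

/-- The map `ℂ[x]_{(x_k)} → 𝒪(U_k)`. -/
noncomputable def toStdOpen (k : Fin (N + 1)) :
    Away (homogeneousSubmodule (Fin (N + 1)) ℂ) (X k : MvPolynomial (Fin (N + 1)) ℂ) →+*
      Γ(projSpace N, stdOpen N k) :=
  (Proj.awayToSection (homogeneousSubmodule (Fin (N + 1)) ℂ) (X k)).hom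

/-- The coordinate function `x_l / x_k` on `U_k`. -/
noncomputable def coord (k l : Fin (N + 1)) : Γ(projSpace N, stdOpen N k) :=
  toStdOpen N k (awayFrac ℂ k l)

lemma toStdOpen_bijective (k : Fin (N + 1)) : Function.Bijective (toStdOpen N k) :=
  ConcreteCategory.bijective_of_isIso
    (Proj.basicOpenIsoAway (homogeneousSubmodule (Fin (N + 1)) ℂ) (X k)
      (X_mem_deg_one ℂ k) one_pos).hom

lemma isAffineOpen_stdOpen (k : Fin (N + 1)) : IsAffineOpen (stdOpen N k) :=
  Proj.isAffineOpen_basicOpen (homogeneousSubmodule (Fin (N + 1)) ℂ) (X k)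
    (X_mem_deg_one ℂ k) one_pos

lemma iSup_stdOpen : ⨆ k, stdOpen N k = ⊤ :=
  Proj.iSup_basicOpen_eq_top (homogeneousSubmodule (Fin (N + 1)) ℂ) _ (irrelevant_le_span_X N)

lemma eulerField_toStdOpen (i j k : Fin (N + 1))
    (z : Away (homogeneousSubmodule (Fin (N + 1)) ℂ) (X k : MvPolynomial (Fin (N + 1)) ℂ)) :
    (eulerField N i j).d (stdOpen N k) (toStdOpen N k z) =
      toStdOpen N k (homLocDer (eulerDer N i j) (eulerDer_mem N i j) _ z) :=
  projSheafDer_awayToSection _ _ _ _ _ z

lemma constHom_stdOpen (k : Fin (N + 1)) (c : ℂ) :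
    (constHom (projSpaceHom N) (stdOpen N k)).hom c = toStdOpen N k (awayC ℂ k c) := by
  apply AlgebraicGeometry.Proj.ext
  funext x
  exact constHom_toSpecZero_apply _ _ _ c x

lemma homLocDer_eulerDer_awayFrac (i j k l : Fin (N + 1)) :
    homLocDer (eulerDer N i j) (eulerDer_mem N i j) _ (awayFrac ℂ k l) =
      (if j = l then awayFrac ℂ k i else 0) -
        (if j = k then awayFrac ℂ k l * awayFrac ℂ k i else 0) := by
  apply val_injective
  apply (isUnit_algebraMap_X ℂ k).mul_right_cancel
  rw [val_homLocDer]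
  have h1 := congrArg (locDer _ (eulerDer N i j)) (val_awayFrac_mul ℂ k l)
  rw [locDer_mul, locDer_algebraMap, locDer_algebraMap, eulerDer_X, eulerDer_X] at h1
  have hi := val_awayFrac_mul ℂ k i
  by_cases hl : j = l <;> by_cases hk : j = k
  · simp only [if_pos hl, if_pos hk, val_sub, val_mul] at h1 ⊢
    linear_combination h1 - (1 - (awayFrac ℂ k l).val) * hi
  · simp only [if_pos hl, if_neg hk, val_sub, val_zero, map_zero] at h1 ⊢
    linear_combination h1 - hi
  · simp only [if_neg hl, if_pos hk, val_sub, val_mul, val_zero, map_zero] at h1 ⊢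
    linear_combination h1 + (awayFrac ℂ k l).val * hi
  · simp only [if_neg hl, if_neg hk, val_sub, val_zero, map_zero] at h1 ⊢
    linear_combination h1

lemma eulerField_coord (i j k l : Fin (N + 1)) :
    (eulerField N i j).d (stdOpen N k) (coord N k l) =
      (if j = l then coord N k i else 0) - (if j = k then coord N k l * coord N k i else 0) := by
  rw [coord, eulerField_toStdOpen, homLocDer_eulerDer_awayFrac, map_sub]
  congr 1
  · split_ifs
    · rfl
    · exact map_zero _
  · split_ifs
    · exact map_mul _ _ _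
    · exact map_zero _

lemma coord_self (k : Fin (N + 1)) : coord N k k = 1 := by
  rw [coord, awayFrac_self, map_one]

/-- The affine coordinates `x_l / x_k`, `l ≠ k`, on `U_k`. -/
noncomputable def affCoord (k : Fin (N + 1)) (a : Fin N) : Γ(projSpace N, stdOpen N k) :=
  coord N k (k.succAbove a)

lemma genSubring_affCoord (k : Fin (N + 1)) :
    genSubring (projSpaceHom N) (affCoord N k) = ⊤ := by
  rw [eq_top_iff]
  intro g _
  obtain ⟨z, rfl⟩ := (toStdOpen_bijective N k).2 g
  induction z using away_induction with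
  | hC c =>
    rw [← constHom_stdOpen]
    exact Subring.subset_closure (Or.inl ⟨c, rfl⟩)
  | hX j hj =>
    obtain ⟨a, rfl⟩ := Fin.exists_succAbove_eq hj
    exact Subring.subset_closure (Or.inr ⟨a, rfl⟩)
  | hadd x y hx hy => rw [map_add]; exact add_mem (hx trivial) (hy trivial)
  | hmul x y hx hy => rw [map_mul]; exact mul_mem (hx trivial) (hy trivial)

/-- The differentials `d(x_l / x_k)`, `l ≠ k`, on `U_k`. -/
noncomputable def dCoord (k : Fin (N + 1)) (a : Fin N) :
    Γ(cotangentSheaf (projSpaceHom N), stdOpen N k) :=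
  dSheaf (projSpaceHom N) (affCoord N k a)

/-- `Ω_{ℙ^N}` is generated on `U_k` by the `N` differentials `d(x_l / x_k)`. -/
lemma locallyGenerates_dCoord (k : Fin (N + 1)) :
    LocallyGenerates (cotangentSheaf (projSpaceHom N)) (stdOpen N k) (dCoord N k) :=
  locallyGenerates_dSheaf (projSpaceHom N) (isAffineOpen_stdOpen N k) (affCoord N k)
    (genSubring_affCoord N k)

/-- The linear form on `Ω_{ℙ^N}` given by the vector field `x_i ∂/∂x_j`. -/
noncomputable def eulerHom (i j : Fin (N + 1)) :
    cotangentSheaf (projSpaceHom N) ⟶ structureSheaf (projSpace N) :=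
  (eulerField N i j).toHom

lemma appLin_eulerHom_dCoord (i j k : Fin (N + 1)) (a : Fin N) :
    appLin (eulerHom N i j) (stdOpen N k) (dCoord N k a) =
      coord N k i * ((if j = k.succAbove a then 1 else 0) -
        (if j = k then coord N k (k.succAbove a) else 0)) := by
  rw [eulerHom, dCoord, SheafDer.appLin_toHom, affCoord, eulerField_coord]
  split_ifs <;> ring

lemma appLin_eulerHom_dCoord_self (k : Fin (N + 1)) (a b : Fin N) :
    appLin (eulerHom N k (k.succAbove b)) (stdOpen N k) (dCoord N k a) =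
      if a = b then 1 else 0 := by
  rw [appLin_eulerHom_dCoord, coord_self, if_neg (Fin.succAbove_ne k b), sub_zero, one_mul]
  by_cases h : a = b
  · subst h; simp
  · rw [if_neg h, if_neg]
    intro h'
    exact h (Fin.succAbove_right_injective h').symm

/-! ### The anticanonical sheaf -/

/-- The global section `⋀_{j ≠ k} x_k ∂/∂x_j` of `ω⁻¹`; up to sign it is `x_k^{N+1} ∈ 𝒪(N+1)`. -/
noncomputable def antiSection (k : Fin (N + 1)) :
    Γ(anticanonicalSheaf (projSpaceHom N) N, ⊤) :=
  wedge (fun b : Fin N => eulerHom N k (k.succAbove b)) ⊤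

lemma evO_antiSection (k m : Fin (N + 1)) :
    evO (antiSection N k) (stdOpen N m) le_top (dCoord N m) =
      Matrix.det (Matrix.of fun a b =>
        appLin (eulerHom N k (k.succAbove b)) (stdOpen N m) (dCoord N m a)) :=
  evO_wedge _ _ _ _ _

lemma evO_antiSection_self (k : Fin (N + 1)) :
    evO (antiSection N k) (stdOpen N k) le_top (dCoord N k) = 1 := by
  rw [evO_antiSection]
  have : (Matrix.of fun a b =>
      appLin (eulerHom N k (k.succAbove b)) (stdOpen N k) (dCoord N k a)) =
      (1 : Matrix (Fin N) (Fin N) Γ(projSpace N, stdOpen N k)) := by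
    ext a b
    rw [Matrix.of_apply, appLin_eulerHom_dCoord_self, Matrix.one_apply]
  rw [this, Matrix.det_one]

lemma evO_antiSection_eq (k m : Fin (N + 1)) :
    ∃ c : Γ(projSpace N, stdOpen N m),
      evO (antiSection N k) (stdOpen N m) le_top (dCoord N m) = coord N m k ^ N * c := by
  rw [evO_antiSection]
  have : (Matrix.of fun a b =>
      appLin (eulerHom N k (k.succAbove b)) (stdOpen N m) (dCoord N m a)) =
      coord N m k • (Matrix.of fun a b : Fin N =>
        ((if k.succAbove b = m.succAbove a then 1 else 0) -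
        (if k.succAbove b = m then coord N m (m.succAbove a) else 0) :
          Γ(projSpace N, stdOpen N m))) := by
    ext a b
    rw [Matrix.of_apply, appLin_eulerHom_dCoord, Matrix.smul_apply, Matrix.of_apply, smul_eq_mul]
  rw [this, Matrix.det_smul, Fintype.card_fin]
  exact ⟨_, rfl⟩

/-- On `U_k` the section `antiSection k` is a frame of `ω⁻¹`. -/
lemma isFrame_antiSection (k : Fin (N + 1)) :
    IsFrame (anticanonicalSheaf (projSpaceHom N) N) (stdOpen N k)
      (res (anticanonicalSheaf (projSpaceHom N) N) le_top (antiSection N k)) :=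
  isFrame_of_locallyGenerates (locallyGenerates_dCoord N k) _ (evO_antiSection_self N k)

lemma exists_mem_stdOpen (x : projSpace N) : ∃ k, x ∈ stdOpen N k := by
  have : x ∈ ⨆ k, stdOpen N k := by rw [iSup_stdOpen]; trivial
  exact Opens.mem_iSup.mp this

/-- **`ω⁻¹` of `ℙ^N` is an invertible sheaf.** -/
theorem isInvertible_anticanonicalSheaf :
    IsInvertible (anticanonicalSheaf (projSpaceHom N) N) := by
  intro x
  obtain ⟨k, hk⟩ := exists_mem_stdOpen N x
  exact ⟨stdOpen N k, _, hk, isFrame_antiSection N k⟩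

lemma mem_stdOpen_of_isUnit (m k : Fin (N + 1)) {W : (projSpace N).Opens} (hW : W ≤ stdOpen N m)
    (x : projSpace N) (hx : x ∈ W) (h : IsUnit (resO hW (coord N m k))) : x ∈ stdOpen N k := by
  obtain ⟨b, hb⟩ := h.exists_right_inv
  have h1 : (resO hW (coord N m k)).1 ⟨x, hx⟩ * b.1 ⟨x, hx⟩ = 1 :=
    congrArg (fun s : Γ(projSpace N, W) => s.1 ⟨x, hx⟩) hb
  have h2 := congrArg HomogeneousLocalization.val h1
  rw [val_mul, val_one] at h2
  have hprime : x.asHomogeneousIdeal.toIdeal.IsPrime := x.isPrime
  have hxm : (X m : MvPolynomial (Fin (N + 1)) ℂ) ^ 1 ∈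
      x.asHomogeneousIdeal.toIdeal.primeCompl := by
    rw [pow_one]
    exact (Proj.mem_basicOpen _ _ x).mp (hW hx)
  have h3 : ((resO hW (coord N m k)).1 ⟨x, hx⟩).val = Localization.mk (X k) ⟨X m ^ 1, hxm⟩ := rfl
  rw [h3, Localization.mk_eq_mk'] at h2
  have h4 := (IsLocalization.AtPrime.isUnit_mk'_iff
    (Localization.AtPrime x.asHomogeneousIdeal.toIdeal) x.asHomogeneousIdeal.toIdeal (X k)
    ⟨X m ^ 1, hxm⟩).mp (IsUnit.of_mul_eq_one _ h2)
  exact (Proj.mem_basicOpen _ _ x).mpr h4

/-- The locus where `antiSection k` generates `ω⁻¹` is exactly the chart `U_k = {x_k ≠ 0}`. -/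
theorem nonvanishingLocus_antiSection (k : Fin (N + 1)) :
    nonvanishingLocus (anticanonicalSheaf (projSpaceHom N) N) (antiSection N k) = stdOpen N k := by
  apply le_antisymm
  · apply sSup_le
    intro V hV x hx
    obtain ⟨m, hm⟩ := exists_mem_stdOpen N x
    by_cases hkm : k = m
    · rw [hkm]; exact hm
    have hN : N ≠ 0 := by
      rintro rfl
      exact hkm (@Subsingleton.elim (Fin 1) _ k m)
    obtain ⟨a, ha, -⟩ := hV (V ⊓ stdOpen N m) inf_le_left
      (res (anticanonicalSheaf (projSpaceHom N) N) le_top (antiSection N m))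
    rw [res_res] at ha
    have h1 : resO le_rfl a * evO (antiSection N k) (V ⊓ stdOpen N m) le_top
        (fun b => res (cotangentSheaf (projSpaceHom N)) inf_le_right (dCoord N m b)) =
        evO (antiSection N m) (V ⊓ stdOpen N m) le_top
        (fun b => res (cotangentSheaf (projSpaceHom N)) inf_le_right (dCoord N m b)) :=
      congrArg (fun s => evO s (V ⊓ stdOpen N m) le_rfl
        (fun b => res (cotangentSheaf (projSpaceHom N)) inf_le_right (dCoord N m b))) ha
    rw [resO_self] at h1
    have h2 := resO_evO (antiSection N k) (le_top : stdOpen N m ≤ ⊤)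
      (inf_le_right : V ⊓ stdOpen N m ≤ stdOpen N m) (dCoord N m)
    have h3 := resO_evO (antiSection N m) (le_top : stdOpen N m ≤ ⊤)
      (inf_le_right : V ⊓ stdOpen N m ≤ stdOpen N m) (dCoord N m)
    obtain ⟨c, hc⟩ := evO_antiSection_eq N k m
    rw [evO_antiSection_self, map_one] at h3
    rw [hc, map_mul, map_pow] at h2
    have h4 : a * (resO inf_le_right (coord N m k) ^ N * resO inf_le_right c) = 1 := by
      rw [h2, h3]
      exact h1
    have h5 : IsUnit (resO (inf_le_right : V ⊓ stdOpen N m ≤ stdOpen N m) (coord N m k) ^ N) := by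
      apply IsUnit.of_mul_eq_one (a * resO inf_le_right c)
      rw [← h4]; ring
    exact mem_stdOpen_of_isUnit N m k inf_le_right x ⟨hx, hm⟩ ((isUnit_pow_iff hN).mp h5)
  · exact le_sSup (isFrame_antiSection N k)

/-- **The anticanonical sheaf of `ℙ^N` is ample**: `ℙ^N` is a Fano variety. -/
theorem isAmple_anticanonicalSheaf : IsAmple (anticanonicalSheaf (projSpaceHom N) N) := by
  refine ⟨isInvertible_anticanonicalSheaf N, projSpace_compactSpace N, fun x => ?_⟩
  obtain ⟨k, hk⟩ := exists_mem_stdOpen N x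
  refine ⟨1, le_rfl, antiSection N k, ?_, ?_⟩
  · change x ∈ nonvanishingLocus (anticanonicalSheaf (projSpaceHom N) N) (antiSection N k)
    rw [nonvanishingLocus_antiSection]; exact hk
  · change IsAffineOpen
      (nonvanishingLocus (anticanonicalSheaf (projSpaceHom N) N) (antiSection N k))
    rw [nonvanishingLocus_antiSection]; exact isAffineOpen_stdOpen N k

/-! ### The tangent sheaf -/

/-- The vector field `x_i ∂/∂x_j` as a global section of the tangent sheaf. -/
noncomputable def tangentSection (i j : Fin (N + 1)) : Γ(tangentSheaf (projSpaceHom N), ⊤) :=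
  wedge (fun _ : Fin 1 => eulerHom N i j) ⊤

lemma evO_tangentSection (i j : Fin (N + 1)) (V : (projSpace N).Opens)
    (ω : Γ(cotangentSheaf (projSpaceHom N), V)) :
    evO (tangentSection N i j) V le_top (fun _ => ω) = appLin (eulerHom N i j) V ω := by
  rw [tangentSection, evO_wedge, Matrix.det_fin_one, Matrix.of_apply]

/-- **The tangent sheaf of `ℙ^N` is generated by its global sections** `x_i ∂/∂x_j`. -/
theorem isGloballyGenerated_tangentSheaf :
    IsGloballyGenerated (tangentSheaf (projSpaceHom N)) := by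
  intro U t x hx
  obtain ⟨k, hk⟩ := exists_mem_stdOpen N x
  refine ⟨U ⊓ stdOpen N k, inf_le_left, ⟨hx, hk⟩, ?_⟩
  have h := eq_sum_of_locallyGenerates (locallyGenerates_dCoord N k)
    (fun b => res (tangentSheaf (projSpaceHom N)) le_top (tangentSection N k (k.succAbove b)))
    (fun b a => by
      have h1 : evO (res (tangentSheaf (projSpaceHom N)) le_top
          (tangentSection N k (k.succAbove b))) (stdOpen N k) le_rfl (fun _ => dCoord N k a) =
          evO (tangentSection N k (k.succAbove b)) (stdOpen N k) le_top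
            (fun _ => dCoord N k a) := rfl
      rw [h1, evO_tangentSection, appLin_eulerHom_dCoord_self]
      simp only [eq_comm])
    (inf_le_right : U ⊓ stdOpen N k ≤ stdOpen N k)
    (res (tangentSheaf (projSpaceHom N)) inf_le_left t)
  rw [h]
  refine Submodule.sum_mem _ fun b _ => Submodule.smul_mem _ _ (Submodule.subset_span ?_)
  exact ⟨tangentSection N k (k.succAbove b), (res_res _ _ _ _).symm⟩

/-- **The tangent sheaf of `ℙ^N` is nef.** -/
theorem isNef_tangentSheaf : IsNef (projSpaceHom N) (tangentSheaf (projSpaceHom N)) :=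
  isNef_of_isGloballyGenerated _ (isGloballyGenerated_tangentSheaf N)

/-- **`ℙ⁶` satisfies all the hypotheses of `Statement`.** -/
theorem projSpace_six_hypotheses :
    IsProjective (projSpaceHom 6) ∧ SmoothOfRelativeDimension 6 (projSpaceHom 6) ∧
      ConnectedSpace (projSpace 6) ∧ IsAmple (anticanonicalSheaf (projSpaceHom 6) 6) ∧
      IsNef (projSpaceHom 6) (tangentSheaf (projSpaceHom 6)) :=
  ⟨projSpaceHom_isProjective 6, projSpaceHom_smooth 6, projSpace_connectedSpace 6,
    isAmple_anticanonicalSheaf 6, isNef_tangentSheaf 6⟩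

end Claimed.Open.R067
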