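import Claimed.Open.R067.Statement

/-!
# Sanity for `projSpace`: the standard affine charts

For `𝒜 = MvPolynomial.homogeneousSubmodule σ R` (the standard grading of `R[x_j : j ∈ σ]`) and
`i : σ` we identify the degree-zero localisation `Away 𝒜 (X i) = R[x_j]_{(x_i)}` with the polynomial
ring `R[x_j / x_i : j ≠ i]` (dehomogenisation).
-/

open MvPolynomial HomogeneousLocalization

namespace Claimed.Open.R067

attribute [local instance] MvPolynomial.gradedAlgebra

section Scale

variable {σ : Type} {R : Type} [CommRing R] {S : Type} [CommRing S]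

/-- Two ring homomorphisms out of a polynomial ring which agree on constants and differ by the
factor `u` on the variables differ by `u ^ deg` on monomials. -/
lemma hom_scale_monomial (Θ Φ : MvPolynomial σ R →+* S) (u : S) (hC : ∀ c, Θ (C c) = Φ (C c))
    (hX : ∀ j, Θ (X j) * u = Φ (X j)) (d : σ →₀ ℕ) :
    ∀ c : R, Θ (monomial d c) * u ^ d.degree = Φ (monomial d c) := by
  induction d using Finsupp.induction_linear with
  | zero => intro c; simpa using hC c
  | add f g hf hg =>
    intro c
    have h : (monomial (f + g) c : MvPolynomial σ R) = monomial f c * monomial g 1 := by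
      simp [monomial_mul]
    rw [h, map_mul, map_mul, map_add, pow_add, ← hf c, ← hg 1]
    ring
  | single j e =>
    intro c
    rw [← C_mul_X_pow_eq_monomial, map_mul, map_mul, map_pow, map_pow, Finsupp.degree_single,
      ← hX j, hC c]
    ring

/-- ... and by `u ^ n` on homogeneous polynomials of degree `n`. -/
lemma hom_scale (Θ Φ : MvPolynomial σ R →+* S) (u : S) (hC : ∀ c, Θ (C c) = Φ (C c))
    (hX : ∀ j, Θ (X j) * u = Φ (X j)) {a : MvPolynomial σ R} {n : ℕ} (ha : a.IsHomogeneous n) :
    Θ a * u ^ n = Φ a := by
  have h := support_sum_monomial_coeff a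
  rw [← h, map_sum, map_sum, Finset.sum_mul]
  refine Finset.sum_congr rfl fun d hd => ?_
  have hdn : d.degree = n := by
    by_contra hne
    exact (mem_support_iff.mp hd) (ha.coeff_eq_zero hne)
  rw [← hdn]
  exact hom_scale_monomial Θ Φ u hC hX d _

end Scale

section Deh

variable {σ : Type} (R : Type) [CommRing R] (i : σ)

lemma X_mem_deg_one (j : σ) : (X j : MvPolynomial σ R) ∈ homogeneousSubmodule σ R 1 :=
  (mem_homogeneousSubmodule 1 _).mpr (isHomogeneous_X R j)

lemma X_mem_deg_one' (j : σ) : (X j : MvPolynomial σ R) ∈ homogeneousSubmodule σ R (1 • 1) := by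
  simpa using X_mem_deg_one R j

/-- The constants `R → R[x]_{(x_i)}`. -/
noncomputable def awayC : R →+* Away (homogeneousSubmodule σ R) (X i : MvPolynomial σ R) :=
  (fromZeroRingHom (homogeneousSubmodule σ R) _).comp
    (algebraMap R (homogeneousSubmodule σ R 0))

/-- The fraction `x_j / x_i`. -/
noncomputable def awayFrac (j : σ) : Away (homogeneousSubmodule σ R) (X i : MvPolynomial σ R) :=
  Away.mk (homogeneousSubmodule σ R) (X_mem_deg_one R i) 1 (X j) (X_mem_deg_one' R j)

lemma val_awayC (c : R) : (awayC R i c).val =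
    algebraMap (MvPolynomial σ R) (Localization.Away (X i : MvPolynomial σ R)) (C c) := by
  simp [awayC, fromZeroRingHom]
  rfl

lemma val_away_mk_mul (n : ℕ) (a : MvPolynomial σ R) (ha : a ∈ homogeneousSubmodule σ R (n • 1)) :
    (Away.mk (homogeneousSubmodule σ R) (X_mem_deg_one R i) n a ha).val *
      algebraMap (MvPolynomial σ R) (Localization.Away (X i : MvPolynomial σ R)) (X i) ^ n =
    algebraMap (MvPolynomial σ R) (Localization.Away (X i : MvPolynomial σ R)) a := by
  rw [Away.val_mk, ← map_pow, ← Localization.mk_one_eq_algebraMap, Localization.mk_mul,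
    ← Localization.mk_one_eq_algebraMap, Localization.mk_eq_mk_iff, Localization.r_iff_exists]
  exact ⟨1, by simp [mul_comm]⟩

lemma val_awayFrac_mul (j : σ) : (awayFrac R i j).val *
      algebraMap (MvPolynomial σ R) (Localization.Away (X i : MvPolynomial σ R)) (X i) =
    algebraMap (MvPolynomial σ R) (Localization.Away (X i : MvPolynomial σ R)) (X j) := by
  simpa [awayFrac] using val_away_mk_mul R i 1 (X j) (X_mem_deg_one' R j)

lemma isUnit_algebraMap_X :
    IsUnit (algebraMap (MvPolynomial σ R) (Localization.Away (X i : MvPolynomial σ R)) (X i)) :=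
  IsLocalization.Away.algebraMap_isUnit (X i)

lemma awayFrac_self : awayFrac R i i = 1 := by
  apply val_injective
  apply (isUnit_algebraMap_X R i).mul_right_cancel
  rw [val_awayFrac_mul, val_one, one_mul]

/-- The evaluation `R[y_j : j ≠ i] → R[x]_{(x_i)}`, `y_j ↦ x_j / x_i`. -/
noncomputable def awayEval : MvPolynomial {j // j ≠ i} R →+*
    Away (homogeneousSubmodule σ R) (X i : MvPolynomial σ R) :=
  eval₂Hom (awayC R i) (fun j => awayFrac R i j.1)

@[simp] lemma awayEval_C (c : R) : awayEval R i (C c) = awayC R i c := by simp [awayEval]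

@[simp] lemma awayEval_X (j : {j // j ≠ i}) : awayEval R i (X j) = awayFrac R i j.1 := by
  simp [awayEval]

variable [DecidableEq σ]

/-- Dehomogenisation `R[x_j : j ∈ σ] → R[y_j : j ≠ i]`: `x_i ↦ 1` and `x_j ↦ y_j` for `j ≠ i`. -/
noncomputable def dehom : MvPolynomial σ R →ₐ[R] MvPolynomial {j // j ≠ i} R :=
  aeval (fun j => if h : j = i then 1 else X ⟨j, h⟩)

@[simp] lemma dehom_X_self : dehom R i (X i) = 1 := by simp [dehom]

lemma dehom_X_of_ne (j : {j // j ≠ i}) : dehom R i (X j.1) = X j := by
  simp [dehom, j.2]

@[simp] lemma dehom_C (c : R) : dehom R i (C c) = C c := by simp [dehom]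

lemma awayEval_dehom_X (j : σ) : awayEval R i (dehom R i (X j)) = awayFrac R i j := by
  by_cases h : j = i
  · subst h; simp [awayFrac_self]
  · rw [dehom_X_of_ne R i ⟨j, h⟩, awayEval_X]

/-- For `a` homogeneous of degree `n`, the fraction `a / x_i ^ n` is the value of the
dehomogenisation of `a` at the fractions `x_j / x_i`. -/
lemma awayEval_dehom (n : ℕ) (a : MvPolynomial σ R) (ha : a ∈ homogeneousSubmodule σ R (n • 1)) :
    awayEval R i (dehom R i a) =
      Away.mk (homogeneousSubmodule σ R) (X_mem_deg_one R i) n a ha := by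
  apply val_injective
  apply ((isUnit_algebraMap_X R i).pow n).mul_right_cancel
  rw [val_away_mk_mul]
  have ha' : a.IsHomogeneous n := by simpa using ha
  exact hom_scale
    ((algebraMap (Away (homogeneousSubmodule σ R) (X i : MvPolynomial σ R))
      (Localization.Away (X i : MvPolynomial σ R))).comp
        ((awayEval R i).comp (dehom R i).toRingHom))
    (algebraMap (MvPolynomial σ R) (Localization.Away (X i : MvPolynomial σ R))) _
    (fun c => by simp [val_awayC])
    (fun j => by
      simpa [awayEval_dehom_X] using val_awayFrac_mul R i j) ha'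

/-- **Every element of `R[x]_{(x_i)}` is a polynomial in the fractions `x_j / x_i`, `j ≠ i`.** -/
theorem awayEval_surjective : Function.Surjective (awayEval R i) := by
  intro x
  obtain ⟨n, a, ha, rfl⟩ := Away.mk_surjective (homogeneousSubmodule σ R) (X_mem_deg_one R i) x
  exact ⟨dehom R i a, awayEval_dehom R i n a ha⟩

/-- The dehomogenisation `R[x]_{(x_i)} → R[y_j : j ≠ i]`, `a / x_i ^ n ↦ a(y, 1)`. -/
noncomputable def awayDehom : Away (homogeneousSubmodule σ R) (X i : MvPolynomial σ R) →+*
    MvPolynomial {j // j ≠ i} R :=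
  (IsLocalization.Away.lift (S := Localization.Away (X i : MvPolynomial σ R))
      (X i : MvPolynomial σ R) (g := (dehom R i).toRingHom) (by simp)).comp
    (algebraMap _ (Localization.Away (X i : MvPolynomial σ R)))

lemma awayDehom_mk (n : ℕ) (a : MvPolynomial σ R) (ha : a ∈ homogeneousSubmodule σ R (n • 1)) :
    awayDehom R i (Away.mk (homogeneousSubmodule σ R) (X_mem_deg_one R i) n a ha) =
      dehom R i a := by
  have h := congrArg (IsLocalization.Away.lift (S := Localization.Away (X i : MvPolynomial σ R))
      (X i : MvPolynomial σ R) (g := (dehom R i).toRingHom) (by simp)) (val_away_mk_mul R i n a ha)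
  rw [map_mul, map_pow, IsLocalization.Away.lift_eq, IsLocalization.Away.lift_eq] at h
  simpa [awayDehom] using h

lemma awayDehom_awayC (c : R) : awayDehom R i (awayC R i c) = C c := by
  simp only [awayDehom, RingHom.comp_apply, HomogeneousLocalization.algebraMap_apply, val_awayC,
    IsLocalization.Away.lift_eq]
  simp

lemma awayDehom_awayFrac (j : {j // j ≠ i}) : awayDehom R i (awayFrac R i j.1) = X j := by
  rw [awayFrac, awayDehom_mk, dehom_X_of_ne]

lemma awayDehom_awayEval (p : MvPolynomial {j // j ≠ i} R) :
    awayDehom R i (awayEval R i p) = p := by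
  have : (awayDehom R i).comp (awayEval R i) = RingHom.id _ := by
    apply MvPolynomial.ringHom_ext
    · intro c; simp [awayDehom_awayC]
    · intro j; simp [awayDehom_awayFrac]
  exact congrArg (fun f : _ →+* _ => f p) this

theorem awayEval_injective : Function.Injective (awayEval R i) :=
  Function.LeftInverse.injective (awayDehom_awayEval R i)

/-- **Dehomogenisation**: `R[y_j : j ≠ i] ≃ R[x]_{(x_i)}`, `y_j ↦ x_j / x_i`. -/
noncomputable def awayEquiv : MvPolynomial {j // j ≠ i} R ≃+*
    Away (homogeneousSubmodule σ R) (X i : MvPolynomial σ R) :=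
  RingEquiv.ofBijective (awayEval R i) ⟨awayEval_injective R i, awayEval_surjective R i⟩

@[simp] lemma awayEquiv_apply (p : MvPolynomial {j // j ≠ i} R) :
    awayEquiv R i p = awayEval R i p := rfl

lemma awayEquiv_symm_apply (x : Away (homogeneousSubmodule σ R) (X i : MvPolynomial σ R)) :
    (awayEquiv R i).symm x = awayDehom R i x := by
  obtain ⟨p, rfl⟩ := awayEval_surjective R i x
  rw [awayDehom_awayEval, ← awayEquiv_apply, RingEquiv.symm_apply_apply]

/-- Induction principle for `R[x]_{(x_i)}`: it is generated as a ring by the constants and the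
fractions `x_j / x_i`. -/
theorem away_induction {P : Away (homogeneousSubmodule σ R) (X i : MvPolynomial σ R) → Prop}
    (hC : ∀ c, P (awayC R i c)) (hX : ∀ j, j ≠ i → P (awayFrac R i j))
    (hadd : ∀ x y, P x → P y → P (x + y)) (hmul : ∀ x y, P x → P y → P (x * y)) (x) : P x := by
  obtain ⟨p, rfl⟩ := awayEval_surjective R i x
  induction p using MvPolynomial.induction_on with
  | C c => simpa using hC c
  | add p q hp hq => rw [map_add]; exact hadd _ _ hp hq
  | mul_X p j hp => rw [map_mul]; exact hmul _ _ hp (by simpa using hX j.1 j.2)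

end Deh

end Claimed.Open.R067
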