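import Claimed.Open.R067.SanityProjCurve

/-!
# Sanity for `projSpace`: germs of the sections `a / f ^ n`
-/

open AlgebraicGeometry CategoryTheory HomogeneousLocalization

universe u

namespace Claimed.Open.R067

section General

variable {σ : Type*} {A : Type u} [CommRing A] [SetLike σ A] [AddSubgroupClass σ A]
variable (𝒜 : ℕ → σ) [GradedRing 𝒜]

/-- The germ at `x ∈ D₊(f)` of the section defined by `s ∈ A_{(f)}` is the image of `s` in
`A_{(x)}`. -/
lemma stalkIso_germ_awayToSection (f : A) (x : Proj 𝒜) (hx : x ∈ Proj.basicOpen 𝒜 f)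
    (s : Away 𝒜 f) :
    (Proj.stalkIso 𝒜 x).hom ((Proj 𝒜).presheaf.germ _ x hx (Proj.awayToSection 𝒜 f s)) =
      HomogeneousLocalization.mapId 𝒜 (Submonoid.powers_le.mpr hx) s :=
  Proj.stalkIso'_germ 𝒜 _ x hx _

lemma isUnit_germ_awayToSection_iff {f : A} {d : ℕ} (hf : f ∈ 𝒜 d) (n : ℕ) (a : A)
    (ha : a ∈ 𝒜 (n • d)) (x : Proj 𝒜) (hx : x ∈ Proj.basicOpen 𝒜 f) :
    IsUnit ((Proj 𝒜).presheaf.germ _ x hx (Proj.awayToSection 𝒜 f (Away.mk 𝒜 hf n a ha))) ↔
      a ∉ x.asHomogeneousIdeal := by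
  have h1 : IsUnit ((Proj 𝒜).presheaf.germ _ x hx
      (Proj.awayToSection 𝒜 f (Away.mk 𝒜 hf n a ha))) ↔
      IsUnit ((Proj.stalkIso 𝒜 x).hom ((Proj 𝒜).presheaf.germ _ x hx
        (Proj.awayToSection 𝒜 f (Away.mk 𝒜 hf n a ha)))) :=
    (MulEquiv.isUnit_map (Proj.stalkIso 𝒜 x).commRingCatIsoToRingEquiv).symm
  rw [h1, stalkIso_germ_awayToSection, ← isUnit_iff_isUnit_val]
  have hprime : x.asHomogeneousIdeal.toIdeal.IsPrime := x.isPrime
  have h2 : (HomogeneousLocalization.mapId 𝒜 (Submonoid.powers_le.mpr hx)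
      (Away.mk 𝒜 hf n a ha)).val =
      IsLocalization.mk' (Localization.AtPrime x.asHomogeneousIdeal.toIdeal) a
        (⟨f ^ n, Submonoid.powers_le.mpr hx ⟨n, rfl⟩⟩ :
          x.asHomogeneousIdeal.toIdeal.primeCompl) := by
    rw [← Localization.mk_eq_mk']
    rfl
  rw [h2, IsLocalization.AtPrime.isUnit_mk'_iff]
  rfl

/-- The nonvanishing locus of the function `a / f ^ n` on `D₊(f)` is `D₊(f) ∩ D₊(a)`. -/
lemma basicOpen_awayToSection {f : A} {d : ℕ} (hf : f ∈ 𝒜 d) (n : ℕ) (a : A)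
    (ha : a ∈ 𝒜 (n • d)) :
    (Proj 𝒜).basicOpen (Proj.awayToSection 𝒜 f (Away.mk 𝒜 hf n a ha)) =
      Proj.basicOpen 𝒜 f ⊓ Proj.basicOpen 𝒜 a := by
  ext x
  constructor
  · intro hx
    have hxU : x ∈ Proj.basicOpen 𝒜 f := (Proj 𝒜).basicOpen_le _ hx
    exact ⟨hxU, (isUnit_germ_awayToSection_iff 𝒜 hf n a ha x hxU).mp
      ((Scheme.mem_basicOpen _ _ x hxU).mp hx)⟩
  · rintro ⟨hxU, hxa⟩
    exact (Scheme.mem_basicOpen _ _ x hxU).mpr
      ((isUnit_germ_awayToSection_iff 𝒜 hf n a ha x hxU).mpr hxa)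

section FunctionField

variable [IsIntegral (Proj 𝒜)]

/-- The homogeneous prime ideal of the generic point. -/
noncomputable def genIdeal : Ideal A := (genericPoint (Proj 𝒜)).asHomogeneousIdeal.toIdeal

instance instIsPrimeGenIdeal : (genIdeal 𝒜).IsPrime := (genericPoint (Proj 𝒜)).isPrime

/-- The embedding of the function field of `Proj A` in the localisation of `A` at the generic
point. -/
noncomputable def iotaK : (Proj 𝒜).functionField →+* Localization.AtPrime (genIdeal 𝒜) :=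
  (algebraMap (AtPrime 𝒜 (genIdeal 𝒜)) (Localization.AtPrime (genIdeal 𝒜))).comp
    (Proj.stalkIso 𝒜 (genericPoint (Proj 𝒜))).hom.hom

lemma iotaK_injective : Function.Injective (iotaK 𝒜) :=
  (iotaK 𝒜).injective

lemma notMem_genIdeal (f : A) [h : Nonempty (Proj.basicOpen 𝒜 f)] : f ∉ genIdeal 𝒜 :=
  ((genericPoint_spec (Proj 𝒜)).mem_open_set_iff (Proj.basicOpen 𝒜 f).isOpen).mpr
    (by simpa using h)

lemma isUnit_algebraMap_genIdeal (f : A) [Nonempty (Proj.basicOpen 𝒜 f)] :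
    IsUnit (algebraMap A (Localization.AtPrime (genIdeal 𝒜)) f) :=
  (IsLocalization.AtPrime.isUnit_to_map_iff _ (genIdeal 𝒜) f).mpr (notMem_genIdeal 𝒜 f)

/-- In the function field, `a / f ^ n` is what it should be. -/
lemma iotaK_germ_mk {f : A} {d : ℕ} (hf : f ∈ 𝒜 d) [Nonempty (Proj.basicOpen 𝒜 f)] (n : ℕ) (a : A)
    (ha : a ∈ 𝒜 (n • d)) :
    iotaK 𝒜 ((Proj 𝒜).germToFunctionField (Proj.basicOpen 𝒜 f)
      (Proj.awayToSection 𝒜 f (Away.mk 𝒜 hf n a ha))) *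
        algebraMap A (Localization.AtPrime (genIdeal 𝒜)) f ^ n =
      algebraMap A (Localization.AtPrime (genIdeal 𝒜)) a := by
  have h1 : iotaK 𝒜 ((Proj 𝒜).germToFunctionField (Proj.basicOpen 𝒜 f)
      (Proj.awayToSection 𝒜 f (Away.mk 𝒜 hf n a ha))) =
      (HomogeneousLocalization.mapId 𝒜 (Submonoid.powers_le.mpr (notMem_genIdeal 𝒜 f))
        (Away.mk 𝒜 hf n a ha)).val :=
    congrArg HomogeneousLocalization.val (stalkIso_germ_awayToSection 𝒜 f
      (genericPoint (Proj 𝒜)) (notMem_genIdeal 𝒜 f) (Away.mk 𝒜 hf n a ha))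
  have h2 : (HomogeneousLocalization.mapId 𝒜 (Submonoid.powers_le.mpr (notMem_genIdeal 𝒜 f))
      (Away.mk 𝒜 hf n a ha)).val =
      IsLocalization.mk' (Localization.AtPrime (genIdeal 𝒜)) a
        (⟨f ^ n, Submonoid.powers_le.mpr (notMem_genIdeal 𝒜 f) ⟨n, rfl⟩⟩ :
          (genIdeal 𝒜).primeCompl) := by
    rw [← Localization.mk_eq_mk']
    rfl
  rw [h1, h2, ← map_pow]
  exact IsLocalization.mk'_spec _ _ _

end FunctionField

end General

end Claimed.Open.R067
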