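import Claimed.Open.R067.SanityGroup

/-!
# Sanity for R067, group side: a criterion for `IsQuotient`

If `q : G ⟶ Y` has Zariski-local sections, `G` and `Y` are reduced and locally of finite type over
`ℂ`, and the fibres of `q` on `ℂ`-points are the cosets `gP`, then `q` is the quotient `G → G/P` in
the sense of `Statement.lean`.
-/

namespace Claimed.Open.R067

open AlgebraicGeometry CategoryTheory Opposite TopologicalSpace Limits
open MonoidalCategory CartesianMonoidalCategory
open scoped MonObj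

noncomputable section

variable {G Y : Over SpecC} [GrpObj G]

/-- If the fibres of `q` are cosets of `P`, a morphism invariant under right translations by `P`
takes the same value on two points with the same image under `q`. -/
lemma comp_eq_of_comp_eq {P : Subgroup (Points G)} {q : G ⟶ Y}
    (hF : ∀ g g' : Points G, g ≫ q = g' ≫ q ↔ g⁻¹ * g' ∈ P)
    {Z : Over SpecC} (φ : G ⟶ Z) (hφ : ∀ p ∈ P, (GrpObj.mulRight p).hom ≫ φ = φ)
    (g g' : Points G) (h : g ≫ q = g' ≫ q) : g ≫ φ = g' ≫ φ := by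
  have hp := (hF g g').mp h
  have h1 : g' = g * (g⁻¹ * g') := by group
  rw [h1, ← Points.comp_mulRight, Category.assoc, hφ _ hp]

theorem isQuotient_of_sections [LocallyOfFiniteType G.hom] [IsReduced G.left]
    [LocallyOfFiniteType Y.hom] [IsReduced Y.left]
    (P : Subgroup (Points G)) (q : G ⟶ Y)
    (hF : ∀ g g' : Points G, g ≫ q = g' ≫ q ↔ g⁻¹ * g' ∈ P)
    (𝒰 : Scheme.OpenCover.{0} Y.left) (s : ∀ i, 𝒰.X i ⟶ G.left)
    (hs : ∀ i, s i ≫ q.left = 𝒰.f i) : IsQuotient G P q := by
  have hsG : ∀ i, s i ≫ G.hom = 𝒰.f i ≫ Y.hom := by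
    intro i
    rw [← hs i, Category.assoc, Over.w]
  refine ⟨?_, hF, ?_, ?_⟩
  · intro y
    obtain ⟨i, x, rfl⟩ := 𝒰.exists_eq y
    refine ⟨s i x, ?_⟩
    rw [← Scheme.Hom.comp_apply, hs]
  · intro p hp
    ext1
    refine hom_ext_of_points G.hom _ _ fun t ht => ?_
    have h := (hF (Points.mk t ht) (Points.mk t ht * p)).mpr (by simpa using hp)
    rw [← Points.comp_mulRight, Category.assoc] at h
    exact (congrArg (fun f => Over.Hom.left f) h).symm
  · intro Z φ hφ
    have hL := comp_eq_of_comp_eq hF φ hφ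
    -- the local pieces agree on overlaps
    have hglue : ∀ i j, pullback.fst (𝒰.f i) (𝒰.f j) ≫ s i ≫ φ.left =
        pullback.snd (𝒰.f i) (𝒰.f j) ≫ s j ≫ φ.left := by
      intro i j
      have : IsReduced (pullback (𝒰.f i) (𝒰.f j)) :=
        isReduced_of_isOpenImmersion (pullback.fst (𝒰.f i) (𝒰.f j) ≫ 𝒰.f i)
      refine hom_ext_of_points (pullback.fst (𝒰.f i) (𝒰.f j) ≫ 𝒰.f i ≫ Y.hom) _ _ fun t ht => ?_
      have ha : (t ≫ pullback.fst (𝒰.f i) (𝒰.f j) ≫ s i) ≫ G.hom = 𝟙 _ := by
        simpa [hsG] using ht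
      have hb : (t ≫ pullback.snd (𝒰.f i) (𝒰.f j) ≫ s j) ≫ G.hom = 𝟙 _ := by
        simpa [hsG, pullback.condition_assoc] using ht
      have h := hL (Points.mk _ ha) (Points.mk _ hb) (by
        ext1
        simp [hs, pullback.condition])
      simpa using congrArg (fun f => Over.Hom.left f) h
    let ψl : Y.left ⟶ Z.left := 𝒰.glueMorphisms (fun i => s i ≫ φ.left) hglue
    have hψl : ∀ i, 𝒰.f i ≫ ψl = s i ≫ φ.left := fun i => 𝒰.ι_glueMorphisms _ hglue i
    have hw : ψl ≫ Z.hom = Y.hom := by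
      refine 𝒰.hom_ext _ _ fun i => ?_
      rw [reassoc_of% hψl i, Over.w, hsG]
    refine ⟨Over.homMk ψl hw, ?_, ?_⟩
    · ext1
      refine hom_ext_of_points G.hom _ _ fun t ht => ?_
      obtain ⟨pt⟩ : Nonempty SpecC := ⟨IsLocalRing.closedPoint ℂ⟩
      have hsub : Subsingleton SpecC := inferInstanceAs (Subsingleton (PrimeSpectrum ℂ))
      obtain ⟨i, x, hx⟩ := 𝒰.exists_eq ((t ≫ q.left) pt)
      have hrange : Set.range (t ≫ q.left) ⊆ Set.range (𝒰.f i) := by
        rintro _ ⟨pt', rfl⟩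
        rw [Subsingleton.elim pt' pt]
        exact ⟨x, hx⟩
      have hu : IsOpenImmersion.lift (𝒰.f i) (t ≫ q.left) hrange ≫ 𝒰.f i = t ≫ q.left :=
        IsOpenImmersion.lift_fac _ _ _
      generalize IsOpenImmersion.lift (𝒰.f i) (t ≫ q.left) hrange = u at hu
      have hg' : (u ≫ s i) ≫ G.hom = 𝟙 _ := by
        rw [Category.assoc, hsG, reassoc_of% hu, Over.w, ht]
      have h := hL (Points.mk (u ≫ s i) hg') (Points.mk t ht) (by
        ext1
        simp [hs, hu])
      have h' : (u ≫ s i) ≫ φ.left = t ≫ φ.left := congrArg (fun f => Over.Hom.left f) h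
      simp only [Over.comp_left, Over.homMk_left]
      rw [← reassoc_of% hu, hψl, ← h', Category.assoc]
    · intro ψ' hψ'
      ext1
      refine 𝒰.hom_ext _ _ fun i => ?_
      have h1 : q.left ≫ ψ'.left = φ.left := congrArg (fun f => Over.Hom.left f) hψ'
      simp only [Over.homMk_left]
      rw [hψl, ← hs i, Category.assoc, h1]

end

end Claimed.Open.R067
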