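import Claimed.Open.R067.Statement

/-!
# Sanity for R067: sections of a sheaf of modules are determined locally

A lemma used by several `Sanity*.lean` files.  No definition of `Statement.lean` needs it, so it is kept out of that file.
-/

open AlgebraicGeometry CategoryTheory Opposite TopologicalSpace

universe u

namespace Claimed.Open.R067

variable {X : Scheme.{u}}

lemma res_ext (N : X.Modules) {ι : Type*} (U : ι → X.Opens) (V : X.Opens) (hU : ∀ i, U i ≤ V)
    (hcover : V ≤ iSup U) (s t : Γ(N, V)) (h : ∀ i, res N (hU i) s = res N (hU i) t) : s = t :=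
  TopCat.Sheaf.eq_of_locally_eq' ⟨N.presheaf, N.isSheaf⟩ U V (fun i => homOfLE (hU i)) hcover s t h

end Claimed.Open.R067
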