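import Claimed.Open.R067.SanitySL
import Claimed.Open.R067.SanityQuotient
import Claimed.Open.R067.SanityProjSmooth

/-!
# Sanity for R067, group side: the quotient map `SL_{N+1} → ℙ^N`
-/

namespace Claimed.Open.R067

open AlgebraicGeometry CategoryTheory Opposite TopologicalSpace Limits Matrix MvPolynomial
open HomogeneousLocalization
open MonoidalCategory CartesianMonoidalCategory
open scoped MonObj

attribute [local instance] MvPolynomial.gradedAlgebra

noncomputable section

variable (N : ℕ)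

/-- `ℂ[x_0, …, x_N] → ℂ[SL_{N+1}]`, `x_i ↦ x_{i0}` (the first column of the universal matrix). -/
def colHom : MvPolynomial (Fin (N + 1)) ℂ →ₐ[ℂ] SLRing (Fin (N + 1)) :=
  aeval (fun i => SLRing.univ (Fin (N + 1)) i 0)

@[simp] lemma colHom_X (i : Fin (N + 1)) : colHom N (X i) = SLRing.univ (Fin (N + 1)) i 0 := by
  simp [colHom]

/-- The same map with values in the global sections of `Spec ℂ[SL_{N+1}]`. -/
def colHomΓ : MvPolynomial (Fin (N + 1)) ℂ →+*
    Γ(Spec (CommRingCat.of (SLRing (Fin (N + 1)))), ⊤) :=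
  (Scheme.ΓSpecIso (CommRingCat.of (SLRing (Fin (N + 1))))).inv.hom.comp (colHom N).toRingHom

lemma colHomΓ_irrelevant :
    (HomogeneousIdeal.irrelevant (homogeneousSubmodule (Fin (N + 1)) ℂ)).toIdeal.map (colHomΓ N) =
      ⊤ := by
  rw [Ideal.eq_top_iff_one]
  have h1 : (∑ i, (adjugate (SLRing.univ (Fin (N + 1)))) 0 i * SLRing.univ (Fin (N + 1)) i 0) = 1 := by
    have := congrFun (congrFun (adjugate_mul (SLRing.univ (Fin (N + 1)))) 0) 0
    rw [SLRing.det_univ, one_smul, mul_apply, one_apply_eq] at this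
    exact this
  have h2 := congrArg (Scheme.ΓSpecIso (CommRingCat.of (SLRing (Fin (N + 1))))).inv.hom h1
  rw [map_one, map_sum] at h2
  rw [← h2]
  refine Ideal.sum_mem _ fun i _ => ?_
  rw [map_mul]
  refine Ideal.mul_mem_left _ _ ?_
  have h3 : (Scheme.ΓSpecIso (CommRingCat.of (SLRing (Fin (N + 1))))).inv.hom
      (SLRing.univ (Fin (N + 1)) i 0) = colHomΓ N (X i) := by
    simp [colHomΓ]
  rw [h3]
  exact Ideal.mem_map_of_mem _
    (HomogeneousIdeal.mem_irrelevant_of_mem _ one_pos (X_mem_deg_one ℂ i))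

/-- The morphism `SL_{N+1} → ℙ^N`, `g ↦ [g e_0]`. -/
def qLeft : Spec (CommRingCat.of (SLRing (Fin (N + 1)))) ⟶ projSpace N :=
  Proj.fromOfGlobalSections (homogeneousSubmodule (Fin (N + 1)) ℂ) (colHomΓ N)
    (colHomΓ_irrelevant N)

lemma qLeft_preimage_basicOpen {r : MvPolynomial (Fin (N + 1)) ℂ} {d : ℕ} (hd : 0 < d)
    (hr : r ∈ homogeneousSubmodule (Fin (N + 1)) ℂ d) :
    qLeft N ⁻¹ᵁ Proj.basicOpen (homogeneousSubmodule (Fin (N + 1)) ℂ) r =
      PrimeSpectrum.basicOpen (colHom N r) := by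
  exact (Proj.fromOfGlobalSections_preimage_basicOpen _ (colHomΓ N) (colHomΓ_irrelevant N)
    hd hr).trans (basicOpen_eq_of_affine _)

lemma qLeft_projSpaceHom : qLeft N ≫ projSpaceHom N =
    Spec.map (CommRingCat.ofHom (algebraMap ℂ (SLRing (Fin (N + 1))))) := by
  refine (Proj.fromOfGlobalSections_toSpecZero_assoc (homogeneousSubmodule (Fin (N + 1)) ℂ)
    (colHomΓ N) (colHomΓ_irrelevant N) (Spec.map (CommRingCat.ofHom
      (algebraMap ℂ (homogeneousSubmodule (Fin (N + 1)) ℂ 0))))).trans ?_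
  rw [← Spec.map_comp, ← CommRingCat.ofHom_comp]
  have h : CommRingCat.ofHom (((colHomΓ N).comp
      (algebraMap (homogeneousSubmodule (Fin (N + 1)) ℂ 0) (MvPolynomial (Fin (N + 1)) ℂ))).comp
        (algebraMap ℂ (homogeneousSubmodule (Fin (N + 1)) ℂ 0))) =
      CommRingCat.ofHom (algebraMap ℂ (SLRing (Fin (N + 1)))) ≫
        (Scheme.ΓSpecIso (CommRingCat.of (SLRing (Fin (N + 1))))).inv := by
    ext c
    have h1 : algebraMap (homogeneousSubmodule (Fin (N + 1)) ℂ 0) (MvPolynomial (Fin (N + 1)) ℂ)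
        (algebraMap ℂ (homogeneousSubmodule (Fin (N + 1)) ℂ 0) c) = C c := rfl
    simp only [CommRingCat.hom_ofHom, RingHom.comp_apply, h1, colHomΓ, CommRingCat.hom_comp]
    congr 1
    exact (colHom N).commutes c
  rw [h, Spec.map_comp, toSpecΓ_SpecMap_ΓSpecIso_inv_assoc]

/-- The quotient map `q : SL_{N+1} → ℙ^N` over `ℂ`. -/
def qSL : SLn (Fin (N + 1)) ⟶ Over.mk (projSpaceHom N) :=
  Over.homMk (qLeft N) (qLeft_projSpaceHom N)

@[simp] lemma qSL_left : (qSL N).left = qLeft N := rfl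

/-! ### Points of `ℙ^N` are determined by the basic open sets `D₊(r)` containing them -/

variable {N}

lemma exists_X_notMem (y : Proj (homogeneousSubmodule (Fin (N + 1)) ℂ)) :
    ∃ i : Fin (N + 1), (X i : MvPolynomial (Fin (N + 1)) ℂ) ∉ y.asHomogeneousIdeal := by
  by_contra h
  push Not at h
  apply y.not_irrelevant_le
  intro a ha
  have h1 := irrelevant_le_span_X N ha
  have h2 : Ideal.span (Set.range (X : Fin (N + 1) → MvPolynomial (Fin (N + 1)) ℂ)) ≤
      y.asHomogeneousIdeal.toIdeal := by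
    rw [Ideal.span_le]
    rintro _ ⟨i, rfl⟩
    exact h i
  exact h2 h1

lemma asHomogeneousIdeal_le_of_basicOpen (x y : Proj (homogeneousSubmodule (Fin (N + 1)) ℂ))
    (h : ∀ (d : ℕ), 0 < d → ∀ r ∈ homogeneousSubmodule (Fin (N + 1)) ℂ d,
      r ∈ x.asHomogeneousIdeal → r ∈ y.asHomogeneousIdeal) :
    x.asHomogeneousIdeal ≤ y.asHomogeneousIdeal := by
  intro a ha
  change a ∈ y.asHomogeneousIdeal.toIdeal
  rw [← DirectSum.sum_support_decompose (homogeneousSubmodule (Fin (N + 1)) ℂ) a]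
  refine Ideal.sum_mem _ fun d _ => ?_
  have hx : (DirectSum.decompose (homogeneousSubmodule (Fin (N + 1)) ℂ) a d :
      MvPolynomial (Fin (N + 1)) ℂ) ∈ x.asHomogeneousIdeal.toIdeal :=
    x.asHomogeneousIdeal.isHomogeneous d ha
  have hmem := (DirectSum.decompose (homogeneousSubmodule (Fin (N + 1)) ℂ) a d).2
  rcases Nat.eq_zero_or_pos d with rfl | hd
  · obtain ⟨j, hj⟩ := exists_X_notMem y
    have h1 := h 1 one_pos _ (by simpa using SetLike.mul_mem_graded hmem (X_mem_deg_one ℂ j))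
      (Ideal.mul_mem_right _ _ hx)
    exact (y.isPrime.mem_or_mem h1).resolve_right hj
  · exact h d hd _ hmem hx

lemma proj_ext (x y : Proj (homogeneousSubmodule (Fin (N + 1)) ℂ))
    (h : ∀ (d : ℕ), 0 < d → ∀ r ∈ homogeneousSubmodule (Fin (N + 1)) ℂ d,
      (x ∈ Proj.basicOpen (homogeneousSubmodule (Fin (N + 1)) ℂ) r ↔
        y ∈ Proj.basicOpen (homogeneousSubmodule (Fin (N + 1)) ℂ) r)) : x = y := by
  apply ProjectiveSpectrum.ext
  apply le_antisymm
  · refine asHomogeneousIdeal_le_of_basicOpen x y fun d hd r hr hx => ?_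
    have := (h d hd r hr).not
    rw [Proj.mem_basicOpen, Proj.mem_basicOpen, not_not, not_not] at this
    exact this.mp hx
  · refine asHomogeneousIdeal_le_of_basicOpen y x fun d hd r hr hx => ?_
    have := (h d hd r hr).not
    rw [Proj.mem_basicOpen, Proj.mem_basicOpen, not_not, not_not] at this
    exact this.mpr hx

/-! ### The fibres of `q` on complex points -/

lemma eval_ne_zero_iff_of_smul {v v' : Fin (N + 1) → ℂ} (hv : v ≠ 0) {a : ℂ} (ha : a • v' = v)
    {d : ℕ} {r : MvPolynomial (Fin (N + 1)) ℂ} (hr : r ∈ homogeneousSubmodule (Fin (N + 1)) ℂ d) :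
    eval v r ≠ 0 ↔ eval v' r ≠ 0 := by
  have ha0 : a ≠ 0 := by
    rintro rfl
    exact hv (by rw [← ha, zero_smul])
  have h := hom_scale (eval v') (eval v) a (fun c => by simp)
    (fun j => by simp [← ha, mul_comm]) ((mem_homogeneousSubmodule d r).mp hr)
  rw [← h]
  simp [ha0]

lemma exists_smul_eq_of_eval {v v' : Fin (N + 1) → ℂ} (hv' : v' ≠ 0)
    (h : ∀ r ∈ homogeneousSubmodule (Fin (N + 1)) ℂ 1, eval v' r = 0 → eval v r = 0) :
    ∃ a : ℂ, a • v' = v := by
  obtain ⟨b, hb⟩ := Function.ne_iff.mp hv'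
  refine ⟨v b / v' b, ?_⟩
  ext j
  have hr : (C (v' b) * X j - C (v' j) * X b : MvPolynomial (Fin (N + 1)) ℂ) ∈
      homogeneousSubmodule (Fin (N + 1)) ℂ 1 := by
    refine Submodule.sub_mem _ ?_ ?_
    · simpa using (isHomogeneous_C_mul_X (v' b) j)
    · simpa using (isHomogeneous_C_mul_X (v' j) b)
  have h1 := h _ hr (by simp [mul_comm])
  simp only [map_sub, map_mul, eval_C, eval_X, sub_eq_zero] at h1
  simp only [Pi.smul_apply, smul_eq_mul, Pi.zero_apply] at hb ⊢
  field_simp
  linear_combination -h1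

/-- The first column of a complex point of `SL_{N+1}`. -/
def col (g : Points (SLn (Fin (N + 1)))) : Fin (N + 1) → ℂ :=
  fun i => (ptEquiv g : Matrix (Fin (N + 1)) (Fin (N + 1)) ℂ) i 0

lemma evalAt_colHom (g : Points (SLn (Fin (N + 1)))) (r : MvPolynomial (Fin (N + 1)) ℂ) :
    evalAt g (colHom N r) = eval (col g) r := by
  have h : (evalAt g).comp (colHom N) = aeval (col g) := by
    apply MvPolynomial.algHom_ext
    intro i
    simp [evalAt, col]
  have h2 := congrArg (fun f : MvPolynomial (Fin (N + 1)) ℂ →ₐ[ℂ] ℂ => f r) h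
  simpa [aeval_eq_eval] using h2

lemma col_ne_zero (g : Points (SLn (Fin (N + 1)))) : col g ≠ 0 := by
  intro h
  have h1 : det (ptEquiv g : Matrix (Fin (N + 1)) (Fin (N + 1)) ℂ) = 0 :=
    det_eq_zero_of_column_eq_zero 0 (fun i => congrFun h i)
  rw [Matrix.SpecialLinearGroup.det_coe] at h1
  exact one_ne_zero h1

lemma qLeft_toPoint_mem_basicOpen (g : Points (SLn (Fin (N + 1)))) {d : ℕ} (hd : 0 < d)
    {r : MvPolynomial (Fin (N + 1)) ℂ} (hr : r ∈ homogeneousSubmodule (Fin (N + 1)) ℂ d) :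
    qLeft N (Points.toPoint (SLn (Fin (N + 1))) g) ∈
      Proj.basicOpen (homogeneousSubmodule (Fin (N + 1)) ℂ) r ↔ eval (col g) r ≠ 0 := by
  have h1 : qLeft N (Points.toPoint (SLn (Fin (N + 1))) g) ∈
      Proj.basicOpen (homogeneousSubmodule (Fin (N + 1)) ℂ) r ↔
      Points.toPoint (SLn (Fin (N + 1))) g ∈
        qLeft N ⁻¹ᵁ Proj.basicOpen (homogeneousSubmodule (Fin (N + 1)) ℂ) r := Iff.rfl
  rw [h1, qLeft_preimage_basicOpen N hd hr, ← evalAt_colHom]
  change colHom N r ∉ (show PrimeSpectrum (SLRing (Fin (N + 1))) from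
    Points.toPoint (SLn (Fin (N + 1))) g).asIdeal ↔ _
  rw [toPoint_asIdeal, RingHom.mem_ker]
  rfl

open scoped LinearAlgebra.Projectivization

variable (N) in
/-- The base point `[e_0]` of the classical projective space. -/
def basePt : ℙ ℂ (Fin (N + 1) → ℂ) :=
  Projectivization.mk ℂ (Pi.single 0 1) (Pi.single_ne_zero_iff.2 one_ne_zero)

variable (N) in
/-- The stabiliser of the line `ℂ e_0` in `SL_{N+1}(ℂ)`. -/
def parabolicSL : Subgroup (SpecialLinearGroup (Fin (N + 1)) ℂ) :=
  MulAction.stabilizer _ (basePt N)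

variable (N) in
/-- The same group as a subgroup of the group of complex points of the group scheme. -/
def parabolicPts : Subgroup (Points (SLn (Fin (N + 1)))) :=
  (parabolicSL N).comap (ptEquiv (n := Fin (N + 1))).toMonoidHom

lemma ptEquiv_smul_basePt (g : Points (SLn (Fin (N + 1)))) :
    ptEquiv g • basePt N = Projectivization.mk ℂ (col g) (col_ne_zero g) := by
  rw [basePt, Projectivization.smul_mk]
  congr 1
  ext i
  simp [col, Matrix.SpecialLinearGroup.smul_def]

lemma mem_parabolicPts_iff (g g' : Points (SLn (Fin (N + 1)))) :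
    g⁻¹ * g' ∈ parabolicPts N ↔ ∃ a : ℂ, a • col g = col g' := by
  rw [parabolicPts, Subgroup.mem_comap, parabolicSL, MulAction.mem_stabilizer_iff]
  simp only [MulEquiv.coe_toMonoidHom, map_mul, map_inv, mul_smul, inv_smul_eq_iff]
  rw [ptEquiv_smul_basePt, ptEquiv_smul_basePt, Projectivization.mk_eq_mk_iff']

variable (N) in
lemma projSpaceHom_locallyOfFiniteType : LocallyOfFiniteType (projSpaceHom N) := by
  have := projSpaceHom_smooth N
  have : Smooth (projSpaceHom N) := SmoothOfRelativeDimension.smooth N _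
  infer_instance

instance instLocallyOfFiniteTypeProjSpaceOver :
    LocallyOfFiniteType (Over.mk (projSpaceHom N)).hom :=
  projSpaceHom_locallyOfFiniteType N

/-- **The fibres of `q` on complex points are the cosets `gP`.** -/
theorem qSL_fibres (g g' : Points (SLn (Fin (N + 1)))) :
    g ≫ qSL N = g' ≫ qSL N ↔ g⁻¹ * g' ∈ parabolicPts N := by
  rw [mem_parabolicPts_iff, ← Points.toPoint_injective.eq_iff, Points.toPoint_comp,
    Points.toPoint_comp]
  constructor
  · intro h
    refine exists_smul_eq_of_eval (col_ne_zero g) fun r hr h0 => ?_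
    have h1 := (qLeft_toPoint_mem_basicOpen g one_pos hr).not
    have h2 := (qLeft_toPoint_mem_basicOpen g' one_pos hr).not
    rw [not_not] at h1 h2
    rw [← h2]
    have h3 : qLeft N (Points.toPoint (SLn (Fin (N + 1))) g) =
      qLeft N (Points.toPoint (SLn (Fin (N + 1))) g') := h
    rw [← h3, h1]
    exact h0
  · rintro ⟨a, ha⟩
    refine proj_ext _ _ fun d hd r hr => ?_
    exact (qLeft_toPoint_mem_basicOpen g hd hr).trans
      ((eval_ne_zero_iff_of_smul (col_ne_zero g') ha hr).symm.trans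
        (qLeft_toPoint_mem_basicOpen g' hd hr).symm)

end

end Claimed.Open.R067
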