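import Claimed.Open.R067.SanitySLProj

/-!
# Sanity for R067, group side: local sections of `SL_{N+1} → ℙ^N`, and `ℙ^N = SL_{N+1}/P`
-/

namespace Claimed.Open.R067

open AlgebraicGeometry CategoryTheory Opposite TopologicalSpace Limits Matrix MvPolynomial
open HomogeneousLocalization
open MonoidalCategory CartesianMonoidalCategory
open scoped MonObj LinearAlgebra.Projectivization

attribute [local instance] MvPolynomial.gradedAlgebra

noncomputable section

variable (N : ℕ) (i : Fin (N + 1))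

/-- The coordinate ring `ℂ[x]_{(x_i)}` of the chart `D₊(x_i)`. -/
abbrev ChartRing : Type :=
  Away (homogeneousSubmodule (Fin (N + 1)) ℂ) (X i : MvPolynomial (Fin (N + 1)) ℂ)

/-- Its `ℂ`-algebra structure. -/
@[instance_reducible]
def chartAlgebra : Algebra ℂ (ChartRing N i) := (awayC ℂ i).toAlgebra

attribute [local instance] chartAlgebra

lemma algebraMap_chartRing : algebraMap ℂ (ChartRing N i) = awayC ℂ i := rfl

instance instIsDomainChartRing : IsDomain (ChartRing N i) :=
  (awayEquiv ℂ i).symm.toMulEquiv.isDomain _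

/-- The identity matrix with the column `i` replaced by `(x_j / x_i)_j`. -/
def secT : SpecialLinearGroup (Fin (N + 1)) (ChartRing N i) :=
  ⟨(1 : Matrix (Fin (N + 1)) (Fin (N + 1)) (ChartRing N i)).updateCol i (fun j => awayFrac ℂ i j), by
    rw [← cramer_apply, cramer_one]
    exact awayFrac_self ℂ i⟩

/-- A constant matrix `W ∈ SL_{N+1}(ℂ)` with `W e_0 ∈ ℂ e_i`. -/
lemma exists_secW : ∃ (W : SpecialLinearGroup (Fin (N + 1)) ℂ) (a : ℂ), a ≠ 0 ∧
    ∀ j, (W : Matrix (Fin (N + 1)) (Fin (N + 1)) ℂ) j 0 = a * (Pi.single i 1 : Fin (N + 1) → ℂ) j := by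
  obtain ⟨W, hW⟩ := MulAction.exists_smul_eq (SpecialLinearGroup (Fin (N + 1)) ℂ) (basePt N)
    (Projectivization.mk ℂ (Pi.single i 1 : Fin (N + 1) → ℂ) (Pi.single_ne_zero_iff.2 one_ne_zero))
  rw [basePt, Projectivization.smul_mk, Projectivization.mk_eq_mk_iff'] at hW
  obtain ⟨a, ha⟩ := hW
  have hcol : ∀ j, (W : Matrix (Fin (N + 1)) (Fin (N + 1)) ℂ) j 0 =
      a * (Pi.single i 1 : Fin (N + 1) → ℂ) j := by
    intro j
    have := congrFun ha j
    simpa [Matrix.SpecialLinearGroup.smul_def] using this.symm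
  refine ⟨W, a, ?_, hcol⟩
  rintro rfl
  have h1 : det (W : Matrix (Fin (N + 1)) (Fin (N + 1)) ℂ) = 0 :=
    det_eq_zero_of_column_eq_zero 0 (fun j => by rw [hcol j, zero_mul])
  rw [Matrix.SpecialLinearGroup.det_coe] at h1
  exact one_ne_zero h1

/-- The chosen constant matrix. -/
def secW : SpecialLinearGroup (Fin (N + 1)) ℂ := (exists_secW N i).choose

/-- The scalar with `W e_0 = a e_i`. -/
def secA : ℂ := (exists_secW N i).choose_spec.choose

lemma secA_ne_zero : secA N i ≠ 0 := (exists_secW N i).choose_spec.choose_spec.1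

lemma secW_col (j : Fin (N + 1)) : (secW N i : Matrix (Fin (N + 1)) (Fin (N + 1)) ℂ) j 0 =
    secA N i * (Pi.single i 1 : Fin (N + 1) → ℂ) j :=
  (exists_secW N i).choose_spec.choose_spec.2 j

/-- The matrix in `SL_{N+1}(ℂ[x]_{(x_i)})` defining the section over `D₊(x_i)`. -/
def secMat : SpecialLinearGroup (Fin (N + 1)) (ChartRing N i) :=
  secT N i * SpecialLinearGroup.map (algebraMap ℂ (ChartRing N i)) (secW N i)

lemma secMat_col (j : Fin (N + 1)) :
    (secMat N i : Matrix (Fin (N + 1)) (Fin (N + 1)) (ChartRing N i)) j 0 =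
      awayFrac ℂ i j * awayC ℂ i (secA N i) := by
  have h : ∀ k, (SpecialLinearGroup.map (algebraMap ℂ (ChartRing N i)) (secW N i) :
      Matrix (Fin (N + 1)) (Fin (N + 1)) (ChartRing N i)) k 0 =
      awayC ℂ i (secA N i * (Pi.single i 1 : Fin (N + 1) → ℂ) k) := by
    intro k
    rw [← secW_col]
    rfl
  rw [secMat, Matrix.SpecialLinearGroup.coe_mul, mul_apply, Finset.sum_eq_single i]
  · rw [h i, Pi.single_eq_same, mul_one]
    congr 1
    exact updateCol_self
  · intro k _ hk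
    rw [h k, Pi.single_eq_of_ne hk, mul_zero, map_zero, mul_zero]
  · intro hi
    exact absurd (Finset.mem_univ i) hi

/-- The ring map of the section over `D₊(x_i)`. -/
def secHom : SLRing (Fin (N + 1)) →ₐ[ℂ] ChartRing N i := SLRing.lift (secMat N i)

/-- The section `D₊(x_i) = Spec ℂ[x]_{(x_i)} → SL_{N+1}`. -/
def sec : Spec (CommRingCat.of (ChartRing N i)) ⟶ Spec (CommRingCat.of (SLRing (Fin (N + 1)))) :=
  Spec.map (CommRingCat.ofHom (secHom N i).toRingHom)

lemma secHom_colHom {d : ℕ} {r : MvPolynomial (Fin (N + 1)) ℂ}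
    (hr : r ∈ homogeneousSubmodule (Fin (N + 1)) ℂ (d • 1)) :
    secHom N i (colHom N r) =
      Away.mk (homogeneousSubmodule (Fin (N + 1)) ℂ) (X_mem_deg_one ℂ i) d r hr *
        awayC ℂ i (secA N i) ^ d := by
  rw [← awayEval_dehom]
  have hr' : r.IsHomogeneous d := by simpa using hr
  exact (hom_scale ((awayEval ℂ i).comp (dehom ℂ i).toRingHom)
    ((secHom N i).toRingHom.comp (colHom N).toRingHom) (awayC ℂ i (secA N i))
    (fun c => by
      have h1 : (colHom N) (C c) = algebraMap ℂ _ c := (colHom N).commutes c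
      have h2 : (secHom N i) (algebraMap ℂ _ c) = awayC ℂ i c := (secHom N i).commutes c
      simp [h1, h2])
    (fun j => by
      simp [awayEval_dehom_X, secHom, secMat_col]) hr').symm

lemma isLocalizationElem_eq {d : ℕ} {r : MvPolynomial (Fin (N + 1)) ℂ}
    (hr : r ∈ homogeneousSubmodule (Fin (N + 1)) ℂ d)
    (hr' : r ∈ homogeneousSubmodule (Fin (N + 1)) ℂ (d • 1)) :
    Away.isLocalizationElem (X_mem_deg_one ℂ i) hr =
      Away.mk (homogeneousSubmodule (Fin (N + 1)) ℂ) (X_mem_deg_one ℂ i) d r hr' := by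
  apply val_injective
  simp [Away.val_mk]

lemma isUnit_awayC_secA : IsUnit (awayC ℂ i (secA N i)) :=
  (isUnit_iff_ne_zero.mpr (secA_ne_zero N i)).map (awayC ℂ i)

lemma sec_qLeft_preimage_basicOpen {d : ℕ} (hd : 0 < d) {r : MvPolynomial (Fin (N + 1)) ℂ}
    (hr : r ∈ homogeneousSubmodule (Fin (N + 1)) ℂ d) :
    (sec N i ≫ qLeft N) ⁻¹ᵁ Proj.basicOpen (homogeneousSubmodule (Fin (N + 1)) ℂ) r =
      chart N i ⁻¹ᵁ Proj.basicOpen (homogeneousSubmodule (Fin (N + 1)) ℂ) r := by
  have hr' : r ∈ homogeneousSubmodule (Fin (N + 1)) ℂ (d • 1) := by simpa using hr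
  have h1 : chart N i ⁻¹ᵁ Proj.basicOpen (homogeneousSubmodule (Fin (N + 1)) ℂ) r =
      PrimeSpectrum.basicOpen (Away.isLocalizationElem (X_mem_deg_one ℂ i) hr) :=
    Proj.awayι_preimage_basicOpen _ (X_mem_deg_one ℂ i) one_pos hr hd
  have h0 : (sec N i ≫ qLeft N) ⁻¹ᵁ Proj.basicOpen (homogeneousSubmodule (Fin (N + 1)) ℂ) r =
      sec N i ⁻¹ᵁ (qLeft N ⁻¹ᵁ Proj.basicOpen (homogeneousSubmodule (Fin (N + 1)) ℂ) r) := rfl
  rw [h1, h0, qLeft_preimage_basicOpen N hd hr, isLocalizationElem_eq N i hr hr']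
  have h2 : sec N i ⁻¹ᵁ PrimeSpectrum.basicOpen (colHom N r) =
      PrimeSpectrum.basicOpen (secHom N i (colHom N r)) :=
    SpecMap_preimage_basicOpen _ _
  have h3 : PrimeSpectrum.basicOpen (awayC ℂ i (secA N i) ^ d) = ⊤ := by
    rw [eq_top_iff]
    intro x _ hx
    exact x.isPrime.ne_top (Ideal.eq_top_of_isUnit_mem _ hx ((isUnit_awayC_secA N i).pow d))
  rw [h2, secHom_colHom N i hr', PrimeSpectrum.basicOpen_mul, h3, inf_top_eq]

lemma sec_comp_hom : sec N i ≫ Spec.map (CommRingCat.ofHom (algebraMap ℂ (SLRing (Fin (N + 1))))) =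
    Spec.map (CommRingCat.ofHom (awayC ℂ i)) := by
  rw [sec, ← Spec.map_comp, ← CommRingCat.ofHom_comp]
  congr 2
  apply RingHom.ext
  intro c
  exact (secHom N i).commutes c

lemma projSpaceHom_isSeparated : IsSeparated (projSpaceHom N) :=
  inferInstanceAs (IsSeparated (Proj.toSpecZero (homogeneousSubmodule (Fin (N + 1)) ℂ) ≫
    Spec.map (CommRingCat.ofHom
      (algebraMap ℂ (homogeneousSubmodule (Fin (N + 1)) ℂ 0)))))

/-- **`s_i` is a section of `q` over the chart `D₊(x_i)`.** -/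
theorem sec_qLeft : sec N i ≫ qLeft N = chart N i := by
  have := projSpaceHom_isSeparated N
  have := projSpaceHom_locallyOfFiniteType N
  have H' : (sec N i ≫ qLeft N) ≫ projSpaceHom N = chart N i ≫ projSpaceHom N := by
    rw [Category.assoc, qLeft_projSpaceHom, sec_comp_hom, chart_projSpaceHom]
  have hchart : IsOpenImmersion (chart N i) :=
    inferInstanceAs (IsOpenImmersion (Proj.awayι (homogeneousSubmodule (Fin (N + 1)) ℂ) (X i)
      (X_mem_deg_one ℂ i) one_pos))
  have : LocallyOfFiniteType ((sec N i ≫ qLeft N) ≫ projSpaceHom N) := by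
    rw [H']; infer_instance
  refine ext_of_apply_eq (projSpaceHom N) Set.univ isOpen_univ.isLocallyClosed dense_univ
    (fun x _ _ => ?_) H'
  refine proj_ext _ _ fun d hd r hr => ?_
  have h := sec_qLeft_preimage_basicOpen N i hd hr
  exact (SetLike.ext_iff.mp h x)

end

end Claimed.Open.R067
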