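import Claimed.Open.R067.SanityPn

/-!
# Sanity for the index `n` of `anticanonicalSheaf π n = 𝓗om(⋀ⁿ Ω, 𝒪)`

`Statement` takes `n = 6`.  Here: an exterior power **above** the number of local generators is zero, so the sheaf is not invertible.

* `alt_eq_zero_of_lt` : an alternating `k`-linear map vanishes on vectors that lie in the span of `r < k` elements;
* `altHom_eq_zero_of_locallyGenerates` : if `M` is locally generated over `U` by `r < k` sections, every section of
  `altHom k M 𝒪 = 𝓗om(⋀ᵏ M, 𝒪)` over an open `W ≤ U` is zero;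
* `not_isInvertible_altHom_of_locallyGenerates` : hence `𝓗om(⋀ᵏ M, 𝒪)` is **not** invertible if `U` is nonempty;
* `not_isInvertible_anticanonicalSheaf_of_lt`, `not_isAmple_anticanonicalSheaf_of_lt` : on `ℙ^N`, `anticanonicalSheaf _ k` is **not** invertible,
  so **not** ample, for `k > N` (whereas it is ample for `k = N`, `isAmple_anticanonicalSheaf`): for `N < 6` the projective space `ℙ^N` fails the
  hypothesis `IsAmple (anticanonicalSheaf π 6)` of `Statement`.
-/

open AlgebraicGeometry CategoryTheory Opposite TopologicalSpace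

universe u

namespace Claimed.Open.R067

/-- An alternating `k`-linear map vanishes on vectors in the span of `r < k` elements. -/
lemma alt_eq_zero_of_lt {R P Q : Type*} [CommRing R] [AddCommGroup P] [Module R P] [AddCommGroup Q]
    [Module R Q] {k r : ℕ} (hr : r < k) (g : P [⋀^Fin k]→ₗ[R] Q) (θ : Fin r → P) (m : Fin k → P)
    (c : Fin k → Fin r → R) (hm : ∀ l, m l = ∑ j, c l j • θ j) : g m = 0 := by
  let L : (Fin r → R) →ₗ[R] P := Fintype.linearCombination R θ
  have hL : ∀ l, m l = L (c l) := fun l => by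
    rw [hm l]
    simp [L, Fintype.linearCombination_apply]
  have h0 : g.compLinearMap L = 0 := by
    refine Module.Basis.ext_alternating (Pi.basisFun R (Fin r)) (fun v hv => ?_)
    exfalso
    have := Fintype.card_le_of_injective v hv
    simp only [Fintype.card_fin] at this
    omega
  have h1 : g m = g.compLinearMap L c := by
    rw [AlternatingMap.compLinearMap_apply]
    congr 1
    funext l
    exact hL l
  rw [h1, h0]
  rfl

variable {X : Scheme.{u}}

/-- If `M` is locally generated over `U` by `r < k` sections, then `𝓗om(⋀ᵏ M, 𝒪)` is zero over `U`. -/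
theorem altHom_eq_zero_of_locallyGenerates {k r : ℕ} (hr : r < k) {M : X.Modules} {U : X.Opens}
    {θ : Fin r → Γ(M, U)} (hθ : LocallyGenerates M U θ) {W : X.Opens} (hW : W ≤ U)
    (s : Γ(altHom k M (structureSheaf X), W)) : s = 0 := by
  apply evO_ext
  intro V hV
  apply AlternatingMap.ext
  intro m
  show evO s V hV m = 0
  apply resO_ext
  intro x hx
  obtain ⟨W', hW', c, hxW', hc⟩ := hθ.simul (hV.trans hW) m x hx
  refine ⟨W', hW', hxW', ?_⟩
  rw [resO_evO s hV hW' m, map_zero]
  exact alt_eq_zero_of_lt hr _ (fun j => res M (hW'.trans (hV.trans hW)) (θ j)) _ c hc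

/-- Hence it is **not** invertible, as soon as `U` is nonempty. -/
theorem not_isInvertible_altHom_of_locallyGenerates {k r : ℕ} (hr : r < k) {M : X.Modules}
    {U : X.Opens} {θ : Fin r → Γ(M, U)} (hθ : LocallyGenerates M U θ) (x : X) (hx : x ∈ U) :
    ¬ IsInvertible (altHom k M (structureSheaf X)) := by
  intro h
  obtain ⟨V, e, hxV, he⟩ := h x
  obtain ⟨a, -, ha⟩ := he (V ⊓ U) inf_le_left 0
  have h0 := ha 0 (altHom_eq_zero_of_locallyGenerates hr hθ inf_le_right _)
  have h1 := ha 1 (altHom_eq_zero_of_locallyGenerates hr hθ inf_le_right _)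
  have : Nonempty (V ⊓ U : X.Opens) := ⟨⟨x, hxV, hx⟩⟩
  have : Nontrivial Γ(X, V ⊓ U) := inferInstance
  exact zero_ne_one (h0.trans h1.symm)

/-- On `ℙ^N` the sheaf `𝓗om(⋀ᵏ Ω, 𝒪)` is **not** invertible for `k > N`. -/
theorem not_isInvertible_anticanonicalSheaf_of_lt {N k : ℕ} (h : N < k) :
    ¬ IsInvertible (anticanonicalSheaf (projSpaceHom N) k) := by
  have : Nonempty (projSpace N) := (projSpace_connectedSpace N).toNonempty
  obtain ⟨x⟩ := this
  obtain ⟨i, hi⟩ := exists_mem_stdOpen N x
  exact not_isInvertible_altHom_of_locallyGenerates h (locallyGenerates_dCoord N i) x hi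

/-- So it is **not** ample. -/
theorem not_isAmple_anticanonicalSheaf_of_lt {N k : ℕ} (h : N < k) :
    ¬ IsAmple (anticanonicalSheaf (projSpaceHom N) k) := fun H =>
  not_isInvertible_anticanonicalSheaf_of_lt h H.1

/-- `ℙ^N`, `N < 6`, fails the hypothesis `IsAmple (anticanonicalSheaf π 6)` of `Statement`. -/
theorem not_isAmple_anticanonicalSheaf_six {N : ℕ} (h : N < 6) :
    ¬ IsAmple (anticanonicalSheaf (projSpaceHom N) 6) :=
  not_isAmple_anticanonicalSheaf_of_lt h

end Claimed.Open.R067
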