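import Mathlib

/-!
# The Campana–Peternell conjecture in dimension six: statement

Paper: *The Campana–Peternell conjecture in dimension six* (September 25, 2026), Theorem 1.1
(`thm:main`):

> Every smooth connected complex projective Fano variety of dimension six with nef tangent
> bundle is rational homogeneous.

Everything is phrased with Mathlib's schemes over `Spec ℂ`, sheaves of modules `X.Modules` and
group objects in `Over (Spec ℂ)`.  Mathlib has no internal Hom of sheaves of modules, no cotangent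
or tangent sheaf of a scheme, no invertible sheaves, ampleness, degrees, nefness, and no
semisimple groups, parabolic subgroups or quotients `G/P`; they are all defined here.

Contents.
* `altHom k M N`       : the sheaf `𝓗om(⋀ᵏ M, N)` (with the proof that it is a sheaf);
* `cotangentSheaf`, `tangentSheaf`, `anticanonicalSheaf` : `Ω_X`, `T_X = 𝓗om(Ω_X, 𝒪_X)`,
  `ω_X⁻¹ = 𝓗om(⋀ⁿ Ω_X, 𝒪_X)`;
* `IsInvertible`, `tensorPow`, `IsAmple` : invertible sheaves, `L^{⊗ n}`, ampleness (Stacks 01PS);
* `HasDegree`, `IsNef`  : degree of an invertible sheaf on a curve, nef vector bundles;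
* `projSpace`, `IsProjective` : `ℙ^N_ℂ` and projectivity;
* `IsSemisimple`, `IsParabolic`, `IsQuotient`, `IsRationalHomogeneous` : `G/P`;
* `Statement`.
-/

open AlgebraicGeometry CategoryTheory Opposite TopologicalSpace

universe u

namespace Claimed.Open.R067

/-! ## Restriction maps -/

section Restriction

variable {X : Scheme.{u}}

/-- Restriction `M(V) → M(W)` of sections of a sheaf of modules, for `W ≤ V`. -/
noncomputable def res (M : X.Modules) {V W : X.Opens} (h : W ≤ V) : Γ(M, V) →+ Γ(M, W) :=
  (M.presheaf.map (homOfLE h).op).hom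

/-- Restriction `𝒪_X(V) → 𝒪_X(W)` of regular functions, for `W ≤ V`. -/
noncomputable def resO {V W : X.Opens} (h : W ≤ V) : Γ(X, V) →+* Γ(X, W) :=
  (X.presheaf.map (homOfLE h).op).hom

lemma res_res (M : X.Modules) {V W W' : X.Opens} (h : W ≤ V) (h' : W' ≤ W) (m : Γ(M, V)) :
    res M h' (res M h m) = res M (h'.trans h) m := by
  simp only [res]
  rw [← AddCommGrpCat.comp_apply, ← Functor.map_comp]
  rfl

lemma resO_resO {V W W' : X.Opens} (h : W ≤ V) (h' : W' ≤ W) (a : Γ(X, V)) :
    resO h' (resO h a) = resO (h'.trans h) a := by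
  simp only [resO]
  rw [← CommRingCat.comp_apply, ← Functor.map_comp]
  rfl

lemma res_smul (M : X.Modules) {V W : X.Opens} (h : W ≤ V) (a : Γ(X, V)) (m : Γ(M, V)) :
    res M h (a • m) = resO h a • res M h m :=
  Scheme.Modules.map_smul M (homOfLE h) a m

lemma res_glue (N : X.Modules) {ι : Type*} (U : ι → X.Opens) (V : X.Opens) (hU : ∀ i, U i ≤ V)
    (hcover : V ≤ iSup U) (sf : ∀ i, Γ(N, U i))
    (hsf : ∀ i j, res N (inf_le_left : U i ⊓ U j ≤ U i) (sf i) =
      res N (inf_le_right : U i ⊓ U j ≤ U j) (sf j)) :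
    ∃! s : Γ(N, V), ∀ i, res N (hU i) s = sf i :=
  TopCat.Sheaf.existsUnique_gluing' ⟨N.presheaf, N.isSheaf⟩ U V (fun i => homOfLE (hU i)) hcover
    sf hsf

end Restriction

/-! ## The sheaf `𝓗om(⋀ᵏ M, N)`

For sheaves of `𝒪_X`-modules `M`, `N`, the sections over `U` of `𝓗om(⋀ᵏ M, N)` are the morphisms
`(⋀ᵏ M)|_U → N|_U`.  As `⋀ᵏ M` is the sheaf associated with `V ↦ ⋀ᵏ_{𝒪(V)} M(V)` and `N` is a sheaf,
these are the families, indexed by the opens `V ≤ U`, of alternating `𝒪(V)`-multilinear maps
`M(V)^k → N(V)` that commute with restriction.  This is what we take as the definition.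
For `k = 1` this is the usual sheaf `𝓗om(M, N)`. -/

section AltHom

variable {X : Scheme.{u}}

/-- Alternating `k`-linear maps `M(V)^k → N(V)`, for `V ≤ U`, regarded as a module
over `𝒪_X(U)`. -/
def AltAt (k : ℕ) (M N : X.Modules) (U : X.Opens) (V : {V : X.Opens // V ≤ U}) : Type u :=
  Γ(M, V.1) [⋀^Fin k]→ₗ[Γ(X, V.1)] Γ(N, V.1)

section
variable (k : ℕ) (M N : X.Modules) (U : X.Opens) (V : {V : X.Opens // V ≤ U})

noncomputable instance instAddCommGroupAltAt : AddCommGroup (AltAt k M N U V) :=
  inferInstanceAs (AddCommGroup (Γ(M, V.1) [⋀^Fin k]→ₗ[Γ(X, V.1)] Γ(N, V.1)))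

noncomputable instance instModuleAltAt : Module Γ(X, U) (AltAt k M N U V) :=
  letI : Module Γ(X, V.1) (AltAt k M N U V) :=
    inferInstanceAs (Module Γ(X, V.1) (Γ(M, V.1) [⋀^Fin k]→ₗ[Γ(X, V.1)] Γ(N, V.1)))
  Module.compHom _ (resO V.2)

variable {k M N U V}

/-- The underlying alternating map. -/
def AltAt.alt (φ : AltAt k M N U V) : Γ(M, V.1) [⋀^Fin k]→ₗ[Γ(X, V.1)] Γ(N, V.1) := φ

@[simp] lemma AltAt.alt_add (φ ψ : AltAt k M N U V) : (φ + ψ).alt = φ.alt + ψ.alt := rfl
@[simp] lemma AltAt.alt_zero : (0 : AltAt k M N U V).alt = 0 := rfl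
@[simp] lemma AltAt.alt_smul (a : Γ(X, U)) (φ : AltAt k M N U V) :
    (a • φ).alt = resO V.2 a • φ.alt := rfl

end

/-- Sections over `U` of the sheaf `𝓗om(⋀ᵏ M, N)`: families, indexed by the opens `V ≤ U`, of
alternating `k`-linear maps `M(V)^k → N(V)` which commute with restriction. -/
noncomputable def altHomSections (k : ℕ) (M N : X.Modules) (U : X.Opens) :
    Submodule Γ(X, U) (∀ V : {V : X.Opens // V ≤ U}, AltAt k M N U V) where
  carrier := {φ | ∀ (V W : {V : X.Opens // V ≤ U}) (h : W.1 ≤ V.1) (m : Fin k → Γ(M, V.1)),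
    res N h ((φ V).alt m) = (φ W).alt (fun i => res M h (m i))}
  add_mem' := by
    intro φ ψ hφ hψ V W h m
    simp [hφ V W h m, hψ V W h m]
  zero_mem' := by
    intro V W h m
    simp
  smul_mem' := by
    intro a φ hφ V W h m
    simp [hφ V W h m, res_smul, resO_resO]

section
variable (k : ℕ) (M N : X.Modules)

/-- Restriction of sections of `𝓗om(⋀ᵏ M, N)`. -/
noncomputable def altHomRes {U U' : X.Opens} (h : U' ≤ U) :
    altHomSections k M N U →+ altHomSections k M N U' where
  toFun φ := ⟨fun V => φ.1 ⟨V.1, V.2.trans h⟩, fun V W hWV m =>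
    φ.2 ⟨V.1, V.2.trans h⟩ ⟨W.1, W.2.trans h⟩ hWV m⟩
  map_zero' := rfl
  map_add' _ _ := rfl

lemma altHomRes_smul {U U' : X.Opens} (h : U' ≤ U) (a : Γ(X, U)) (φ : altHomSections k M N U) :
    altHomRes k M N h (a • φ) = resO h a • altHomRes k M N h φ := by
  apply Subtype.ext
  funext V
  change resO (V.2.trans h) a • (φ.1 ⟨V.1, V.2.trans h⟩).alt =
      resO V.2 (resO h a) • (φ.1 ⟨V.1, V.2.trans h⟩).alt
  rw [resO_resO]

/-- The presheaf of abelian groups underlying `𝓗om(⋀ᵏ M, N)`. -/
noncomputable def altHomAb : (X.Opens)ᵒᵖ ⥤ Ab.{u} where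
  obj U := AddCommGrpCat.of (altHomSections k M N U.unop)
  map f := AddCommGrpCat.ofHom (altHomRes k M N f.unop.le)
  map_id _ := rfl
  map_comp _ _ := rfl

noncomputable instance instModuleAltHomAb (U : (X.Opens)ᵒᵖ) :
    Module (X.ringCatSheaf.obj.obj U) ((altHomAb k M N).obj U) :=
  inferInstanceAs (Module Γ(X, U.unop) (altHomSections k M N U.unop))

/-- The presheaf of modules `𝓗om(⋀ᵏ M, N)`. -/
noncomputable def altHomPresheaf : PresheafOfModules X.ringCatSheaf.obj :=
  PresheafOfModules.ofPresheaf (altHomAb k M N)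
    (fun _ _ f a φ => altHomRes_smul k M N f.unop.le a φ)

end

/-! ### The sheaf condition for `𝓗om(⋀ᵏ M, N)` -/

section Glue

variable {k : ℕ} {M N : X.Modules} {ι : Type u} (U : ι → X.Opens)
  (sf : ∀ i, altHomSections k M N (U i))

/-- The local pieces of the glued map. -/
noncomputable def gluePiece (V : X.Opens) (m : Fin k → Γ(M, V)) (i : ι) : Γ(N, V ⊓ U i) :=
  ((sf i).1 ⟨V ⊓ U i, inf_le_right⟩).alt (fun a => res M inf_le_left (m a))

lemma le_iSup_inf {V : X.Opens} (hV : V ≤ iSup U) : V ≤ ⨆ i, V ⊓ U i := by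
  rw [← inf_iSup_eq]
  exact le_inf le_rfl hV

variable (hsf : ∀ (i j : ι) (V : X.Opens) (hi : V ≤ U i) (hj : V ≤ U j),
  ((sf i).1 ⟨V, hi⟩).alt = ((sf j).1 ⟨V, hj⟩).alt)

include hsf in
lemma glue_existsUnique (V : X.Opens) (hV : V ≤ iSup U) (m : Fin k → Γ(M, V)) :
    ∃! g : Γ(N, V), ∀ i, res N (inf_le_left : V ⊓ U i ≤ V) g = gluePiece U sf V m i := by
  refine res_glue N (fun i => V ⊓ U i) V (fun i => inf_le_left) (le_iSup_inf U hV) _ ?_
  intro i j
  have h1 := (sf i).2 ⟨V ⊓ U i, inf_le_right⟩
    ⟨(V ⊓ U i) ⊓ (V ⊓ U j), inf_le_left.trans inf_le_right⟩ inf_le_left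
    (fun a => res M inf_le_left (m a))
  have h2 := (sf j).2 ⟨V ⊓ U j, inf_le_right⟩
    ⟨(V ⊓ U i) ⊓ (V ⊓ U j), inf_le_right.trans inf_le_right⟩ inf_le_right
    (fun a => res M inf_le_left (m a))
  simp only [gluePiece]
  rw [h1, h2]
  simp only [res_res]
  rw [hsf i j]

/-- The glued map on sections over `V`. -/
noncomputable def glueFun (V : X.Opens) (hV : V ≤ iSup U) (m : Fin k → Γ(M, V)) : Γ(N, V) :=
  (glue_existsUnique U sf hsf V hV m).choose

lemma glueFun_spec (V : X.Opens) (hV : V ≤ iSup U) (m : Fin k → Γ(M, V)) (i : ι) :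
    res N (inf_le_left : V ⊓ U i ≤ V) (glueFun U sf hsf V hV m) = gluePiece U sf V m i :=
  (glue_existsUnique U sf hsf V hV m).choose_spec.1 i

lemma glueFun_eq (V : X.Opens) (hV : V ≤ iSup U) (m : Fin k → Γ(M, V)) (g : Γ(N, V))
    (hg : ∀ i, res N (inf_le_left : V ⊓ U i ≤ V) g = gluePiece U sf V m i) :
    g = glueFun U sf hsf V hV m :=
  (glue_existsUnique U sf hsf V hV m).choose_spec.2 g hg

lemma res_update (M : X.Modules) {V W : X.Opens} (h : W ≤ V) [DecidableEq (Fin k)]
    (m : Fin k → Γ(M, V)) (a : Fin k) (x : Γ(M, V)) :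
    (fun b => res M h (Function.update m a x b)) =
      Function.update (fun b => res M h (m b)) a (res M h x) := by
  funext b
  by_cases hb : b = a
  · subst hb; simp
  · simp [Function.update_of_ne hb]

/-- The glued alternating map on sections over `V`. -/
noncomputable def glueAlt (V : X.Opens) (hV : V ≤ iSup U) :
    Γ(M, V) [⋀^Fin k]→ₗ[Γ(X, V)] Γ(N, V) where
  toFun := glueFun U sf hsf V hV
  map_update_add' := by
    intro _ m a x y
    symm
    apply glueFun_eq
    intro i
    rw [map_add, glueFun_spec, glueFun_spec]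
    simp only [gluePiece, res_update, map_add, AlternatingMap.map_update_add]
  map_update_smul' := by
    intro _ m a c x
    symm
    apply glueFun_eq
    intro i
    rw [res_smul, glueFun_spec]
    simp only [gluePiece, res_update, res_smul, AlternatingMap.map_update_smul]
  map_eq_zero_of_eq' := by
    intro m a b hab hne
    symm
    apply glueFun_eq
    intro i
    rw [map_zero]
    symm
    exact AlternatingMap.map_eq_zero_of_eq _ _ (by simp only [hab]) hne

/-- The glued section of `𝓗om(⋀ᵏ M, N)` over `⨆ i, U i`. -/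
noncomputable def glueSection : altHomSections k M N (iSup U) :=
  ⟨fun V => glueAlt U sf hsf V.1 V.2, by
    intro V W h m
    change res N h (glueFun U sf hsf V.1 V.2 m) = glueFun U sf hsf W.1 W.2 _
    apply glueFun_eq
    intro i
    have h1 : res N (inf_le_left : W.1 ⊓ U i ≤ W.1) (res N h (glueFun U sf hsf V.1 V.2 m)) =
        res N (inf_le_inf_right (U i) h) (res N (inf_le_left : V.1 ⊓ U i ≤ V.1)
          (glueFun U sf hsf V.1 V.2 m)) := by
      rw [res_res, res_res]
    rw [h1, glueFun_spec]
    simp only [gluePiece]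
    rw [(sf i).2 ⟨V.1 ⊓ U i, inf_le_right⟩ ⟨W.1 ⊓ U i, inf_le_right⟩ (inf_le_inf_right (U i) h)]
    simp only [res_res]⟩

lemma glueSection_res (i : ι) :
    altHomRes k M N (le_iSup U i) (glueSection U sf hsf) = sf i := by
  apply Subtype.ext
  funext V
  apply AlternatingMap.ext
  intro m
  change glueFun U sf hsf V.1 (V.2.trans (le_iSup U i)) m = ((sf i).1 V).alt m
  symm
  apply glueFun_eq
  intro j
  rw [(sf i).2 V ⟨V.1 ⊓ U j, inf_le_left.trans V.2⟩ inf_le_left]
  simp only [gluePiece]
  rw [hsf i j]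

lemma glueSection_unique (s : altHomSections k M N (iSup U))
    (hs : ∀ i, altHomRes k M N (le_iSup U i) s = sf i) : s = glueSection U sf hsf := by
  apply Subtype.ext
  funext V
  apply AlternatingMap.ext
  intro m
  change (s.1 V).alt m = glueFun U sf hsf V.1 V.2 m
  apply glueFun_eq
  intro i
  rw [s.2 V ⟨V.1 ⊓ U i, inf_le_left.trans V.2⟩ inf_le_left]
  simp only [gluePiece, ← hs i]
  rfl

end Glue

lemma altHomAb_isSheaf (k : ℕ) (M N : X.Modules) :
    TopCat.Presheaf.IsSheaf (altHomAb k M N) := by
  rw [TopCat.Presheaf.isSheaf_iff_isSheafUniqueGluing]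
  intro ι U sf hsf
  have hsf' : ∀ (i j : ι) (V : X.Opens) (hi : V ≤ U i) (hj : V ≤ U j),
      ((sf i).1 ⟨V, hi⟩).alt = ((sf j).1 ⟨V, hj⟩).alt := by
    intro i j V hi hj
    have := congrArg (fun s : altHomSections k M N (U i ⊓ U j) => (s.1 ⟨V, le_inf hi hj⟩).alt)
      (hsf i j)
    exact this
  exact ⟨glueSection U sf hsf', glueSection_res U sf hsf', fun s hs =>
    glueSection_unique U sf hsf' s hs⟩

/-- The sheaf of modules `𝓗om(⋀ᵏ M, N)` of alternating `k`-linear maps from `M` to `N`. -/
noncomputable def altHom (k : ℕ) (M N : X.Modules) : X.Modules where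
  val := altHomPresheaf k M N
  isSheaf := altHomAb_isSheaf k M N

end AltHom

/-! ## Structure sheaf, tensor powers, invertible sheaves, ampleness -/

section LineBundles

variable {X : Scheme.{u}}

/-- The structure sheaf `𝒪_X`, as a sheaf of modules over itself. -/
noncomputable def structureSheaf (X : Scheme.{u}) : X.Modules := SheafOfModules.unit X.ringCatSheaf

/-- The tensor product `M ⊗_{𝒪_X} N` of sheaves of modules: the sheaf associated with the presheaf
`U ↦ M(U) ⊗_{𝒪_X(U)} N(U)` (Hartshorne II.5, Stacks 01CA). -/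
noncomputable def tensor (M N : X.Modules) : X.Modules :=
  (PresheafOfModules.sheafification (𝟙 X.ringCatSheaf.obj)).obj
    (MonoidalCategory.tensorObj
      (C := PresheafOfModules (X.presheaf ⋙ forget₂ CommRingCat RingCat)) M.val N.val)

/-- The tensor powers `L^{⊗ n}`. -/
noncomputable def tensorPow (L : X.Modules) : ℕ → X.Modules
  | 0 => structureSheaf X
  | 1 => L
  | (n + 2) => tensor (tensorPow L (n + 1)) L

/-- `e ∈ L(V)` is a frame of `L` over `V`, i.e. `a ↦ a • e` is an isomorphism `𝒪_V ≅ L|_V`: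
over every `W ≤ V`, every section of `L` is `a • e|_W` for a unique `a ∈ 𝒪_X(W)`. -/
def IsFrame (L : X.Modules) (V : X.Opens) (e : Γ(L, V)) : Prop :=
  ∀ (W : X.Opens) (h : W ≤ V) (t : Γ(L, W)), ∃! a : Γ(X, W), a • res L h e = t

/-- `L` is an invertible sheaf: locally free of rank one (Hartshorne II.6, Stacks 01CS). -/
def IsInvertible (L : X.Modules) : Prop :=
  ∀ x : X, ∃ (V : X.Opens) (e : Γ(L, V)), x ∈ V ∧ IsFrame L V e

/-- For a global section `s` of an invertible sheaf `L`, the locus `X_s` where `s` generates `L`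
(Stacks 01CY): the largest open subscheme on which `s` is a frame. -/
def nonvanishingLocus (L : X.Modules) (s : Γ(L, ⊤)) : X.Opens :=
  sSup {V | IsFrame L V (res L le_top s)}

/-- Ample invertible sheaves (Stacks 01PS, EGA II 4.5.3): `X` is quasi-compact and every point
lies in an affine `X_s` for some `s ∈ Γ(X, L^{⊗ n})`, `n ≥ 1`. -/
def IsAmple (L : X.Modules) : Prop :=
  IsInvertible L ∧ CompactSpace X ∧
    ∀ x : X, ∃ (n : ℕ) (_ : 1 ≤ n) (s : Γ(tensorPow L n, ⊤)),
      x ∈ nonvanishingLocus _ s ∧ IsAffineOpen (nonvanishingLocus _ s)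

end LineBundles

/-! ## Degree of an invertible sheaf on a curve -/

section Degree

variable {C : Scheme.{u}} [IsIntegral C]

lemma nonempty_inf (U V : C.Opens) [hU : Nonempty U] [hV : Nonempty V] :
    Nonempty (U ⊓ V : C.Opens) := by
  obtain ⟨x, hx⟩ := hU
  obtain ⟨y, hy⟩ := hV
  obtain ⟨z, hz⟩ := nonempty_preirreducible_inter U.2 V.2 ⟨x, hx⟩ ⟨y, hy⟩
  exact ⟨⟨z, hz⟩⟩

/-- For a rational section `s ∈ L(U)` and a frame `e` of `L` over `V`, the rational function
`s / e ∈ K(C)`: the germ of the unique `a ∈ 𝒪(U ⊓ V)` with `a • e = s` on `U ⊓ V`. -/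
noncomputable def ratio (L : C.Modules) {U V : C.Opens} [Nonempty U] [Nonempty V]
    (s : Γ(L, U)) (e : Γ(L, V)) (he : IsFrame L V e) : C.functionField :=
  haveI := nonempty_inf U V
  C.germToFunctionField (U ⊓ V) (he (U ⊓ V) inf_le_right (res L inf_le_left s)).choose

variable [IsLocallyNoetherian C]

/-- The order at the point `x` of the rational section `s ∈ L(U)` of the invertible sheaf `L`:
the order of vanishing at `x` of the rational function `s / e`, where `e` is a frame of `L` near
`x` (two frames differ by a unit, so this does not depend on `e`). -/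
noncomputable def ordAt {L : C.Modules} (hL : IsInvertible L) {U : C.Opens} [Nonempty U]
    (s : Γ(L, U)) (x : C) : ℤ :=
  haveI : Nonempty (hL x).choose := ⟨⟨x, (hL x).choose_spec.choose_spec.1⟩⟩
  Scheme.ord (ratio L s (hL x).choose_spec.choose (hL x).choose_spec.choose_spec.2) x

/-- `d` is the degree of the invertible sheaf `L` on the curve `C` over `ℂ`: `L` has a nonzero
rational section `s` whose divisor `∑ₓ ordₓ(s) · x` has degree `d` (Hartshorne II.6.13–II.6.15 and
IV.1; all closed points have residue field `ℂ`, so each counts once; `Scheme.ord` is `0` at the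
generic point).  On a smooth proper curve principal divisors have degree `0` (Hartshorne II.6.10),
so `d` is unique. -/
def HasDegree (L : C.Modules) (d : ℤ) : Prop :=
  ∃ (hL : IsInvertible L) (U : C.Opens) (_ : Nonempty U) (s : Γ(L, U)),
    s ≠ 0 ∧ ∑ᶠ x : C, ordAt hL s x = d

end Degree

/-! ## Varieties over `ℂ`: differentials, tangent sheaf, anticanonical sheaf, nefness -/

/-- `Spec ℂ`. -/
noncomputable abbrev SpecC : Scheme.{0} := Spec (CommRingCat.of ℂ)

section Varieties

variable {X : Scheme.{0}} (π : X ⟶ SpecC)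

/-- The structure map `ℂ → 𝒪_X(U)`. -/
noncomputable def constHom (U : X.Opens) : CommRingCat.of ℂ ⟶ Γ(X, U) :=
  (Scheme.ΓSpecIso (CommRingCat.of ℂ)).inv ≫ π.appTop ≫ X.presheaf.map (homOfLE le_top).op

/-- The morphism from the constant presheaf `ℂ` to `𝒪_X`. -/
noncomputable def constToStructure :
    (Functor.const (X.Opens)ᵒᵖ).obj (CommRingCat.of ℂ) ⟶ X.presheaf where
  app U := constHom π U.unop
  naturality U V f := by
    simp only [Functor.const_obj_obj, Functor.const_obj_map, Category.id_comp, constHom,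
      Category.assoc, ← Functor.map_comp]
    rfl

/-- The presheaf `U ↦ Ω_{𝒪_X(U)/ℂ}` of Kähler differentials. -/
noncomputable def cotangentPresheaf : PresheafOfModules X.ringCatSheaf.obj :=
  PresheafOfModules.DifferentialsConstruction.relativeDifferentials' (constToStructure π)

/-- The cotangent sheaf `Ω_{X/ℂ}`: the sheaf associated with `U ↦ Ω_{𝒪_X(U)/ℂ}` (Stacks 08RL). -/
noncomputable def cotangentSheaf : X.Modules :=
  (PresheafOfModules.sheafification (𝟙 X.ringCatSheaf.obj)).obj (cotangentPresheaf π)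

/-- The tangent sheaf `T_X = 𝓗om(Ω_{X/ℂ}, 𝒪_X)` (Hartshorne II.8). -/
noncomputable def tangentSheaf : X.Modules :=
  altHom 1 (cotangentSheaf π) (structureSheaf X)

/-- The anticanonical sheaf `ω_X⁻¹ = 𝓗om(⋀ⁿ Ω_{X/ℂ}, 𝒪_X)` of a smooth variety of dimension `n`,
the dual of the canonical sheaf `ω_X = ⋀ⁿ Ω_{X/ℂ}` (Hartshorne II.8). -/
noncomputable def anticanonicalSheaf (n : ℕ) : X.Modules :=
  altHom n (cotangentSheaf π) (structureSheaf X)

/-- A vector bundle `E` on `X` is nef if `𝒪_{ℙ(E)}(1)` has nonnegative degree on every curve in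
`ℙ(E) = Proj Sym E`.  By the universal property of `ℙ(E)` (Hartshorne II.7.12), a morphism from a
curve `C` to `ℙ(E)` is a pair of a morphism `ν : C → X` and an invertible quotient `ν^*E ↠ L`,
and then `L` is the pullback of `𝒪_{ℙ(E)}(1)`.  So (Lazarsfeld, Positivity II, 6.1.1 and 6.1.18)
`E` is nef iff for every smooth proper integral curve `C` over `ℂ`, every `ν : C → X` and every
invertible quotient `ν^*E ↠ L`, the degree of `L` is nonnegative. -/
def IsNef (E : X.Modules) : Prop :=
  ∀ (C : Scheme.{0}) [IsIntegral C] [IsLocallyNoetherian C] (c : C ⟶ SpecC) [IsProper c]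
    [SmoothOfRelativeDimension 1 c] (ν : C ⟶ X) (_ : ν ≫ π = c) (L : C.Modules)
    (q : (Scheme.Modules.pullback ν).obj E ⟶ L) [Epi q],
    IsInvertible L → ∃ d : ℤ, HasDegree L d ∧ 0 ≤ d

end Varieties

/-! ## Projective space and projective varieties -/

section Projective

attribute [local instance] MvPolynomial.gradedAlgebra

/-- Projective space `ℙ^N_ℂ = Proj ℂ[x₀, …, x_N]`. -/
noncomputable def projSpace (N : ℕ) : Scheme.{0} :=
  Proj (MvPolynomial.homogeneousSubmodule (Fin (N + 1)) ℂ)

/-- The structure morphism `ℙ^N_ℂ → Spec ℂ`. -/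
noncomputable def projSpaceHom (N : ℕ) : projSpace N ⟶ SpecC :=
  Proj.toSpecZero (MvPolynomial.homogeneousSubmodule (Fin (N + 1)) ℂ) ≫
    Spec.map (CommRingCat.ofHom
      (algebraMap ℂ (MvPolynomial.homogeneousSubmodule (Fin (N + 1)) ℂ 0)))

/-- `X` is projective over `ℂ`: it is a closed subscheme of some `ℙ^N_ℂ`. -/
def IsProjective {X : Scheme.{0}} (π : X ⟶ SpecC) : Prop :=
  ∃ (N : ℕ) (i : X ⟶ projSpace N), IsClosedImmersion i ∧ i ≫ projSpaceHom N = π

end Projective

/-! ## Algebraic groups and rational homogeneous varieties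

A complex (linear) algebraic group is an affine group scheme `G` of finite type over `ℂ`
(automatically smooth, by Cartier's theorem).  As in Borel, Humphreys and Springer, its closed
subgroups are the subgroups of `G(ℂ)` that are closed in the Zariski topology. -/

section Groups

open scoped MonObj
open MonoidalCategory CartesianMonoidalCategory

variable (G : Over SpecC)

/-- The set `G(ℂ)` of complex points of `G`; it is a group if `G` is a group scheme. -/
abbrev Points : Type := 𝟙_ (Over SpecC) ⟶ G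

/-- The (closed) point of the scheme `G` underlying a complex point. -/
noncomputable def Points.toPoint (g : Points G) : G.left :=
  g.left (IsLocalRing.closedPoint ℂ)

/-- The Zariski topology on `G(ℂ)`. -/
noncomputable instance instTopologicalSpacePoints : TopologicalSpace (Points G) :=
  TopologicalSpace.induced (Points.toPoint G) inferInstance

variable [GrpObj G]

/-- `H` is a closed connected solvable subgroup of `G`. -/
def IsClosedConnectedSolvable (H : Subgroup (Points G)) : Prop :=
  IsClosed (H : Set (Points G)) ∧ IsConnected (H : Set (Points G)) ∧ Group.IsSolvable H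

/-- `G` is semisimple: its radical, the largest closed connected solvable normal subgroup, is
trivial (Humphreys 19.5, Borel 11.21, Springer 6.4.14). -/
def IsSemisimple : Prop :=
  ∀ H : Subgroup (Points G), IsClosedConnectedSolvable G H → H.Normal → H = ⊥

/-- `q : G → Y` is the quotient `G → G/P` (Borel II.6): it is surjective, its fibres over complex
points are the cosets `gP`, it is invariant under right translation by `P`, and every morphism
from `G` to a `ℂ`-scheme that is invariant under right translation by `P` factors uniquely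
through `q`.  The last two properties determine `(Y, q)` up to unique isomorphism. -/
def IsQuotient (P : Subgroup (Points G)) {Y : Over SpecC} (q : G ⟶ Y) : Prop :=
  Function.Surjective q.left ∧
  (∀ g g' : Points G, g ≫ q = g' ≫ q ↔ g⁻¹ * g' ∈ P) ∧
  (∀ p ∈ P, (GrpObj.mulRight p).hom ≫ q = q) ∧
  ∀ (Z : Over SpecC) (φ : G ⟶ Z), (∀ p ∈ P, (GrpObj.mulRight p).hom ≫ φ = φ) →
    ∃! ψ : Y ⟶ Z, q ≫ ψ = φ

/-- A parabolic subgroup: a closed subgroup `P` such that the quotient variety `G/P` is complete.
This is the definition of Springer, *Linear algebraic groups*, 6.2.1, and of Milne, *Algebraic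
groups*, 17.15; by Borel 11.2 and Humphreys 21.3 it is equivalent to: `P` contains a Borel
subgroup (a maximal closed connected solvable subgroup) of `G`. -/
def IsParabolic (P : Subgroup (Points G)) : Prop :=
  IsClosed (P : Set (Points G)) ∧
    ∃ (Y : Over SpecC) (q : G ⟶ Y), IsQuotient G P q ∧ IsProper Y.hom

end Groups

open scoped MonObj in
/-- `X` is rational homogeneous: it is isomorphic to `G/P` for a connected semisimple complex
algebraic group `G` and a parabolic subgroup `P`. -/
def IsRationalHomogeneous {X : Scheme.{0}} (π : X ⟶ SpecC) : Prop :=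
  ∃ (G : Over SpecC) (_ : GrpObj G),
    IsAffine G.left ∧ LocallyOfFiniteType G.hom ∧ ConnectedSpace G.left ∧ IsSemisimple G ∧
    ∃ P : Subgroup (Points G), IsParabolic G P ∧ ∃ q : G ⟶ Over.mk π, IsQuotient G P q

/-! ## The theorem -/

/-- **Theorem 1.1** (the Campana–Peternell conjecture in dimension six).  Every smooth connected
complex projective Fano variety of dimension six with nef tangent bundle is rational
homogeneous. -/
def Statement : Prop :=
  ∀ (X : Scheme.{0}) (π : X ⟶ SpecC),
    IsProjective π → SmoothOfRelativeDimension 6 π → ConnectedSpace X →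
    IsAmple (anticanonicalSheaf π 6) → IsNef π (tangentSheaf π) →
    IsRationalHomogeneous π

end Claimed.Open.R067
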